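import Crest.Agent.R086.N.Defs

open MeasureTheory Set Filter Topology Complex
open scoped ContDiff ComplexConjugate

namespace Crest.Agent.R086.N

noncomputable section

/-! # Algebraic ladder steps at one point.  Y = p - k'y, P = W_g y - k'p = A y - k'Y, A = ν² - k².
If y = 0 then P = -k'Y, Y = p.  If y ≠ 0 put w = Y/y; Ȳ P = (A w̄ - k'|w|²)|y|², ȳ p = (w + k')|y|².
|A| ≤ ν² + |k|² = Re A + 2 (Re k)². -/

variable {ν ρ : ℝ} {k y p Y P : ℂ}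

private theorem alg_zero (hY : Y = p - kp k ρ * y) (hP : P = Wg ν k ρ * y - kp k ρ * p) (hy : y = 0) :
    Y = p ∧ (conj Y * P).re = -k.re * ‖Y‖ ^ 2 ∧ (conj Y * P).im = -(k.im + ρ / 2) * ‖Y‖ ^ 2 := by
  subst hy
  have e : Y = p := by simpa using hY
  have e' : P = -kp k ρ * Y := by rw [hP, e]; ring
  refine ⟨e, ?_, ?_⟩ <;> rw [e', Complex.sq_norm, Complex.normSq_apply] <;> simp [kp] <;> ring

private theorem alg_red (hY : Y = p - kp k ρ * y) (hP : P = Wg ν k ρ * y - kp k ρ * p) (hy : y ≠ 0) :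
    ∃ a b : ℝ, ‖Y‖ ^ 2 = (a ^ 2 + b ^ 2) * ‖y‖ ^ 2 ∧
      (conj Y * P).re = ((ν ^ 2 + k.im ^ 2 - k.re ^ 2) * a - 2 * k.re * k.im * b -
        k.re * (a ^ 2 + b ^ 2)) * ‖y‖ ^ 2 ∧
      (conj Y * P).im = (-2 * k.re * k.im * a - (ν ^ 2 + k.im ^ 2 - k.re ^ 2) * b -
        (k.im + ρ / 2) * (a ^ 2 + b ^ 2)) * ‖y‖ ^ 2 ∧
      (conj y * p).re = (a + k.re) * ‖y‖ ^ 2 ∧ (conj y * p).im = (b + (k.im + ρ / 2)) * ‖y‖ ^ 2 := by
  obtain ⟨w, hw⟩ : ∃ w, Y = w * y := ⟨Y / y, by field_simp⟩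
  have e1 : p = (w + kp k ρ) * y := by linear_combination hw - hY
  have e2 : P = ((ν : ℂ) * ν - k * k - kp k ρ * w) * y := by
    rw [hP, e1]
    unfold Wg kp
    linear_combination (-(ρ : ℂ) ^ 2 / 4 * y) * I_mul_I
  refine ⟨w.re, w.im, ?_, ?_, ?_, ?_, ?_⟩
  · rw [hw, norm_mul, mul_pow, Complex.sq_norm w, Complex.normSq_apply]; ring
  all_goals
    simp only [e1, e2, hw, Complex.sq_norm, Complex.normSq_apply]
    simp [kp]
    ring

private theorem alg_core {X a b g T N : ℝ} (hX : 0 < X) (hN : 0 ≤ N) (hg : 0 ≤ g ^ 2)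
    (h : X * (a ^ 2 + b ^ 2) + (N + T ^ 2 - g ^ 2) * a - 2 * g * T * b ≤ 0) : X * a ≤ g ^ 2 := by
  by_contra hc
  push Not at hc
  have ha : 0 < a := pos_of_mul_pos_left (b := X) (by linarith [mul_comm X a]) hX.le
  have h1 := mul_le_mul_of_nonneg_left h hX.le
  have h2 := mul_pos (mul_pos hX ha) (sub_pos.2 hc)
  have h3 := mul_nonneg (mul_pos hX ha).le hN
  have h4 := mul_nonneg (sub_pos.2 hc).le (sq_nonneg T)
  nlinarith [sq_nonneg (X * b - g * T)]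

/-- X = κ - Re k > 0: X|w|² + Re(A w̄) ≤ 0 means |2Xw + A| ≤ |A|, so 2X Re w ≤ |A| - Re A ≤ 2 (Re k)² -/
theorem step_re (hY : Y = p - kp k ρ * y) (hP : P = Wg ν k ρ * y - kp k ρ * p) {κ : ℝ} (hκ : k.re < κ)
    (h : (conj Y * P).re ≤ -κ * ‖Y‖ ^ 2) :
    (conj y * p).re ≤ k.re * κ / (κ - k.re) * ‖y‖ ^ 2 ∧ (y = 0 → p = 0) := by
  have hX : 0 < κ - k.re := by linarith
  by_cases hy : y = 0
  · obtain ⟨e, e1, -⟩ := alg_zero hY hP hy
    refine ⟨by simp [hy], fun _ => ?_⟩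
    rw [e1] at h
    rw [← e, ← norm_eq_zero, ← sq_eq_zero_iff]
    nlinarith [sq_nonneg ‖Y‖]
  · refine ⟨?_, fun h0 => (hy h0).elim⟩
    obtain ⟨a, b, e0, e1, -, e3, -⟩ := alg_red hY hP hy
    have hn : 0 < ‖y‖ ^ 2 := by positivity
    rw [e0, e1, ← mul_assoc] at h
    have h1 := le_of_mul_le_mul_right h hn
    rw [e3]
    refine mul_le_mul_of_nonneg_right ?_ hn.le
    rw [le_div_iff₀ hX]
    have := alg_core (X := κ - k.re) (a := a) (b := b) (g := k.re) (T := k.im) (N := ν ^ 2) hX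
      (sq_nonneg _) (sq_nonneg _ ) (by linarith)
    nlinarith

theorem step_re' (hY : Y = p - kp k ρ * y) (hP : P = Wg ν k ρ * y - kp k ρ * p) {κ g : ℝ} (hg : k.re ≤ g)
    (hκ : g < κ) (hκ0 : 0 ≤ κ) (h : (conj Y * P).re ≤ -κ * ‖Y‖ ^ 2) :
    (conj y * p).re ≤ g * κ / (κ - g) * ‖y‖ ^ 2 ∧ (y = 0 → p = 0) := by
  obtain ⟨h1, h2⟩ := step_re hY hP (hg.trans_lt hκ) h
  refine ⟨h1.trans (mul_le_mul_of_nonneg_right ?_ (sq_nonneg _)), h2⟩
  rw [div_le_div_iff₀ (by linarith) (by linarith)]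
  nlinarith [mul_nonneg (mul_nonneg hκ0 hκ0) (sub_nonneg.2 hg)]

/-- s = Im k' = k.im + ρ/2.  Im(A w̄) ≥ V|w|² means |2Vw + iA| ≤ |A|, so 2V Im w ≥ -|A| - Re A ≥ -2(ν² + k.im²) -/
theorem step_im (hY : Y = p - kp k ρ * y) (hP : P = Wg ν k ρ * y - kp k ρ * p) {V μ : ℝ} (hV : 0 < V)
    (h : (V - (k.im + ρ / 2)) * ‖Y‖ ^ 2 ≤ (conj Y * P).im)
    (hμ : ν ^ 2 + k.im ^ 2 ≤ V * (μ + (k.im + ρ / 2))) :
    -μ * ‖y‖ ^ 2 ≤ (conj y * p).im ∧ (y = 0 → p = 0) := by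
  by_cases hy : y = 0
  · obtain ⟨e, -, e1⟩ := alg_zero hY hP hy
    refine ⟨by simp [hy], fun _ => ?_⟩
    rw [e1] at h
    rw [← e, ← norm_eq_zero, ← sq_eq_zero_iff]
    nlinarith [sq_nonneg ‖Y‖]
  · refine ⟨?_, fun h0 => (hy h0).elim⟩
    obtain ⟨a, b, e0, -, e1, -, e3⟩ := alg_red hY hP hy
    have hn : 0 < ‖y‖ ^ 2 := by positivity
    rw [e0, e1, ← mul_assoc] at h
    have h1 := le_of_mul_le_mul_right h hn
    rw [e3]
    refine mul_le_mul_of_nonneg_right ?_ hn.le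
    by_contra hc
    push Not at hc
    have h2 : ν ^ 2 + k.im ^ 2 < V * (-b) := hμ.trans_lt (mul_lt_mul_of_pos_left (by linarith) hV)
    have hb : 0 < -b := pos_of_mul_pos_left (b := V)
      (by linarith [mul_comm V (-b), sq_nonneg ν, sq_nonneg k.im]) hV.le
    have h3 := mul_le_mul_of_nonneg_left h1 hV.le
    have h4 := mul_pos (mul_pos hV hb) (sub_pos.2 h2)
    have h5 := mul_nonneg (sub_pos.2 h2).le (sq_nonneg k.re)
    have h6 := mul_nonneg (sq_nonneg ν) (sq_nonneg k.re)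
    nlinarith [sq_nonneg (V * a + k.re * k.im)]

private theorem alg_osc {P Q a b V D E : ℝ} (hV : 0 < V) (hQ : 0 ≤ Q) (hP : 0 ≤ P) (hE : 0 ≤ E)
    (h1 : V * (a ^ 2 + b ^ 2) ≤ -Q * a - P * b) (h2 : P * a - Q * b ≤ D * (a ^ 2 + b ^ 2))
    (hb : D * P - Q * V ≤ E * V ^ 2) : a ≤ E := by
  by_contra hc
  push Not at hc
  have ha : 0 < a := hE.trans_lt hc
  have hr : 0 < a ^ 2 + b ^ 2 := by positivity
  have hVr := mul_pos hV hr
  have h3 : (V * (a ^ 2 + b ^ 2)) ^ 2 ≤ (P ^ 2 + Q ^ 2) * (a ^ 2 + b ^ 2) := by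
    refine (pow_le_pow_left₀ hVr.le h1 2).trans ?_
    nlinarith [sq_nonneg (P * a - Q * b)]
  have h4 : V ^ 2 * (a ^ 2 + b ^ 2) ≤ P ^ 2 + Q ^ 2 :=
    le_of_mul_le_mul_right (by nlinarith) hr
  have h5 : 0 < P ^ 2 + Q ^ 2 := lt_of_lt_of_le (by positivity) h4
  have h6 := mul_le_mul_of_nonneg_left h1 hQ
  have h7 := mul_le_mul_of_nonneg_left h2 hP
  have h8 := mul_le_mul_of_nonneg_right hb hr.le
  have h9 := mul_le_mul_of_nonneg_left h4 hE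
  have h10 := mul_lt_mul_of_pos_right hc h5
  nlinarith

/-- T = k.im ≥ 0, g = k.re ≥ 0.  A w̄ = X + iV', X ≤ (δ'+g)|w|², V' ≥ V|w|², Re w · |A|² = X Re A - 2gT V',
V|w| ≤ |A|, Re A = ν² + T² - g² ≥ 0 -/
theorem step_osc (hY : Y = p - kp k ρ * y) (hP : P = Wg ν k ρ * y - kp k ρ * p) {V δ' δ : ℝ} (hV : 0 < V)
    (hg : 0 ≤ k.re) (hgν : k.re ≤ ν) (hT : 0 ≤ k.im) (hδ' : 0 ≤ δ') (hδ : k.re ≤ δ)
    (h : (V - (k.im + ρ / 2)) * ‖Y‖ ^ 2 ≤ (conj Y * P).im) (h' : (conj Y * P).re ≤ δ' * ‖Y‖ ^ 2)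
    (hb : (δ' + k.re) * (ν ^ 2 + k.im ^ 2) - 2 * k.re * k.im * V ≤ (δ - k.re) * V ^ 2) :
    (conj y * p).re ≤ δ * ‖y‖ ^ 2 := by
  by_cases hy : y = 0
  · simp [hy]
  · obtain ⟨a, b, e0, e1, e2, e3, -⟩ := alg_red hY hP hy
    have hn : 0 < ‖y‖ ^ 2 := by positivity
    rw [e0, e2, ← mul_assoc] at h
    rw [e0, e1, ← mul_assoc] at h'
    have h1 := le_of_mul_le_mul_right h hn
    have h2 := le_of_mul_le_mul_right h' hn
    rw [e3]
    refine mul_le_mul_of_nonneg_right ?_ hn.le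
    have := alg_osc (Q := 2 * k.re * k.im) (P := ν ^ 2 + k.im ^ 2 - k.re ^ 2) (a := a) (b := b)
      (V := V) (D := δ' + k.re) (E := δ - k.re) hV (by positivity)
      (by nlinarith [sq_nonneg k.im]) (by linarith) (by linarith) (by linarith)
      (by nlinarith [mul_nonneg (add_nonneg hδ' hg) (sq_nonneg k.re)])
    linarith

/-- at a deep level N (ν² + k.im² ≤ 2ν(N - k.re)) `disc` gives Re(ȳp) ≤ (|ν+k_N| + Re k_N)|y|² ≤ 0; descend with
`step_re` (κ = 0) -/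
theorem re_nonpos {y p : ℕ → ℂ} (hν : 0 < ν)
    (lad1 : ∀ j : ℕ, y (j + 1) = p j - kp (k - j) ρ * y j)
    (lad2 : ∀ j : ℕ, p (j + 1) = Wg ν (k - j) ρ * y j - kp (k - j) ρ * p j)
    (disc : ∀ j : ℕ, 4 ≤ j → ‖y (j + 1)‖ ≤ ‖(ν : ℂ) + (k - j)‖ * ‖y j‖) {j : ℕ} (hj : k.re - j < 0) :
    (conj (y j) * p j).re ≤ 0 := by
  obtain ⟨N, hN⟩ := exists_nat_ge (max 4 (k.re + (ν ^ 2 + k.im ^ 2) / (2 * ν)))
  have key : ∀ d j : ℕ, k.re - j < 0 → N ≤ j + d → (conj (y j) * p j).re ≤ 0 := by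
    intro d
    induction d with
    | zero =>
      intro j hj hNj
      have h1 : (N : ℝ) ≤ j := by exact_mod_cast hNj
      have h2 : (4 : ℝ) ≤ j := ((le_max_left _ _).trans hN).trans h1
      have h3 : (ν ^ 2 + k.im ^ 2) / (2 * ν) ≤ j - k.re := by
        linarith [((le_max_right _ _).trans hN).trans h1]
      rw [div_le_iff₀ (by positivity)] at h3
      have h4 : ‖(ν : ℂ) + (k - j)‖ ≤ j - k.re := by
        refine (pow_le_pow_iff_left₀ (norm_nonneg _) (by linarith) two_ne_zero).1 ?_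
        rw [Complex.sq_norm, Complex.normSq_apply]
        simp
        nlinarith
      have e : conj (y j) * p j = conj (y j) * y (j + 1) + kp (k - j) ρ * (conj (y j) * y j) := by
        rw [lad1]; ring
      have h5 := disc j (by exact_mod_cast h2)
      have h6 : (conj (y j) * y (j + 1)).re ≤ ‖y j‖ * ‖y (j + 1)‖ :=
        (Complex.re_le_norm _).trans (by rw [norm_mul, Complex.norm_conj])
      have h7 : (kp (k - j) ρ * (conj (y j) * y j)).re = (k.re - j) * ‖y j‖ ^ 2 := by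
        rw [Complex.conj_mul', ← Complex.ofReal_pow, Complex.re_mul_ofReal]
        simp [kp]
      rw [e, Complex.add_re, h7]
      have h8 := mul_le_mul_of_nonneg_left (h5.trans
        (mul_le_mul_of_nonneg_right h4 (norm_nonneg _))) (norm_nonneg (y j))
      nlinarith
    | succ d ih =>
      intro j hj hNj
      have h1 := ih (j + 1) (by push_cast; linarith) (by omega)
      have := (step_re (κ := 0) (lad1 j) (lad2 j) (by simpa using hj) (by simpa using h1)).1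
      simpa using this
  exact key N j hj (by omega)

/-- the boundary condition and two real-part bounds -/
theorem Md.zero_of_re {σ τ b : ℝ} {yF pF yG pG : ℕ → ℂ} (h : Md ν σ τ b ρ yF pF yG pG) {δF δG : ℝ}
    (hF : (conj (yF 0) * pF 0).re ≤ δF * ‖yF 0‖ ^ 2) (hG : (conj (yG 0) * pG 0).re ≤ δG * ‖yG 0‖ ^ 2)
    (hs : δF + δG < 2 * ν) (h0 : yG 0 = 0 → pG 0 = 0) : yF 0 = 0 ∧ pF 0 = 0 ∧ pG 0 = 0 := by
  have e : (conj (yF 0) * pF 0).re + (conj (yG 0) * pG 0).re = 2 * ν * ‖yF 0‖ ^ 2 := by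
    rw [h.h1, sub_eq_iff_eq_add.1 h.h2, Complex.sq_norm, Complex.normSq_apply]
    simp
    ring
  have e2 : ‖yG 0‖ = ‖yF 0‖ := by rw [h.h1, norm_neg, Complex.norm_conj]
  rw [e2] at hG
  have h1 : yF 0 = 0 := by
    rw [← norm_eq_zero, ← sq_eq_zero_iff]
    nlinarith [sq_nonneg ‖yF 0‖]
  have h2 : pG 0 = 0 := h0 (by rw [h.h1, h1]; simp)
  refine ⟨h1, ?_, h2⟩
  have := h.h2
  rw [h1, h2] at this
  simpa using this

theorem Md.swap {σ τ b : ℝ} {yF pF yG pG : ℕ → ℂ} (h : Md ν σ τ b ρ yF pF yG pG) :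
    Md ν σ (-τ) b ρ yG pG yF pF := by
  refine ⟨h.dG, by rw [neg_neg]; exact h.dF, by rw [h.h1]; simp, ?_⟩
  have := congrArg conj h.h2
  simp only [map_sub, map_mul, Complex.conj_conj, Complex.conj_ofReal, map_ofNat] at this
  rw [h.h1]
  linear_combination -this

theorem kk_re (σ τ b : ℝ) : (kk σ τ b).re = 5 / 2 - σ := by
  simp [kk]

theorem kk_im (σ τ b : ℝ) : (kk σ τ b).im = b - τ := by
  simp [kk]

end

end Crest.Agent.R086.N
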