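import Crest.Agent.R086.N.Spl

/-! generated certificate -/

namespace Crest.Agent.R086.N

set_option maxRecDepth 100000
set_option Elab.async false

theorem cf0_0 : chkFar
   .skip
    0 68719476736 0 68719476736 0 0 = true := by decide +kernel
theorem cf0_1 : chkFar
   (.sS (.sT (.D 6 0 0) (.D 6 0 0)) (.D 6 0 0))
    68719476736 137438953472 0 34359738368 0 0 = true := by decide +kernel
theorem cf0_2 : chkFar
   (.sS (.D 8 0 0) (.D 5 0 0))
    68719476736 137438953472 34359738368 68719476736 0 0 = true := by decide +kernel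
theorem cf0_3 : chkFar
   (.sT (.sS (.D 6 0 0) (.D 5 0 0)) (.D 6 0 0))
    0 34359738368 68719476736 103079215104 0 0 = true := by decide +kernel
theorem cf0_4 : chkFar
   (.sT (.D 6 0 0) (.D 6 0 0))
    34359738368 68719476736 68719476736 103079215104 0 0 = true := by decide +kernel
theorem cf0_5 : chkFar
   (.sS (.D 6 0 0) (.D 6 0 0))
    0 68719476736 103079215104 137438953472 0 0 = true := by decide +kernel
theorem cf0_6 : chkFar
   (.sT (.sS (.D 6 0 0) (.D 5 0 0)) (.sS (.D 5 0 0) (.D 5 0 0)))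
    68719476736 137438953472 68719476736 137438953472 0 0 = true := by decide +kernel
theorem cf0_7 : chkFar
   (.sT (.sS (.D 5 0 0) (.D 5 0 0)) (.D 7 0 0))
    137438953472 206158430208 0 68719476736 0 0 = true := by decide +kernel
theorem cf0_8 : chkFar
   (.sT (.D 5 0 0) (.D 5 0 0))
    206158430208 274877906944 0 68719476736 0 0 = true := by decide +kernel
theorem cf0_9 : chkFar
   (.sS (.sT (.D 6 0 0) (.D 6 0 0)) (.D 6 0 0))
    137438953472 274877906944 68719476736 137438953472 0 0 = true := by decide +kernel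
theorem cf0_10 : chkFar
   (.sT (.sS (.D 6 0 0) (.D 5 0 0)) (.sS (.D 5 0 0) (.D 5 0 0)))
    0 68719476736 137438953472 206158430208 0 0 = true := by decide +kernel
theorem cf0_11 : chkFar
   (.sT (.D 7 0 0) (.D 6 0 0))
    68719476736 137438953472 137438953472 206158430208 0 0 = true := by decide +kernel
theorem cf0_12 : chkFar
   (.sS (.sT (.D 6 0 0) (.D 5 0 0)) (.sT (.D 5 0 0) (.D 5 0 0)))
    0 137438953472 206158430208 274877906944 0 0 = true := by decide +kernel
theorem cf0_13 : chkFar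
   (.sS (.sT (.D 5 0 0) (.D 5 0 0)) (.D 6 0 0))
    137438953472 274877906944 137438953472 206158430208 0 0 = true := by decide +kernel
theorem cf0_14 : chkFar
   (.sS (.D 6 0 0) (.D 5 0 0))
    137438953472 274877906944 206158430208 274877906944 0 0 = true := by decide +kernel
theorem cf0_15 : chkFar
   (.sT (.sS (.D 5 0 0) (.D 5 0 0)) (.sS (.D 5 0 0) (.D 5 0 0)))
    274877906944 412316860416 0 137438953472 0 0 = true := by decide +kernel
theorem cf0_16 : chkFar
   (.sT (.sS (.D 5 0 0) (.D 5 0 0)) (.sS (.D 5 0 0) (.D 5 0 0)))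
    412316860416 549755813888 0 137438953472 0 0 = true := by decide +kernel
theorem cf0_17 : chkFar
   (.sT (.sS (.D 5 0 0) (.D 5 0 0)) (.sS (.D 5 0 0) (.D 5 0 0)))
    274877906944 412316860416 137438953472 274877906944 0 0 = true := by decide +kernel
theorem cf0_18 : chkFar
   (.sT (.sS (.D 5 0 0) (.D 5 0 0)) (.sS (.D 5 0 0) (.D 5 0 0)))
    412316860416 549755813888 137438953472 274877906944 0 0 = true := by decide +kernel
theorem cf0_19 : chkFar
   (.sS (.sT (.D 5 0 0) (.D 5 0 0)) (.D 6 0 0))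
    0 137438953472 274877906944 343597383680 0 0 = true := by decide +kernel
theorem cf0_20 : chkFar
   (.sS (.D 5 2 0) (.sT (.D 5 0 0) (.D 5 0 0)))
    0 137438953472 343597383680 412316860416 0 0 = true := by decide +kernel
theorem cf0_21 : chkFar
   (.sT (.sS (.D 6 0 0) (.D 5 0 0)) (.sS (.D 6 0 0) (.D 6 0 0)))
    137438953472 274877906944 274877906944 412316860416 0 0 = true := by decide +kernel
theorem cf0_22 : chkFar
   (.sT (.sS (.D 5 2 0) (.D 5 2 0)) (.sS (.D 5 2 0) (.D 5 2 0)))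
    0 137438953472 412316860416 549755813888 0 0 = true := by decide +kernel
theorem cf0_23 : chkFar
   (.sS (.sT (.D 5 0 0) (.D 6 0 0)) (.sT (.D 5 0 0) (.D 5 0 0)))
    137438953472 274877906944 412316860416 481036337152 0 0 = true := by decide +kernel
theorem cf0_24 : chkFar
   (.sS (.sT (.D 6 0 0) (.D 6 0 0)) (.sT (.D 5 0 0) (.D 6 0 0)))
    137438953472 274877906944 481036337152 549755813888 0 0 = true := by decide +kernel
theorem cf0_25 : chkFar
   (.sT (.sS (.D 5 0 0) (.D 5 0 0)) (.sS (.D 6 0 0) (.D 5 0 0)))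
    274877906944 412316860416 274877906944 412316860416 0 0 = true := by decide +kernel
theorem cf0_26 : chkFar
   (.sT (.sS (.D 5 0 0) (.D 5 0 0)) (.sS (.D 5 0 0) (.D 5 0 0)))
    412316860416 549755813888 274877906944 412316860416 0 0 = true := by decide +kernel
theorem cf0_27 : chkFar
   (.sS (.D 6 0 0) (.D 6 0 0))
    274877906944 412316860416 412316860416 481036337152 0 0 = true := by decide +kernel
theorem cf0_28 : chkFar
   (.sS (.sT (.D 5 0 0) (.D 5 0 0)) (.D 7 0 0))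
    274877906944 412316860416 481036337152 549755813888 0 0 = true := by decide +kernel
theorem cf0_29 : chkFar
   (.sT (.sS (.D 6 0 0) (.D 6 0 0)) (.sS (.D 7 0 0) (.D 5 1 0)))
    412316860416 549755813888 412316860416 549755813888 0 0 = true := by decide +kernel
theorem cf0 (H : FarH) : FarBox 0 549755813888 0 549755813888 0 0 :=
   (fT (fS (fT (fS (fT (fS (H _ _ _ _ _ _ _ cf0_0) (fT (H _ _ _ _ _ _ _ cf0_1) (H _ _ _ _ _ _ _ cf0_2))) (fS (fT (fS
   (H _ _ _ _ _ _ _ cf0_3) (H _ _ _ _ _ _ _ cf0_4)) (H _ _ _ _ _ _ _ cf0_5)) (H _ _ _ _ _ _ _ cf0_6))) (fT (fS (H _ _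
   _ _ _ _ _ cf0_7) (H _ _ _ _ _ _ _ cf0_8)) (H _ _ _ _ _ _ _ cf0_9))) (fS (fT (fS (H _ _ _ _ _ _ _ cf0_10) (H _ _ _ _
   _ _ _ cf0_11)) (H _ _ _ _ _ _ _ cf0_12)) (fT (H _ _ _ _ _ _ _ cf0_13) (H _ _ _ _ _ _ _ cf0_14)))) (fT (fS (H _ _ _
   _ _ _ _ cf0_15) (H _ _ _ _ _ _ _ cf0_16)) (fS (H _ _ _ _ _ _ _ cf0_17) (H _ _ _ _ _ _ _ cf0_18)))) (fS (fT (fS (fT
   (H _ _ _ _ _ _ _ cf0_19) (H _ _ _ _ _ _ _ cf0_20)) (H _ _ _ _ _ _ _ cf0_21)) (fS (H _ _ _ _ _ _ _ cf0_22) (fT (H _
   _ _ _ _ _ _ cf0_23) (H _ _ _ _ _ _ _ cf0_24)))) (fT (fS (H _ _ _ _ _ _ _ cf0_25) (H _ _ _ _ _ _ _ cf0_26)) (fS (fT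
   (H _ _ _ _ _ _ _ cf0_27) (H _ _ _ _ _ _ _ cf0_28)) (H _ _ _ _ _ _ _ cf0_29)))))

theorem cf1_0 : chkFar
   (.sT (.sS (.D 5 0 0) (.D 5 0 0)) (.sS (.D 5 0 0) (.D 5 0 0)))
    549755813888 687194767360 0 137438953472 0 0 = true := by decide +kernel
theorem cf1_1 : chkFar
   (.sT (.sS (.D 5 0 0) (.D 5 0 0)) (.sS (.D 5 0 0) (.D 5 0 0)))
    687194767360 824633720832 0 137438953472 0 0 = true := by decide +kernel
theorem cf1_2 : chkFar
   (.sT (.sS (.D 5 0 0) (.D 5 0 0)) (.sS (.D 5 0 0) (.D 5 0 0)))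
    549755813888 687194767360 137438953472 274877906944 0 0 = true := by decide +kernel
theorem cf1_3 : chkFar
   (.sT (.sS (.D 5 0 0) (.D 5 0 0)) (.D 5 1 0))
    687194767360 824633720832 137438953472 274877906944 0 0 = true := by decide +kernel
theorem cf1_4 : chkFar
   .skip
    824633720832 1099511627776 0 274877906944 0 0 = true := by decide +kernel
theorem cf1_5 : chkFar
   (.sT (.sS (.D 5 0 0) (.D 5 0 0)) (.sS (.D 6 0 0) (.D 5 1 0)))
    549755813888 687194767360 274877906944 412316860416 0 0 = true := by decide +kernel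
theorem cf1_6 : chkFar
   (.sT (.D 5 1 0) (.D 5 1 0))
    687194767360 824633720832 274877906944 412316860416 0 0 = true := by decide +kernel
theorem cf1_7 : chkFar
   (.sT (.sS (.D 5 1 0) (.D 5 1 0)) (.sS (.D 5 1 0) (.D 5 1 0)))
    549755813888 687194767360 412316860416 549755813888 0 0 = true := by decide +kernel
theorem cf1_8 : chkFar
   (.sT (.D 5 1 0) (.D 6 1 0))
    687194767360 824633720832 412316860416 549755813888 0 0 = true := by decide +kernel
theorem cf1_9 : chkFar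
   (.sS (.sT (.D 5 1 0) (.D 5 1 0)) (.sT (.D 4 1 0) (.D 4 1 0)))
    824633720832 1099511627776 274877906944 412316860416 0 0 = true := by decide +kernel
theorem cf1_10 : chkFar
   (.sS (.sT (.D 5 1 0) (.D 5 1 0)) (.D 5 1 0))
    824633720832 1099511627776 412316860416 549755813888 0 0 = true := by decide +kernel
theorem cf1 (H : FarH) : FarBox 549755813888 1099511627776 0 549755813888 0 0 :=
   (fT (fS (fT (fS (H _ _ _ _ _ _ _ cf1_0) (H _ _ _ _ _ _ _ cf1_1)) (fS (H _ _ _ _ _ _ _ cf1_2) (H _ _ _ _ _ _ _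
   cf1_3))) (H _ _ _ _ _ _ _ cf1_4)) (fS (fT (fS (H _ _ _ _ _ _ _ cf1_5) (H _ _ _ _ _ _ _ cf1_6)) (fS (H _ _ _ _ _ _ _
   cf1_7) (H _ _ _ _ _ _ _ cf1_8))) (fT (H _ _ _ _ _ _ _ cf1_9) (H _ _ _ _ _ _ _ cf1_10))))

theorem cf2_0 : chkFar
   (.sT (.sS (.D 5 2 0) (.D 5 2 0)) (.sS (.D 6 2 0) (.D 5 2 0)))
    0 137438953472 549755813888 687194767360 0 0 = true := by decide +kernel
theorem cf2_1 : chkFar
   (.sS (.D 5 2 0) (.sT (.D 6 0 0) (.D 6 0 0)))
    137438953472 274877906944 549755813888 618475290624 0 0 = true := by decide +kernel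
theorem cf2_2 : chkFar
   (.sS (.D 5 2 0) (.sT (.D 7 0 0) (.D 7 0 0)))
    137438953472 274877906944 618475290624 687194767360 0 0 = true := by decide +kernel
theorem cf2_3 : chkFar
   (.sS (.D 6 2 0) (.D 6 2 0))
    0 137438953472 687194767360 755914244096 0 0 = true := by decide +kernel
theorem cf2_4 : chkFar
   (.sT (.D 6 2 0) (.D 6 2 0))
    0 68719476736 755914244096 824633720832 0 0 = true := by decide +kernel
theorem cf2_5 : chkFar
   (.sT (.sS (.D 6 0 0) (.D 6 0 0)) (.sS (.D 6 0 0) (.D 6 0 0)))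
    68719476736 137438953472 755914244096 824633720832 0 0 = true := by decide +kernel
theorem cf2_6 : chkFar
   (.sT (.sS (.D 6 0 0) (.D 5 0 0)) (.sS (.D 6 0 0) (.D 6 0 0)))
    137438953472 206158430208 687194767360 755914244096 0 0 = true := by decide +kernel
theorem cf2_7 : chkFar
   (.sT (.sS (.D 5 0 0) (.D 5 0 0)) (.sS (.D 5 0 0) (.D 5 0 0)))
    206158430208 274877906944 687194767360 755914244096 0 0 = true := by decide +kernel
theorem cf2_8 : chkFar
   (.sT (.sS (.D 6 0 0) (.D 6 0 0)) (.sS (.D 6 0 0) (.D 6 0 0)))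
    137438953472 206158430208 755914244096 824633720832 0 0 = true := by decide +kernel
theorem cf2_9 : chkFar
   (.sT (.sS (.D 6 0 0) (.D 5 0 0)) (.sS (.D 6 0 0) (.D 6 0 0)))
    206158430208 274877906944 755914244096 824633720832 0 0 = true := by decide +kernel
theorem cf2_10 : chkFar
   (.sS (.sT (.D 6 0 0) (.D 6 0 0)) (.sT (.D 5 0 0) (.D 6 0 0)))
    274877906944 412316860416 549755813888 618475290624 0 0 = true := by decide +kernel
theorem cf2_11 : chkFar
   (.sS (.sT (.D 6 0 0) (.D 6 0 0)) (.sT (.D 6 0 0) (.D 6 0 0)))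
    274877906944 412316860416 618475290624 687194767360 0 0 = true := by decide +kernel
theorem cf2_12 : chkFar
   (.sS (.sT (.D 5 0 0) (.D 5 0 0)) (.sT (.D 5 0 0) (.D 5 0 0)))
    412316860416 549755813888 549755813888 618475290624 0 0 = true := by decide +kernel
theorem cf2_13 : chkFar
   (.sS (.sT (.D 6 0 0) (.D 6 0 0)) (.sT (.D 6 0 0) (.D 6 0 0)))
    412316860416 549755813888 618475290624 687194767360 0 0 = true := by decide +kernel
theorem cf2_14 : chkFar
   (.sS (.sT (.D 6 0 0) (.D 6 0 0)) (.sT (.D 6 0 0) (.D 6 0 0)))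
    274877906944 412316860416 687194767360 755914244096 0 0 = true := by decide +kernel
theorem cf2_15 : chkFar
   (.sS (.sT (.D 7 0 0) (.D 7 0 0)) (.sT (.D 6 0 0) (.D 6 0 0)))
    274877906944 412316860416 755914244096 824633720832 0 0 = true := by decide +kernel
theorem cf2_16 : chkFar
   (.sS (.sT (.D 6 0 0) (.D 6 0 0)) (.sT (.D 6 0 0) (.D 6 0 0)))
    412316860416 549755813888 687194767360 755914244096 0 0 = true := by decide +kernel
theorem cf2_17 : chkFar
   (.sS (.sT (.D 6 0 0) (.D 6 0 0)) (.sT (.D 6 0 0) (.D 6 0 0)))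
    412316860416 549755813888 755914244096 824633720832 0 0 = true := by decide +kernel
theorem cf2 (H : FarH) : FarBox 0 549755813888 549755813888 824633720832 0 0 :=
   (fS (fT (fS (H _ _ _ _ _ _ _ cf2_0) (fT (H _ _ _ _ _ _ _ cf2_1) (H _ _ _ _ _ _ _ cf2_2))) (fS (fT (H _ _ _ _ _ _ _
   cf2_3) (fS (H _ _ _ _ _ _ _ cf2_4) (H _ _ _ _ _ _ _ cf2_5))) (fT (fS (H _ _ _ _ _ _ _ cf2_6) (H _ _ _ _ _ _ _
   cf2_7)) (fS (H _ _ _ _ _ _ _ cf2_8) (H _ _ _ _ _ _ _ cf2_9))))) (fT (fS (fT (H _ _ _ _ _ _ _ cf2_10) (H _ _ _ _ _ _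
   _ cf2_11)) (fT (H _ _ _ _ _ _ _ cf2_12) (H _ _ _ _ _ _ _ cf2_13))) (fS (fT (H _ _ _ _ _ _ _ cf2_14) (H _ _ _ _ _ _
   _ cf2_15)) (fT (H _ _ _ _ _ _ _ cf2_16) (H _ _ _ _ _ _ _ cf2_17)))))

theorem cf3_0 : chkFar
   (.sT (.sS (.D 7 0 0) (.D 6 0 0)) (.sS (.D 7 0 0) (.D 6 0 0)))
    0 68719476736 824633720832 893353197568 0 0 = true := by decide +kernel
theorem cf3_1 : chkFar
   (.sT (.sS (.D 6 0 0) (.D 6 0 0)) (.sS (.D 6 0 0) (.D 6 0 0)))
    68719476736 137438953472 824633720832 893353197568 0 0 = true := by decide +kernel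
theorem cf3_2 : chkFar
   (.sS (.D 7 0 0) (.D 7 0 0))
    0 68719476736 893353197568 927712935936 0 0 = true := by decide +kernel
theorem cf3_3 : chkFar
   (.sS (.D 7 0 0) (.D 7 0 0))
    0 68719476736 927712935936 962072674304 0 0 = true := by decide +kernel
theorem cf3_4 : chkFar
   (.sT (.sS (.D 6 0 0) (.D 6 0 0)) (.sS (.D 6 0 0) (.D 6 0 0)))
    68719476736 137438953472 893353197568 962072674304 0 0 = true := by decide +kernel
theorem cf3_5 : chkFar
   (.sT (.sS (.D 6 0 0) (.D 6 0 0)) (.sS (.D 6 0 0) (.D 6 0 0)))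
    137438953472 206158430208 824633720832 893353197568 0 0 = true := by decide +kernel
theorem cf3_6 : chkFar
   (.sT (.sS (.D 6 0 0) (.D 6 0 0)) (.sS (.D 6 0 0) (.D 6 0 0)))
    206158430208 274877906944 824633720832 893353197568 0 0 = true := by decide +kernel
theorem cf3_7 : chkFar
   (.sT (.sS (.D 6 0 0) (.D 6 0 0)) (.sS (.D 6 0 0) (.D 6 0 0)))
    137438953472 206158430208 893353197568 962072674304 0 0 = true := by decide +kernel
theorem cf3_8 : chkFar
   (.sT (.sS (.D 6 0 0) (.D 6 0 0)) (.sS (.D 6 0 0) (.D 6 0 0)))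
    206158430208 274877906944 893353197568 962072674304 0 0 = true := by decide +kernel
theorem cf3_9 : chkFar
   (.sS (.D 8 0 0) (.D 7 0 0))
    0 68719476736 962072674304 996432412672 0 0 = true := by decide +kernel
theorem cf3_10 : chkFar
   (.sS (.D 8 0 0) (.D 7 0 0))
    0 68719476736 996432412672 1030792151040 0 0 = true := by decide +kernel
theorem cf3_11 : chkFar
   (.sT (.sS (.D 7 0 0) (.D 6 0 0)) (.sS (.D 7 0 0) (.D 6 0 0)))
    68719476736 137438953472 962072674304 1030792151040 0 0 = true := by decide +kernel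
theorem cf3_12 : chkFar
   (.sS (.sT (.D 7 0 0) (.D 7 0 0)) (.D 7 0 0))
    0 68719476736 1030792151040 1065151889408 0 0 = true := by decide +kernel
theorem cf3_13 : chkFar
   (.sS (.sT (.D 7 0 0) (.D 7 0 0)) (.D 8 0 0))
    0 68719476736 1065151889408 1099511627776 0 0 = true := by decide +kernel
theorem cf3_14 : chkFar
   (.sS (.D 7 0 0) (.D 7 0 0))
    68719476736 137438953472 1030792151040 1065151889408 0 0 = true := by decide +kernel
theorem cf3_15 : chkFar
   (.sS (.D 7 0 0) (.D 7 0 0))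
    68719476736 137438953472 1065151889408 1099511627776 0 0 = true := by decide +kernel
theorem cf3_16 : chkFar
   (.sT (.sS (.D 6 0 0) (.D 6 0 0)) (.sS (.D 6 0 0) (.D 6 0 0)))
    137438953472 206158430208 962072674304 1030792151040 0 0 = true := by decide +kernel
theorem cf3_17 : chkFar
   (.sT (.sS (.D 6 0 0) (.D 6 0 0)) (.sS (.D 6 0 0) (.D 6 0 0)))
    206158430208 274877906944 962072674304 1030792151040 0 0 = true := by decide +kernel
theorem cf3_18 : chkFar
   (.sT (.sS (.D 6 0 0) (.D 6 0 0)) (.sS (.D 6 0 0) (.D 6 0 0)))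
    137438953472 206158430208 1030792151040 1099511627776 0 0 = true := by decide +kernel
theorem cf3_19 : chkFar
   (.sT (.sS (.D 6 0 0) (.D 6 0 0)) (.sS (.D 6 0 0) (.D 6 0 0)))
    206158430208 274877906944 1030792151040 1099511627776 0 0 = true := by decide +kernel
theorem cf3_20 : chkFar
   (.sS (.sT (.D 7 0 0) (.D 7 0 0)) (.sT (.D 6 0 0) (.D 6 0 0)))
    274877906944 412316860416 824633720832 893353197568 0 0 = true := by decide +kernel
theorem cf3_21 : chkFar
   (.sT (.D 8 0 0) (.D 8 0 0))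
    274877906944 343597383680 893353197568 962072674304 0 0 = true := by decide +kernel
theorem cf3_22 : chkFar
   (.sT (.D 6 0 0) (.D 6 0 0))
    343597383680 412316860416 893353197568 962072674304 0 0 = true := by decide +kernel
theorem cf3_23 : chkFar
   (.sS (.sT (.D 6 0 0) (.D 6 0 0)) (.sT (.D 6 0 0) (.D 6 0 0)))
    412316860416 549755813888 824633720832 893353197568 0 0 = true := by decide +kernel
theorem cf3_24 : chkFar
   (.sS (.sT (.D 6 0 0) (.D 6 0 0)) (.sT (.D 6 0 0) (.D 6 0 0)))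
    412316860416 549755813888 893353197568 962072674304 0 0 = true := by decide +kernel
theorem cf3_25 : chkFar
   (.sT (.D 8 0 0) (.D 8 0 0))
    274877906944 343597383680 962072674304 1030792151040 0 0 = true := by decide +kernel
theorem cf3_26 : chkFar
   (.sT (.D 6 0 0) (.D 7 0 0))
    343597383680 412316860416 962072674304 1030792151040 0 0 = true := by decide +kernel
theorem cf3_27 : chkFar
   (.sT (.D 8 0 0) (.D 8 0 0))
    274877906944 343597383680 1030792151040 1099511627776 0 0 = true := by decide +kernel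
theorem cf3_28 : chkFar
   (.sT (.D 7 0 0) (.D 7 0 0))
    343597383680 412316860416 1030792151040 1099511627776 0 0 = true := by decide +kernel
theorem cf3_29 : chkFar
   (.sS (.sT (.D 6 0 0) (.D 6 0 0)) (.D 12 0 0))
    412316860416 549755813888 962072674304 1030792151040 0 0 = true := by decide +kernel
theorem cf3_30 : chkFar
   (.sS (.sT (.D 6 0 0) (.D 6 0 0)) (.D 7 0 0))
    412316860416 549755813888 1030792151040 1099511627776 0 0 = true := by decide +kernel
theorem cf3 (H : FarH) : FarBox 0 549755813888 824633720832 1099511627776 0 0 :=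
   (fS (fT (fS (fT (fS (H _ _ _ _ _ _ _ cf3_0) (H _ _ _ _ _ _ _ cf3_1)) (fS (fT (H _ _ _ _ _ _ _ cf3_2) (H _ _ _ _ _ _
   _ cf3_3)) (H _ _ _ _ _ _ _ cf3_4))) (fT (fS (H _ _ _ _ _ _ _ cf3_5) (H _ _ _ _ _ _ _ cf3_6)) (fS (H _ _ _ _ _ _ _
   cf3_7) (H _ _ _ _ _ _ _ cf3_8)))) (fS (fT (fS (fT (H _ _ _ _ _ _ _ cf3_9) (H _ _ _ _ _ _ _ cf3_10)) (H _ _ _ _ _ _
   _ cf3_11)) (fS (fT (H _ _ _ _ _ _ _ cf3_12) (H _ _ _ _ _ _ _ cf3_13)) (fT (H _ _ _ _ _ _ _ cf3_14) (H _ _ _ _ _ _ _
   cf3_15)))) (fT (fS (H _ _ _ _ _ _ _ cf3_16) (H _ _ _ _ _ _ _ cf3_17)) (fS (H _ _ _ _ _ _ _ cf3_18) (H _ _ _ _ _ _ _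
   cf3_19))))) (fT (fS (fT (H _ _ _ _ _ _ _ cf3_20) (fS (H _ _ _ _ _ _ _ cf3_21) (H _ _ _ _ _ _ _ cf3_22))) (fT (H _ _
   _ _ _ _ _ cf3_23) (H _ _ _ _ _ _ _ cf3_24))) (fS (fT (fS (H _ _ _ _ _ _ _ cf3_25) (H _ _ _ _ _ _ _ cf3_26)) (fS (H
   _ _ _ _ _ _ _ cf3_27) (H _ _ _ _ _ _ _ cf3_28))) (fT (H _ _ _ _ _ _ _ cf3_29) (H _ _ _ _ _ _ _ cf3_30)))))


end Crest.Agent.R086.N
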