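import Crest.Agent.R086.N.Spl

/-! generated certificate -/

namespace Crest.Agent.R086.N

set_option maxRecDepth 100000
set_option Elab.async false

theorem cf4_0 : chkFar
   (.sT (.sS (.D 5 1 0) (.D 5 1 0)) (.sS (.D 6 1 0) (.D 5 1 0)))
    549755813888 687194767360 549755813888 687194767360 0 0 = true := by decide +kernel
theorem cf4_1 : chkFar
   (.sT (.sS (.D 5 1 0) (.D 5 1 0)) (.sS (.D 5 1 0) (.D 5 1 0)))
    687194767360 824633720832 549755813888 687194767360 0 0 = true := by decide +kernel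
theorem cf4_2 : chkFar
   (.sS (.sT (.D 5 1 0) (.D 6 0 0)) (.D 6 1 0))
    549755813888 687194767360 687194767360 755914244096 0 0 = true := by decide +kernel
theorem cf4_3 : chkFar
   (.sS (.sT (.D 6 0 0) (.D 6 0 0)) (.D 6 1 0))
    549755813888 687194767360 755914244096 824633720832 0 0 = true := by decide +kernel
theorem cf4_4 : chkFar
   (.sT (.sS (.D 5 1 0) (.D 5 1 0)) (.sS (.D 5 1 0) (.D 5 1 0)))
    687194767360 824633720832 687194767360 824633720832 0 0 = true := by decide +kernel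
theorem cf4_5 : chkFar
   (.sS (.sT (.D 5 1 0) (.D 5 1 0)) (.D 5 1 0))
    824633720832 1099511627776 549755813888 687194767360 0 0 = true := by decide +kernel
theorem cf4_6 : chkFar
   (.sS (.sT (.D 5 1 0) (.D 5 1 0)) (.D 5 1 0))
    824633720832 1099511627776 687194767360 824633720832 0 0 = true := by decide +kernel
theorem cf4_7 : chkFar
   (.sS (.sT (.D 6 0 0) (.D 6 0 0)) (.sT (.D 6 0 0) (.D 6 0 0)))
    549755813888 687194767360 824633720832 893353197568 0 0 = true := by decide +kernel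
theorem cf4_8 : chkFar
   (.sS (.D 7 0 0) (.D 7 0 0))
    549755813888 687194767360 893353197568 962072674304 0 0 = true := by decide +kernel
theorem cf4_9 : chkFar
   (.sT (.sS (.D 5 1 0) (.D 5 1 0)) (.sS (.D 6 0 0) (.D 5 1 0)))
    687194767360 824633720832 824633720832 962072674304 0 0 = true := by decide +kernel
theorem cf4_10 : chkFar
   (.sT (.sS (.D 7 0 0) (.D 6 0 0)) (.sS (.D 6 0 0) (.D 6 0 0)))
    549755813888 687194767360 962072674304 1099511627776 0 0 = true := by decide +kernel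
theorem cf4_11 : chkFar
   (.sT (.sS (.D 6 0 0) (.D 5 1 0)) (.sS (.D 6 0 0) (.D 5 1 0)))
    687194767360 824633720832 962072674304 1099511627776 0 0 = true := by decide +kernel
theorem cf4_12 : chkFar
   (.sS (.sT (.D 6 1 0) (.D 6 1 0)) (.D 5 1 0))
    824633720832 1099511627776 824633720832 962072674304 0 0 = true := by decide +kernel
theorem cf4_13 : chkFar
   (.sS (.sT (.D 6 1 0) (.D 6 1 0)) (.D 6 1 0))
    824633720832 1099511627776 962072674304 1099511627776 0 0 = true := by decide +kernel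
theorem cf4 (H : FarH) : FarBox 549755813888 1099511627776 549755813888 1099511627776 0 0 :=
   (fT (fS (fT (fS (H _ _ _ _ _ _ _ cf4_0) (H _ _ _ _ _ _ _ cf4_1)) (fS (fT (H _ _ _ _ _ _ _ cf4_2) (H _ _ _ _ _ _ _
   cf4_3)) (H _ _ _ _ _ _ _ cf4_4))) (fT (H _ _ _ _ _ _ _ cf4_5) (H _ _ _ _ _ _ _ cf4_6))) (fS (fT (fS (fT (H _ _ _ _
   _ _ _ cf4_7) (H _ _ _ _ _ _ _ cf4_8)) (H _ _ _ _ _ _ _ cf4_9)) (fS (H _ _ _ _ _ _ _ cf4_10) (H _ _ _ _ _ _ _
   cf4_11))) (fT (H _ _ _ _ _ _ _ cf4_12) (H _ _ _ _ _ _ _ cf4_13))))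

theorem cf5_0 : chkFar
   (.sS (.D 7 0 0) (.D 7 0 0))
    0 17179869184 0 8589934592 1 1 = true := by decide +kernel
theorem cf5_1 : chkFar
   (.sS (.D 7 0 0) (.D 7 0 0))
    0 17179869184 8589934592 17179869184 1 1 = true := by decide +kernel
theorem cf5_2 : chkFar
   (.sT (.sS (.D 6 0 0) (.D 6 0 0)) (.sS (.D 6 0 0) (.D 6 0 0)))
    17179869184 34359738368 0 17179869184 1 1 = true := by decide +kernel
theorem cf5_3 : chkFar
   (.sS (.D 7 0 0) (.D 7 0 0))
    0 17179869184 17179869184 25769803776 1 1 = true := by decide +kernel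
theorem cf5_4 : chkFar
   (.sS (.D 7 0 0) (.D 6 0 0))
    0 17179869184 25769803776 34359738368 1 1 = true := by decide +kernel
theorem cf5_5 : chkFar
   (.sT (.sS (.D 6 0 0) (.D 6 0 0)) (.sS (.D 6 0 0) (.D 6 0 0)))
    17179869184 34359738368 17179869184 34359738368 1 1 = true := by decide +kernel
theorem cf5_6 : chkFar
   (.sT (.sS (.D 6 0 0) (.D 6 0 0)) (.sS (.D 6 0 0) (.D 6 0 0)))
    34359738368 51539607552 0 17179869184 1 1 = true := by decide +kernel
theorem cf5_7 : chkFar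
   (.sT (.D 8 0 0) (.D 8 0 0))
    51539607552 68719476736 0 17179869184 1 1 = true := by decide +kernel
theorem cf5_8 : chkFar
   (.sT (.sS (.D 6 0 0) (.D 6 0 0)) (.sS (.D 6 0 0) (.D 6 0 0)))
    34359738368 51539607552 17179869184 34359738368 1 1 = true := by decide +kernel
theorem cf5_9 : chkFar
   (.sT (.D 7 0 0) (.D 7 0 0))
    51539607552 68719476736 17179869184 34359738368 1 1 = true := by decide +kernel
theorem cf5_10 : chkFar
   (.sT (.sS (.D 7 0 0) (.D 6 0 0)) (.sS (.D 7 0 0) (.D 6 0 0)))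
    0 17179869184 34359738368 51539607552 1 1 = true := by decide +kernel
theorem cf5_11 : chkFar
   (.sT (.sS (.D 6 0 0) (.D 6 0 0)) (.sS (.D 6 0 0) (.D 6 0 0)))
    17179869184 34359738368 34359738368 51539607552 1 1 = true := by decide +kernel
theorem cf5_12 : chkFar
   (.sT (.sS (.D 7 0 0) (.D 6 0 0)) (.sS (.D 6 0 0) (.D 6 0 0)))
    0 17179869184 51539607552 68719476736 1 1 = true := by decide +kernel
theorem cf5_13 : chkFar
   (.sT (.sS (.D 6 0 0) (.D 6 0 0)) (.sS (.D 6 0 0) (.D 6 0 0)))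
    17179869184 34359738368 51539607552 68719476736 1 1 = true := by decide +kernel
theorem cf5_14 : chkFar
   (.sT (.sS (.D 6 0 0) (.D 6 0 0)) (.D 10 0 0))
    34359738368 51539607552 34359738368 51539607552 1 1 = true := by decide +kernel
theorem cf5_15 : chkFar
   (.sT (.D 7 0 0) (.D 7 0 0))
    51539607552 68719476736 34359738368 51539607552 1 1 = true := by decide +kernel
theorem cf5_16 : chkFar
   (.sT (.D 8 0 0) (.D 8 0 0))
    34359738368 51539607552 51539607552 68719476736 1 1 = true := by decide +kernel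
theorem cf5_17 : chkFar
   (.sT (.D 7 0 0) (.D 7 0 0))
    51539607552 68719476736 51539607552 68719476736 1 1 = true := by decide +kernel
theorem cf5_18 : chkFar
   (.sT (.D 7 0 0) (.D 7 0 0))
    68719476736 85899345920 0 17179869184 1 1 = true := by decide +kernel
theorem cf5_19 : chkFar
   (.sT (.D 7 0 0) (.D 7 0 0))
    85899345920 103079215104 0 17179869184 1 1 = true := by decide +kernel
theorem cf5_20 : chkFar
   (.sT (.D 7 0 0) (.D 7 0 0))
    68719476736 85899345920 17179869184 34359738368 1 1 = true := by decide +kernel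
theorem cf5_21 : chkFar
   (.sT (.D 7 0 0) (.D 7 0 0))
    85899345920 103079215104 17179869184 34359738368 1 1 = true := by decide +kernel
theorem cf5_22 : chkFar
   (.sS (.sT (.D 6 0 0) (.D 6 0 0)) (.D 10 0 0))
    103079215104 137438953472 0 17179869184 1 1 = true := by decide +kernel
theorem cf5_23 : chkFar
   (.sS (.sT (.D 6 0 0) (.D 6 0 0)) (.D 8 0 0))
    103079215104 137438953472 17179869184 34359738368 1 1 = true := by decide +kernel
theorem cf5_24 : chkFar
   (.sT (.D 7 0 0) (.D 7 0 0))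
    68719476736 85899345920 34359738368 51539607552 1 1 = true := by decide +kernel
theorem cf5_25 : chkFar
   (.sT (.D 7 0 0) (.D 7 0 0))
    85899345920 103079215104 34359738368 51539607552 1 1 = true := by decide +kernel
theorem cf5_26 : chkFar
   (.sT (.D 7 0 0) (.D 7 0 0))
    68719476736 85899345920 51539607552 68719476736 1 1 = true := by decide +kernel
theorem cf5_27 : chkFar
   (.sT (.D 7 0 0) (.D 7 0 0))
    85899345920 103079215104 51539607552 68719476736 1 1 = true := by decide +kernel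
theorem cf5_28 : chkFar
   (.sS (.sT (.D 6 0 0) (.D 6 0 0)) (.D 8 0 0))
    103079215104 137438953472 34359738368 51539607552 1 1 = true := by decide +kernel
theorem cf5_29 : chkFar
   (.sS (.sT (.D 6 0 0) (.D 6 0 0)) (.D 8 0 0))
    103079215104 137438953472 51539607552 68719476736 1 1 = true := by decide +kernel
theorem cf5 (H : FarH) : FarBox 0 137438953472 0 68719476736 1 1 :=
   (fS (fT (fS (fT (fS (fT (H _ _ _ _ _ _ _ cf5_0) (H _ _ _ _ _ _ _ cf5_1)) (H _ _ _ _ _ _ _ cf5_2)) (fS (fT (H _ _ _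
   _ _ _ _ cf5_3) (H _ _ _ _ _ _ _ cf5_4)) (H _ _ _ _ _ _ _ cf5_5))) (fT (fS (H _ _ _ _ _ _ _ cf5_6) (H _ _ _ _ _ _ _
   cf5_7)) (fS (H _ _ _ _ _ _ _ cf5_8) (H _ _ _ _ _ _ _ cf5_9)))) (fS (fT (fS (H _ _ _ _ _ _ _ cf5_10) (H _ _ _ _ _ _
   _ cf5_11)) (fS (H _ _ _ _ _ _ _ cf5_12) (H _ _ _ _ _ _ _ cf5_13))) (fT (fS (H _ _ _ _ _ _ _ cf5_14) (H _ _ _ _ _ _
   _ cf5_15)) (fS (H _ _ _ _ _ _ _ cf5_16) (H _ _ _ _ _ _ _ cf5_17))))) (fT (fS (fT (fS (H _ _ _ _ _ _ _ cf5_18) (H _
   _ _ _ _ _ _ cf5_19)) (fS (H _ _ _ _ _ _ _ cf5_20) (H _ _ _ _ _ _ _ cf5_21))) (fT (H _ _ _ _ _ _ _ cf5_22) (H _ _ _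
   _ _ _ _ cf5_23))) (fS (fT (fS (H _ _ _ _ _ _ _ cf5_24) (H _ _ _ _ _ _ _ cf5_25)) (fS (H _ _ _ _ _ _ _ cf5_26) (H _
   _ _ _ _ _ _ cf5_27))) (fT (H _ _ _ _ _ _ _ cf5_28) (H _ _ _ _ _ _ _ cf5_29)))))

theorem cf6_0 : chkFar
   (.sT (.sS (.D 6 0 0) (.D 6 0 0)) (.sS (.D 6 0 0) (.D 6 0 0)))
    0 17179869184 68719476736 85899345920 1 1 = true := by decide +kernel
theorem cf6_1 : chkFar
   (.sT (.sS (.D 6 0 0) (.D 6 0 0)) (.sS (.D 6 0 0) (.D 6 0 0)))
    17179869184 34359738368 68719476736 85899345920 1 1 = true := by decide +kernel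
theorem cf6_2 : chkFar
   (.sT (.sS (.D 6 0 0) (.D 6 0 0)) (.sS (.D 6 0 0) (.D 6 0 0)))
    0 17179869184 85899345920 103079215104 1 1 = true := by decide +kernel
theorem cf6_3 : chkFar
   (.sT (.D 10 0 0) (.D 8 0 0))
    17179869184 34359738368 85899345920 103079215104 1 1 = true := by decide +kernel
theorem cf6_4 : chkFar
   (.sT (.D 8 0 0) (.D 7 0 0))
    34359738368 51539607552 68719476736 85899345920 1 1 = true := by decide +kernel
theorem cf6_5 : chkFar
   (.sT (.D 7 0 0) (.D 7 0 0))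
    51539607552 68719476736 68719476736 85899345920 1 1 = true := by decide +kernel
theorem cf6_6 : chkFar
   (.sT (.D 7 0 0) (.D 7 0 0))
    34359738368 51539607552 85899345920 103079215104 1 1 = true := by decide +kernel
theorem cf6_7 : chkFar
   (.sT (.D 7 0 0) (.D 7 0 0))
    51539607552 68719476736 85899345920 103079215104 1 1 = true := by decide +kernel
theorem cf6_8 : chkFar
   (.sT (.sS (.D 6 0 0) (.D 6 0 0)) (.D 10 0 0))
    0 17179869184 103079215104 120259084288 1 1 = true := by decide +kernel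
theorem cf6_9 : chkFar
   (.sT (.D 8 0 0) (.D 7 0 0))
    17179869184 34359738368 103079215104 120259084288 1 1 = true := by decide +kernel
theorem cf6_10 : chkFar
   (.sT (.D 8 0 0) (.D 7 0 0))
    0 17179869184 120259084288 137438953472 1 1 = true := by decide +kernel
theorem cf6_11 : chkFar
   (.sT (.D 7 0 0) (.D 7 0 0))
    17179869184 34359738368 120259084288 137438953472 1 1 = true := by decide +kernel
theorem cf6_12 : chkFar
   (.sT (.D 7 0 0) (.D 7 0 0))
    34359738368 51539607552 103079215104 120259084288 1 1 = true := by decide +kernel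
theorem cf6_13 : chkFar
   (.sT (.D 7 0 0) (.D 7 0 0))
    51539607552 68719476736 103079215104 120259084288 1 1 = true := by decide +kernel
theorem cf6_14 : chkFar
   (.sT (.D 7 0 0) (.D 7 0 0))
    34359738368 51539607552 120259084288 137438953472 1 1 = true := by decide +kernel
theorem cf6_15 : chkFar
   (.sT (.D 7 0 0) (.D 7 0 0))
    51539607552 68719476736 120259084288 137438953472 1 1 = true := by decide +kernel
theorem cf6_16 : chkFar
   (.sS (.sT (.D 7 0 0) (.D 7 0 0)) (.sT (.D 6 0 0) (.D 6 0 0)))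
    68719476736 103079215104 68719476736 85899345920 1 1 = true := by decide +kernel
theorem cf6_17 : chkFar
   (.sS (.sT (.D 7 0 0) (.D 7 0 0)) (.sT (.D 6 0 0) (.D 6 0 0)))
    68719476736 103079215104 85899345920 103079215104 1 1 = true := by decide +kernel
theorem cf6_18 : chkFar
   (.sS (.D 8 0 0) (.D 7 0 0))
    103079215104 137438953472 68719476736 85899345920 1 1 = true := by decide +kernel
theorem cf6_19 : chkFar
   (.sS (.D 8 0 0) (.D 7 0 0))
    103079215104 137438953472 85899345920 103079215104 1 1 = true := by decide +kernel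
theorem cf6_20 : chkFar
   (.sS (.sT (.D 7 0 0) (.D 6 0 0)) (.D 8 0 0))
    68719476736 103079215104 103079215104 120259084288 1 1 = true := by decide +kernel
theorem cf6_21 : chkFar
   (.sS (.D 8 0 0) (.D 7 0 0))
    68719476736 103079215104 120259084288 137438953472 1 1 = true := by decide +kernel
theorem cf6_22 : chkFar
   (.sS (.D 7 0 0) (.D 7 0 0))
    103079215104 137438953472 103079215104 120259084288 1 1 = true := by decide +kernel
theorem cf6_23 : chkFar
   (.sS (.D 7 0 0) (.D 7 0 0))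
    103079215104 137438953472 120259084288 137438953472 1 1 = true := by decide +kernel
theorem cf6 (H : FarH) : FarBox 0 137438953472 68719476736 137438953472 1 1 :=
   (fS (fT (fS (fT (fS (H _ _ _ _ _ _ _ cf6_0) (H _ _ _ _ _ _ _ cf6_1)) (fS (H _ _ _ _ _ _ _ cf6_2) (H _ _ _ _ _ _ _
   cf6_3))) (fT (fS (H _ _ _ _ _ _ _ cf6_4) (H _ _ _ _ _ _ _ cf6_5)) (fS (H _ _ _ _ _ _ _ cf6_6) (H _ _ _ _ _ _ _
   cf6_7)))) (fS (fT (fS (H _ _ _ _ _ _ _ cf6_8) (H _ _ _ _ _ _ _ cf6_9)) (fS (H _ _ _ _ _ _ _ cf6_10) (H _ _ _ _ _ _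
   _ cf6_11))) (fT (fS (H _ _ _ _ _ _ _ cf6_12) (H _ _ _ _ _ _ _ cf6_13)) (fS (H _ _ _ _ _ _ _ cf6_14) (H _ _ _ _ _ _
   _ cf6_15))))) (fT (fS (fT (H _ _ _ _ _ _ _ cf6_16) (H _ _ _ _ _ _ _ cf6_17)) (fT (H _ _ _ _ _ _ _ cf6_18) (H _ _ _
   _ _ _ _ cf6_19))) (fS (fT (H _ _ _ _ _ _ _ cf6_20) (H _ _ _ _ _ _ _ cf6_21)) (fT (H _ _ _ _ _ _ _ cf6_22) (H _ _ _
   _ _ _ _ cf6_23)))))

theorem cf7_0 : chkFar
   (.sS (.D 7 0 0) (.D 7 0 0))
    137438953472 171798691840 0 17179869184 1 1 = true := by decide +kernel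
theorem cf7_1 : chkFar
   (.sS (.D 7 0 0) (.D 7 0 0))
    137438953472 171798691840 17179869184 34359738368 1 1 = true := by decide +kernel
theorem cf7_2 : chkFar
   (.sS (.D 7 0 0) (.D 7 0 0))
    171798691840 206158430208 0 17179869184 1 1 = true := by decide +kernel
theorem cf7_3 : chkFar
   (.sS (.D 7 0 0) (.D 7 0 0))
    171798691840 206158430208 17179869184 34359738368 1 1 = true := by decide +kernel
theorem cf7_4 : chkFar
   (.sS (.D 7 0 0) (.D 7 0 0))
    137438953472 171798691840 34359738368 51539607552 1 1 = true := by decide +kernel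
theorem cf7_5 : chkFar
   (.sS (.D 7 0 0) (.D 7 0 0))
    137438953472 171798691840 51539607552 68719476736 1 1 = true := by decide +kernel
theorem cf7_6 : chkFar
   (.sS (.D 7 0 0) (.D 7 0 0))
    171798691840 206158430208 34359738368 51539607552 1 1 = true := by decide +kernel
theorem cf7_7 : chkFar
   (.sS (.D 7 0 0) (.D 7 0 0))
    171798691840 206158430208 51539607552 68719476736 1 1 = true := by decide +kernel
theorem cf7_8 : chkFar
   (.sS (.D 7 0 0) (.D 7 0 0))
    206158430208 240518168576 0 17179869184 1 1 = true := by decide +kernel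
theorem cf7_9 : chkFar
   (.sS (.D 7 0 0) (.D 7 0 0))
    206158430208 240518168576 17179869184 34359738368 1 1 = true := by decide +kernel
theorem cf7_10 : chkFar
   (.sT (.sS (.D 7 0 0) (.D 7 0 0)) (.sS (.D 6 0 0) (.D 6 0 0)))
    240518168576 274877906944 0 34359738368 1 1 = true := by decide +kernel
theorem cf7_11 : chkFar
   (.sT (.sS (.D 7 0 0) (.D 6 0 0)) (.sS (.D 6 0 0) (.D 6 0 0)))
    206158430208 240518168576 34359738368 68719476736 1 1 = true := by decide +kernel
theorem cf7_12 : chkFar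
   (.sT (.sS (.D 6 0 0) (.D 6 0 0)) (.sS (.D 6 0 0) (.D 6 0 0)))
    240518168576 274877906944 34359738368 68719476736 1 1 = true := by decide +kernel
theorem cf7_13 : chkFar
   (.sS (.D 7 0 0) (.D 7 0 0))
    137438953472 171798691840 68719476736 85899345920 1 1 = true := by decide +kernel
theorem cf7_14 : chkFar
   (.sS (.D 7 0 0) (.D 7 0 0))
    137438953472 171798691840 85899345920 103079215104 1 1 = true := by decide +kernel
theorem cf7_15 : chkFar
   (.sT (.sS (.D 7 0 0) (.D 6 0 0)) (.sS (.D 7 0 0) (.D 6 0 0)))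
    171798691840 206158430208 68719476736 103079215104 1 1 = true := by decide +kernel
theorem cf7_16 : chkFar
   (.sS (.D 7 0 0) (.D 7 0 0))
    137438953472 171798691840 103079215104 120259084288 1 1 = true := by decide +kernel
theorem cf7_17 : chkFar
   (.sS (.D 7 0 0) (.D 6 0 0))
    137438953472 171798691840 120259084288 137438953472 1 1 = true := by decide +kernel
theorem cf7_18 : chkFar
   (.sT (.sS (.D 6 0 0) (.D 6 0 0)) (.sS (.D 6 0 0) (.D 6 0 0)))
    171798691840 206158430208 103079215104 137438953472 1 1 = true := by decide +kernel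
theorem cf7_19 : chkFar
   (.sT (.sS (.D 6 0 0) (.D 6 0 0)) (.sS (.D 6 0 0) (.D 6 0 0)))
    206158430208 240518168576 68719476736 103079215104 1 1 = true := by decide +kernel
theorem cf7_20 : chkFar
   (.sT (.sS (.D 6 0 0) (.D 6 0 0)) (.sS (.D 6 0 0) (.D 6 0 0)))
    240518168576 274877906944 68719476736 103079215104 1 1 = true := by decide +kernel
theorem cf7_21 : chkFar
   (.sT (.sS (.D 6 0 0) (.D 6 0 0)) (.sS (.D 6 0 0) (.D 6 0 0)))
    206158430208 240518168576 103079215104 137438953472 1 1 = true := by decide +kernel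
theorem cf7_22 : chkFar
   (.sT (.sS (.D 6 0 0) (.D 6 0 0)) (.sS (.D 6 0 0) (.D 6 0 0)))
    240518168576 274877906944 103079215104 137438953472 1 1 = true := by decide +kernel
theorem cf7 (H : FarH) : FarBox 137438953472 274877906944 0 137438953472 1 1 :=
   (fT (fS (fT (fS (fT (H _ _ _ _ _ _ _ cf7_0) (H _ _ _ _ _ _ _ cf7_1)) (fT (H _ _ _ _ _ _ _ cf7_2) (H _ _ _ _ _ _ _
   cf7_3))) (fS (fT (H _ _ _ _ _ _ _ cf7_4) (H _ _ _ _ _ _ _ cf7_5)) (fT (H _ _ _ _ _ _ _ cf7_6) (H _ _ _ _ _ _ _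
   cf7_7)))) (fT (fS (fT (H _ _ _ _ _ _ _ cf7_8) (H _ _ _ _ _ _ _ cf7_9)) (H _ _ _ _ _ _ _ cf7_10)) (fS (H _ _ _ _ _ _
   _ cf7_11) (H _ _ _ _ _ _ _ cf7_12)))) (fS (fT (fS (fT (H _ _ _ _ _ _ _ cf7_13) (H _ _ _ _ _ _ _ cf7_14)) (H _ _ _ _
   _ _ _ cf7_15)) (fS (fT (H _ _ _ _ _ _ _ cf7_16) (H _ _ _ _ _ _ _ cf7_17)) (H _ _ _ _ _ _ _ cf7_18))) (fT (fS (H _ _
   _ _ _ _ _ cf7_19) (H _ _ _ _ _ _ _ cf7_20)) (fS (H _ _ _ _ _ _ _ cf7_21) (H _ _ _ _ _ _ _ cf7_22)))))


end Crest.Agent.R086.N
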