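import Crest.Agent.R086.N.Spl

/-! generated certificate -/

namespace Crest.Agent.R086.N

set_option maxRecDepth 100000
set_option Elab.async false

theorem cf46_0 : chkFar
   (.sT (.D 10 0 0) (.D 10 0 0))
    0 274877906944 2199023255552 2473901162496 3 3 = true := by decide +kernel
theorem cf46_1 : chkFar
   (.D 10 0 0)
    274877906944 549755813888 2199023255552 2473901162496 3 3 = true := by decide +kernel
theorem cf46_2 : chkFar
   (.sS (.sT (.D 8 0 0) (.D 8 0 0)) (.D 8 0 0))
    0 549755813888 2473901162496 2748779069440 3 3 = true := by decide +kernel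
theorem cf46_3 : chkFar
   (.sT (.sS (.D 7 0 0) (.D 6 1 0)) (.sS (.D 7 0 0) (.D 6 1 0)))
    549755813888 1099511627776 2199023255552 2748779069440 3 3 = true := by decide +kernel
theorem cf46_4 : chkFar
   (.sS (.D 12 0 0) (.D 8 0 0))
    0 549755813888 2748779069440 3023656976384 3 3 = true := by decide +kernel
theorem cf46_5 : chkFar
   (.sS (.D 10 0 0) (.D 8 0 0))
    0 549755813888 3023656976384 3298534883328 3 3 = true := by decide +kernel
theorem cf46_6 : chkFar
   (.sT (.D 10 0 0) (.D 8 1 0))
    549755813888 1099511627776 2748779069440 3298534883328 3 3 = true := by decide +kernel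
theorem cf46_7 : chkFar
   (.sS (.D 10 0 0) (.D 7 0 0))
    0 549755813888 2199023255552 2473901162496 4 4 = true := by decide +kernel
theorem cf46_8 : chkFar
   (.sS (.D 8 0 0) (.D 8 0 0))
    0 549755813888 2473901162496 2748779069440 4 4 = true := by decide +kernel
theorem cf46_9 : chkFar
   (.sT (.D 8 0 0) (.D 8 0 0))
    549755813888 1099511627776 2199023255552 2748779069440 4 4 = true := by decide +kernel
theorem cf46_10 : chkFar
   (.sS (.D 8 0 0) (.D 8 0 0))
    0 549755813888 2748779069440 3023656976384 4 4 = true := by decide +kernel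
theorem cf46_11 : chkFar
   (.sS (.D 8 0 0) (.D 8 0 0))
    0 549755813888 3023656976384 3298534883328 4 4 = true := by decide +kernel
theorem cf46_12 : chkFar
   (.sT (.D 8 0 0) (.D 8 0 0))
    549755813888 1099511627776 2748779069440 3298534883328 4 4 = true := by decide +kernel
theorem cf46_13 : chkFar
   (.sT (.sS (.D 7 1 0) (.D 6 0 0)) (.sS (.D 6 2 0) (.D 5 2 0)))
    1099511627776 2199023255552 2199023255552 3298534883328 3 3 = true := by decide +kernel
theorem cf46_14 : chkFar
   (.sT (.sS (.D 7 0 0) (.D 6 0 0)) (.sS (.D 7 0 0) (.D 5 2 0)))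
    1099511627776 2199023255552 2199023255552 3298534883328 4 4 = true := by decide +kernel
theorem cf46_15 : chkFar
   (.sS (.D 10 0 0) (.D 8 0 0))
    0 549755813888 3298534883328 3573412790272 3 3 = true := by decide +kernel
theorem cf46_16 : chkFar
   (.sS (.D 10 0 0) (.D 8 0 0))
    0 549755813888 3573412790272 3848290697216 3 3 = true := by decide +kernel
theorem cf46_17 : chkFar
   (.D 12 1 0)
    549755813888 1099511627776 3298534883328 3848290697216 3 3 = true := by decide +kernel
theorem cf46_18 : chkFar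
   (.sT (.D 12 0 0) (.D 12 0 0))
    0 549755813888 3848290697216 4398046511104 3 3 = true := by decide +kernel
theorem cf46_19 : chkFar
   (.D 10 0 0)
    549755813888 1099511627776 3848290697216 4398046511104 3 3 = true := by decide +kernel
theorem cf46_20 : chkFar
   (.sS (.D 10 0 0) (.D 8 0 0))
    0 549755813888 3298534883328 3573412790272 4 4 = true := by decide +kernel
theorem cf46_21 : chkFar
   (.D 10 0 0)
    0 549755813888 3573412790272 3848290697216 4 4 = true := by decide +kernel
theorem cf46_22 : chkFar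
   (.D 10 0 0)
    549755813888 1099511627776 3298534883328 3848290697216 4 4 = true := by decide +kernel
theorem cf46_23 : chkFar
   (.sT (.D 10 0 0) (.D 10 0 0))
    0 549755813888 3848290697216 4398046511104 4 4 = true := by decide +kernel
theorem cf46_24 : chkFar
   (.D 10 0 0)
    549755813888 1099511627776 3848290697216 4398046511104 4 4 = true := by decide +kernel
theorem cf46_25 : chkFar
   (.sT (.sS (.D 8 0 0) (.D 7 0 0)) (.D 12 0 0))
    1099511627776 2199023255552 3298534883328 4398046511104 3 3 = true := by decide +kernel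
theorem cf46_26 : chkFar
   (.sT (.D 10 0 0) (.D 10 0 0))
    1099511627776 2199023255552 3298534883328 4398046511104 4 4 = true := by decide +kernel
theorem cf46_27 : chkFar
   (.sS (.D 8 0 0) (.D 7 0 0))
    0 549755813888 2199023255552 2473901162496 5 5 = true := by decide +kernel
theorem cf46_28 : chkFar
   (.sS (.D 8 0 0) (.D 7 0 0))
    0 549755813888 2473901162496 2748779069440 5 5 = true := by decide +kernel
theorem cf46_29 : chkFar
   (.D 10 0 0)
    549755813888 1099511627776 2199023255552 2748779069440 5 5 = true := by decide +kernel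
theorem cf46_30 : chkFar
   (.sT (.sS (.D 8 0 0) (.D 8 0 0)) (.D 10 0 0))
    0 549755813888 2748779069440 3298534883328 5 5 = true := by decide +kernel
theorem cf46_31 : chkFar
   (.D 8 0 0)
    549755813888 1099511627776 2748779069440 3298534883328 5 5 = true := by decide +kernel
theorem cf46_32 : chkFar
   (.sT (.D 8 1 0) (.D 8 0 0))
    1099511627776 2199023255552 2199023255552 3298534883328 5 5 = true := by decide +kernel
theorem cf46_33 : chkFar
   (.sT (.D 10 0 0) (.D 10 0 0))
    0 549755813888 3298534883328 3848290697216 5 5 = true := by decide +kernel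
theorem cf46_34 : chkFar
   (.D 10 0 0)
    549755813888 1099511627776 3298534883328 3848290697216 5 5 = true := by decide +kernel
theorem cf46_35 : chkFar
   (.sS (.D 12 0 0) (.D 10 0 0))
    0 1099511627776 3848290697216 4398046511104 5 5 = true := by decide +kernel
theorem cf46_36 : chkFar
   (.sT (.D 8 0 0) (.D 10 0 0))
    1099511627776 2199023255552 3298534883328 4398046511104 5 5 = true := by decide +kernel
theorem cf46 (H : FarH) : FarBox 0 2199023255552 2199023255552 4398046511104 3 5 :=
   (fM rfl (fT (fS (fM rfl (fT (fS (fT (fS (H _ _ _ _ _ _ _ cf46_0) (H _ _ _ _ _ _ _ cf46_1)) (H _ _ _ _ _ _ _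
   cf46_2)) (H _ _ _ _ _ _ _ cf46_3)) (fS (fT (H _ _ _ _ _ _ _ cf46_4) (H _ _ _ _ _ _ _ cf46_5)) (H _ _ _ _ _ _ _
   cf46_6))) (fT (fS (fT (H _ _ _ _ _ _ _ cf46_7) (H _ _ _ _ _ _ _ cf46_8)) (H _ _ _ _ _ _ _ cf46_9)) (fS (fT (H _ _ _
   _ _ _ _ cf46_10) (H _ _ _ _ _ _ _ cf46_11)) (H _ _ _ _ _ _ _ cf46_12)))) (fM rfl (H _ _ _ _ _ _ _ cf46_13) (H _ _ _
   _ _ _ _ cf46_14))) (fS (fM rfl (fT (fS (fT (H _ _ _ _ _ _ _ cf46_15) (H _ _ _ _ _ _ _ cf46_16)) (H _ _ _ _ _ _ _
   cf46_17)) (fS (H _ _ _ _ _ _ _ cf46_18) (H _ _ _ _ _ _ _ cf46_19))) (fT (fS (fT (H _ _ _ _ _ _ _ cf46_20) (H _ _ _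
   _ _ _ _ cf46_21)) (H _ _ _ _ _ _ _ cf46_22)) (fS (H _ _ _ _ _ _ _ cf46_23) (H _ _ _ _ _ _ _ cf46_24)))) (fM rfl (H
   _ _ _ _ _ _ _ cf46_25) (H _ _ _ _ _ _ _ cf46_26)))) (fT (fS (fT (fS (fT (H _ _ _ _ _ _ _ cf46_27) (H _ _ _ _ _ _ _
   cf46_28)) (H _ _ _ _ _ _ _ cf46_29)) (fS (H _ _ _ _ _ _ _ cf46_30) (H _ _ _ _ _ _ _ cf46_31))) (H _ _ _ _ _ _ _
   cf46_32)) (fS (fT (fS (H _ _ _ _ _ _ _ cf46_33) (H _ _ _ _ _ _ _ cf46_34)) (H _ _ _ _ _ _ _ cf46_35)) (H _ _ _ _ _
   _ _ cf46_36))))

theorem cf47_0 : chkFar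
   (.sS (.sM (.D 7 1 0) (.D 5 2 0)) (.D 6 0 0))
    2199023255552 4398046511104 2199023255552 3298534883328 3 4 = true := by decide +kernel
theorem cf47_1 : chkFar
   (.sS (.sM (.D 8 1 0) (.D 8 0 0)) (.D 8 0 0))
    2199023255552 4398046511104 3298534883328 4398046511104 3 4 = true := by decide +kernel
theorem cf47_2 : chkFar
   (.sT (.D 10 0 0) (.D 10 0 0))
    2199023255552 4398046511104 2199023255552 4398046511104 5 5 = true := by decide +kernel
theorem cf47 (H : FarH) : FarBox 2199023255552 4398046511104 2199023255552 4398046511104 3 5 :=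
   (fM rfl (fT (H _ _ _ _ _ _ _ cf47_0) (H _ _ _ _ _ _ _ cf47_1)) (H _ _ _ _ _ _ _ cf47_2))

theorem cf48_0 : chkFar
   (.sS (.D 14 0 0) (.D 12 0 0))
    0 549755813888 4398046511104 4672924418048 0 0 = true := by decide +kernel
theorem cf48_1 : chkFar
   (.sS (.D 14 0 0) (.D 12 0 0))
    0 549755813888 4672924418048 4947802324992 0 0 = true := by decide +kernel
theorem cf48_2 : chkFar
   (.sT (.D 14 0 0) (.D 14 0 0))
    549755813888 1099511627776 4398046511104 4947802324992 0 0 = true := by decide +kernel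
theorem cf48_3 : chkFar
   (.sS (.D 14 0 0) (.D 12 0 0))
    0 549755813888 4947802324992 5222680231936 0 0 = true := by decide +kernel
theorem cf48_4 : chkFar
   (.D 17 0 0)
    0 549755813888 5222680231936 5497558138880 0 0 = true := by decide +kernel
theorem cf48_5 : chkFar
   (.D 20 0 0)
    549755813888 1099511627776 4947802324992 5497558138880 0 0 = true := by decide +kernel
theorem cf48_6 : chkFar
   (.sS (.D 12 0 0) (.D 10 0 0))
    0 549755813888 4398046511104 4672924418048 1 1 = true := by decide +kernel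
theorem cf48_7 : chkFar
   (.D 17 0 0)
    0 549755813888 4672924418048 4947802324992 1 1 = true := by decide +kernel
theorem cf48_8 : chkFar
   (.D 17 0 0)
    549755813888 1099511627776 4398046511104 4947802324992 1 1 = true := by decide +kernel
theorem cf48_9 : chkFar
   (.sT (.D 14 0 0) (.D 14 0 0))
    0 549755813888 4947802324992 5497558138880 1 1 = true := by decide +kernel
theorem cf48_10 : chkFar
   (.D 14 0 0)
    549755813888 1099511627776 4947802324992 5497558138880 1 1 = true := by decide +kernel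
theorem cf48_11 : chkFar
   (.sS (.D 14 0 0) (.D 12 0 0))
    1099511627776 2199023255552 4398046511104 4947802324992 0 0 = true := by decide +kernel
theorem cf48_12 : chkFar
   (.sS (.D 14 0 0) (.D 14 0 0))
    1099511627776 2199023255552 4947802324992 5497558138880 0 0 = true := by decide +kernel
theorem cf48_13 : chkFar
   (.sS (.D 12 0 0) (.D 10 0 0))
    1099511627776 2199023255552 4398046511104 4947802324992 1 1 = true := by decide +kernel
theorem cf48_14 : chkFar
   (.sS (.D 12 0 0) (.D 12 0 0))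
    1099511627776 2199023255552 4947802324992 5497558138880 1 1 = true := by decide +kernel
theorem cf48_15 : chkFar
   (.D 17 0 0)
    0 549755813888 5497558138880 5772436045824 0 0 = true := by decide +kernel
theorem cf48_16 : chkFar
   (.D 17 0 0)
    0 549755813888 5772436045824 6047313952768 0 0 = true := by decide +kernel
theorem cf48_17 : chkFar
   (.D 17 0 0)
    549755813888 1099511627776 5497558138880 6047313952768 0 0 = true := by decide +kernel
theorem cf48_18 : chkFar
   (.D 24 0 0)
    0 549755813888 6047313952768 6597069766656 0 0 = true := by decide +kernel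
theorem cf48_19 : chkFar
   (.D 20 0 0)
    549755813888 1099511627776 6047313952768 6597069766656 0 0 = true := by decide +kernel
theorem cf48_20 : chkFar
   (.sT (.D 14 0 0) (.D 14 0 0))
    0 549755813888 5497558138880 6047313952768 1 1 = true := by decide +kernel
theorem cf48_21 : chkFar
   (.D 14 0 0)
    549755813888 1099511627776 5497558138880 6047313952768 1 1 = true := by decide +kernel
theorem cf48_22 : chkFar
   (.D 20 0 0)
    0 549755813888 6047313952768 6597069766656 1 1 = true := by decide +kernel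
theorem cf48_23 : chkFar
   (.D 17 0 0)
    549755813888 1099511627776 6047313952768 6597069766656 1 1 = true := by decide +kernel
theorem cf48_24 : chkFar
   (.D 17 0 0)
    1099511627776 1649267441664 5497558138880 6047313952768 0 0 = true := by decide +kernel
theorem cf48_25 : chkFar
   (.D 14 0 0)
    1649267441664 2199023255552 5497558138880 6047313952768 0 0 = true := by decide +kernel
theorem cf48_26 : chkFar
   (.D 28 0 0)
    1099511627776 2199023255552 6047313952768 6597069766656 0 0 = true := by decide +kernel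
theorem cf48_27 : chkFar
   (.D 20 0 0)
    1099511627776 2199023255552 5497558138880 6047313952768 1 1 = true := by decide +kernel
theorem cf48_28 : chkFar
   (.D 20 0 0)
    1099511627776 2199023255552 6047313952768 6597069766656 1 1 = true := by decide +kernel
theorem cf48 (H : FarH) : FarBox 0 2199023255552 4398046511104 6597069766656 0 1 :=
   (fT (fS (fM rfl (fT (fS (fT (H _ _ _ _ _ _ _ cf48_0) (H _ _ _ _ _ _ _ cf48_1)) (H _ _ _ _ _ _ _ cf48_2)) (fS (fT (H
   _ _ _ _ _ _ _ cf48_3) (H _ _ _ _ _ _ _ cf48_4)) (H _ _ _ _ _ _ _ cf48_5))) (fT (fS (fT (H _ _ _ _ _ _ _ cf48_6) (H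
   _ _ _ _ _ _ _ cf48_7)) (H _ _ _ _ _ _ _ cf48_8)) (fS (H _ _ _ _ _ _ _ cf48_9) (H _ _ _ _ _ _ _ cf48_10)))) (fM rfl
   (fT (H _ _ _ _ _ _ _ cf48_11) (H _ _ _ _ _ _ _ cf48_12)) (fT (H _ _ _ _ _ _ _ cf48_13) (H _ _ _ _ _ _ _ cf48_14))))
   (fS (fM rfl (fT (fS (fT (H _ _ _ _ _ _ _ cf48_15) (H _ _ _ _ _ _ _ cf48_16)) (H _ _ _ _ _ _ _ cf48_17)) (fS (H _ _
   _ _ _ _ _ cf48_18) (H _ _ _ _ _ _ _ cf48_19))) (fT (fS (H _ _ _ _ _ _ _ cf48_20) (H _ _ _ _ _ _ _ cf48_21)) (fS (H
   _ _ _ _ _ _ _ cf48_22) (H _ _ _ _ _ _ _ cf48_23)))) (fM rfl (fT (fS (H _ _ _ _ _ _ _ cf48_24) (H _ _ _ _ _ _ _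
   cf48_25)) (H _ _ _ _ _ _ _ cf48_26)) (fT (H _ _ _ _ _ _ _ cf48_27) (H _ _ _ _ _ _ _ cf48_28)))))

theorem cf49_0 : chkFar
   (.sT (.D 14 0 0) (.D 12 0 0))
    0 549755813888 4398046511104 4947802324992 2 2 = true := by decide +kernel
theorem cf49_1 : chkFar
   (.D 12 0 0)
    549755813888 1099511627776 4398046511104 4947802324992 2 2 = true := by decide +kernel
theorem cf49_2 : chkFar
   (.sT (.D 12 0 0) (.D 12 0 0))
    0 549755813888 4947802324992 5497558138880 2 2 = true := by decide +kernel
theorem cf49_3 : chkFar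
   (.D 12 0 0)
    549755813888 1099511627776 4947802324992 5497558138880 2 2 = true := by decide +kernel
theorem cf49_4 : chkFar
   (.sT (.D 14 0 0) (.D 14 0 0))
    1099511627776 2199023255552 4398046511104 5497558138880 2 2 = true := by decide +kernel
theorem cf49_5 : chkFar
   (.D 17 0 0)
    0 549755813888 5497558138880 6047313952768 2 2 = true := by decide +kernel
theorem cf49_6 : chkFar
   (.D 14 0 0)
    549755813888 1099511627776 5497558138880 6047313952768 2 2 = true := by decide +kernel
theorem cf49_7 : chkFar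
   (.D 17 0 0)
    0 549755813888 6047313952768 6597069766656 2 2 = true := by decide +kernel
theorem cf49_8 : chkFar
   (.D 14 0 0)
    549755813888 1099511627776 6047313952768 6597069766656 2 2 = true := by decide +kernel
theorem cf49_9 : chkFar
   (.D 17 0 0)
    1099511627776 2199023255552 5497558138880 6047313952768 2 2 = true := by decide +kernel
theorem cf49_10 : chkFar
   (.D 17 0 0)
    1099511627776 2199023255552 6047313952768 6597069766656 2 2 = true := by decide +kernel
theorem cf49 (H : FarH) : FarBox 0 2199023255552 4398046511104 6597069766656 2 2 :=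
   (fT (fS (fT (fS (H _ _ _ _ _ _ _ cf49_0) (H _ _ _ _ _ _ _ cf49_1)) (fS (H _ _ _ _ _ _ _ cf49_2) (H _ _ _ _ _ _ _
   cf49_3))) (H _ _ _ _ _ _ _ cf49_4)) (fS (fT (fS (H _ _ _ _ _ _ _ cf49_5) (H _ _ _ _ _ _ _ cf49_6)) (fS (H _ _ _ _ _
   _ _ cf49_7) (H _ _ _ _ _ _ _ cf49_8))) (fT (H _ _ _ _ _ _ _ cf49_9) (H _ _ _ _ _ _ _ cf49_10))))

theorem cf50_0 : chkFar
   (.D 34 0 0)
    2199023255552 3298534883328 4398046511104 5497558138880 0 0 = true := by decide +kernel
theorem cf50_1 : chkFar
   (.D 20 0 0)
    2199023255552 3298534883328 4398046511104 5497558138880 1 1 = true := by decide +kernel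
theorem cf50_2 : chkFar
   (.D 28 0 0)
    3298534883328 4398046511104 4398046511104 5497558138880 0 1 = true := by decide +kernel
theorem cf50_3 : chkFar
   (.D 40 0 0)
    2199023255552 3298534883328 5497558138880 6597069766656 0 0 = true := by decide +kernel
theorem cf50_4 : chkFar
   (.D 24 0 0)
    2199023255552 3298534883328 5497558138880 6597069766656 1 1 = true := by decide +kernel
theorem cf50_5 : chkFar
   (.D 40 0 0)
    3298534883328 4398046511104 5497558138880 6597069766656 0 1 = true := by decide +kernel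
theorem cf50_6 : chkFar
   (.sS (.D 14 0 0) (.D 12 0 0))
    2199023255552 4398046511104 4398046511104 5497558138880 2 2 = true := by decide +kernel
theorem cf50_7 : chkFar
   (.D 17 0 0)
    2199023255552 3298534883328 5497558138880 6597069766656 2 2 = true := by decide +kernel
theorem cf50_8 : chkFar
   (.D 14 0 0)
    3298534883328 4398046511104 5497558138880 6597069766656 2 2 = true := by decide +kernel
theorem cf50 (H : FarH) : FarBox 2199023255552 4398046511104 4398046511104 6597069766656 0 2 :=
   (fM rfl (fT (fS (fM rfl (H _ _ _ _ _ _ _ cf50_0) (H _ _ _ _ _ _ _ cf50_1)) (H _ _ _ _ _ _ _ cf50_2)) (fS (fM rfl (H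
   _ _ _ _ _ _ _ cf50_3) (H _ _ _ _ _ _ _ cf50_4)) (H _ _ _ _ _ _ _ cf50_5))) (fT (H _ _ _ _ _ _ _ cf50_6) (fS (H _ _
   _ _ _ _ _ cf50_7) (H _ _ _ _ _ _ _ cf50_8))))


end Crest.Agent.R086.N
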