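import Crest.Agent.R086.N.Spl

/-! generated certificate -/

namespace Crest.Agent.R086.N

set_option maxRecDepth 100000
set_option Elab.async false

theorem cf51_0 : chkFar
   (.D 24 0 0)
    0 549755813888 6597069766656 7146825580544 0 0 = true := by decide +kernel
theorem cf51_1 : chkFar
   (.D 20 0 0)
    549755813888 1099511627776 6597069766656 7146825580544 0 0 = true := by decide +kernel
theorem cf51_2 : chkFar
   (.D 24 0 0)
    0 549755813888 7146825580544 7696581394432 0 0 = true := by decide +kernel
theorem cf51_3 : chkFar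
   (.D 24 0 0)
    549755813888 1099511627776 7146825580544 7696581394432 0 0 = true := by decide +kernel
theorem cf51_4 : chkFar
   (.D 20 0 0)
    0 549755813888 6597069766656 7146825580544 1 1 = true := by decide +kernel
theorem cf51_5 : chkFar
   (.D 17 0 0)
    549755813888 1099511627776 6597069766656 7146825580544 1 1 = true := by decide +kernel
theorem cf51_6 : chkFar
   (.D 20 0 0)
    0 549755813888 7146825580544 7696581394432 1 1 = true := by decide +kernel
theorem cf51_7 : chkFar
   (.D 17 0 0)
    549755813888 1099511627776 7146825580544 7696581394432 1 1 = true := by decide +kernel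
theorem cf51_8 : chkFar
   (.D 28 0 0)
    1099511627776 2199023255552 6597069766656 7146825580544 0 0 = true := by decide +kernel
theorem cf51_9 : chkFar
   (.D 34 0 0)
    1099511627776 2199023255552 7146825580544 7696581394432 0 0 = true := by decide +kernel
theorem cf51_10 : chkFar
   (.D 24 0 0)
    1099511627776 2199023255552 6597069766656 7146825580544 1 1 = true := by decide +kernel
theorem cf51_11 : chkFar
   (.D 24 0 0)
    1099511627776 2199023255552 7146825580544 7696581394432 1 1 = true := by decide +kernel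
theorem cf51_12 : chkFar
   (.D 24 0 0)
    0 549755813888 7696581394432 8246337208320 0 0 = true := by decide +kernel
theorem cf51_13 : chkFar
   (.D 24 0 0)
    549755813888 1099511627776 7696581394432 8246337208320 0 0 = true := by decide +kernel
theorem cf51_14 : chkFar
   (.D 24 0 0)
    0 549755813888 8246337208320 8796093022208 0 0 = true := by decide +kernel
theorem cf51_15 : chkFar
   (.D 24 0 0)
    549755813888 1099511627776 8246337208320 8796093022208 0 0 = true := by decide +kernel
theorem cf51_16 : chkFar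
   (.D 20 0 0)
    0 549755813888 7696581394432 8246337208320 1 1 = true := by decide +kernel
theorem cf51_17 : chkFar
   (.D 20 0 0)
    549755813888 1099511627776 7696581394432 8246337208320 1 1 = true := by decide +kernel
theorem cf51_18 : chkFar
   (.D 24 0 0)
    0 549755813888 8246337208320 8796093022208 1 1 = true := by decide +kernel
theorem cf51_19 : chkFar
   (.D 20 0 0)
    549755813888 1099511627776 8246337208320 8796093022208 1 1 = true := by decide +kernel
theorem cf51_20 : chkFar
   (.D 34 0 0)
    1099511627776 2199023255552 7696581394432 8246337208320 0 0 = true := by decide +kernel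
theorem cf51_21 : chkFar
   (.D 40 0 0)
    1099511627776 2199023255552 8246337208320 8796093022208 0 0 = true := by decide +kernel
theorem cf51_22 : chkFar
   (.D 24 0 0)
    1099511627776 2199023255552 7696581394432 8246337208320 1 1 = true := by decide +kernel
theorem cf51_23 : chkFar
   (.D 28 0 0)
    1099511627776 2199023255552 8246337208320 8796093022208 1 1 = true := by decide +kernel
theorem cf51 (H : FarH) : FarBox 0 2199023255552 6597069766656 8796093022208 0 1 :=
   (fT (fS (fM rfl (fT (fS (H _ _ _ _ _ _ _ cf51_0) (H _ _ _ _ _ _ _ cf51_1)) (fS (H _ _ _ _ _ _ _ cf51_2) (H _ _ _ _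
   _ _ _ cf51_3))) (fT (fS (H _ _ _ _ _ _ _ cf51_4) (H _ _ _ _ _ _ _ cf51_5)) (fS (H _ _ _ _ _ _ _ cf51_6) (H _ _ _ _
   _ _ _ cf51_7)))) (fM rfl (fT (H _ _ _ _ _ _ _ cf51_8) (H _ _ _ _ _ _ _ cf51_9)) (fT (H _ _ _ _ _ _ _ cf51_10) (H _
   _ _ _ _ _ _ cf51_11)))) (fS (fM rfl (fT (fS (H _ _ _ _ _ _ _ cf51_12) (H _ _ _ _ _ _ _ cf51_13)) (fS (H _ _ _ _ _ _
   _ cf51_14) (H _ _ _ _ _ _ _ cf51_15))) (fT (fS (H _ _ _ _ _ _ _ cf51_16) (H _ _ _ _ _ _ _ cf51_17)) (fS (H _ _ _ _
   _ _ _ cf51_18) (H _ _ _ _ _ _ _ cf51_19)))) (fM rfl (fT (H _ _ _ _ _ _ _ cf51_20) (H _ _ _ _ _ _ _ cf51_21)) (fT (H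
   _ _ _ _ _ _ _ cf51_22) (H _ _ _ _ _ _ _ cf51_23)))))

theorem cf52_0 : chkFar
   (.D 17 0 0)
    0 549755813888 6597069766656 7146825580544 2 2 = true := by decide +kernel
theorem cf52_1 : chkFar
   (.D 14 0 0)
    549755813888 1099511627776 6597069766656 7146825580544 2 2 = true := by decide +kernel
theorem cf52_2 : chkFar
   (.D 17 0 0)
    0 549755813888 7146825580544 7696581394432 2 2 = true := by decide +kernel
theorem cf52_3 : chkFar
   (.D 17 0 0)
    549755813888 1099511627776 7146825580544 7696581394432 2 2 = true := by decide +kernel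
theorem cf52_4 : chkFar
   (.D 34 0 0)
    1099511627776 2199023255552 6597069766656 7696581394432 2 2 = true := by decide +kernel
theorem cf52_5 : chkFar
   (.D 17 0 0)
    0 549755813888 7696581394432 8246337208320 2 2 = true := by decide +kernel
theorem cf52_6 : chkFar
   (.D 17 0 0)
    549755813888 1099511627776 7696581394432 8246337208320 2 2 = true := by decide +kernel
theorem cf52_7 : chkFar
   (.D 28 0 0)
    0 1099511627776 8246337208320 8796093022208 2 2 = true := by decide +kernel
theorem cf52_8 : chkFar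
   (.D 28 0 0)
    1099511627776 2199023255552 7696581394432 8796093022208 2 2 = true := by decide +kernel
theorem cf52 (H : FarH) : FarBox 0 2199023255552 6597069766656 8796093022208 2 2 :=
   (fT (fS (fT (fS (H _ _ _ _ _ _ _ cf52_0) (H _ _ _ _ _ _ _ cf52_1)) (fS (H _ _ _ _ _ _ _ cf52_2) (H _ _ _ _ _ _ _
   cf52_3))) (H _ _ _ _ _ _ _ cf52_4)) (fS (fT (fS (H _ _ _ _ _ _ _ cf52_5) (H _ _ _ _ _ _ _ cf52_6)) (H _ _ _ _ _ _ _
   cf52_7)) (H _ _ _ _ _ _ _ cf52_8)))

theorem cf53_0 : chkFar
   (.D 28 0 0)
    2199023255552 3298534883328 6597069766656 7146825580544 0 0 = true := by decide +kernel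
theorem cf53_1 : chkFar
   (.D 28 0 0)
    2199023255552 3298534883328 7146825580544 7696581394432 0 0 = true := by decide +kernel
theorem cf53_2 : chkFar
   (.D 34 0 0)
    2199023255552 3298534883328 6597069766656 7696581394432 1 1 = true := by decide +kernel
theorem cf53_3 : chkFar
   (.D 28 0 0)
    3298534883328 4398046511104 6597069766656 7146825580544 0 0 = true := by decide +kernel
theorem cf53_4 : chkFar
   (.D 28 0 0)
    3298534883328 4398046511104 7146825580544 7696581394432 0 0 = true := by decide +kernel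
theorem cf53_5 : chkFar
   (.D 28 0 0)
    3298534883328 4398046511104 6597069766656 7696581394432 1 1 = true := by decide +kernel
theorem cf53_6 : chkFar
   (.D 34 0 0)
    2199023255552 3298534883328 7696581394432 8246337208320 0 0 = true := by decide +kernel
theorem cf53_7 : chkFar
   (.D 34 0 0)
    2199023255552 3298534883328 8246337208320 8796093022208 0 0 = true := by decide +kernel
theorem cf53_8 : chkFar
   (.D 40 0 0)
    2199023255552 3298534883328 7696581394432 8796093022208 1 1 = true := by decide +kernel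
theorem cf53_9 : chkFar
   (.D 34 0 0)
    3298534883328 4398046511104 7696581394432 8246337208320 0 0 = true := by decide +kernel
theorem cf53_10 : chkFar
   (.D 34 0 0)
    3298534883328 4398046511104 8246337208320 8796093022208 0 0 = true := by decide +kernel
theorem cf53_11 : chkFar
   (.D 40 0 0)
    3298534883328 4398046511104 7696581394432 8796093022208 1 1 = true := by decide +kernel
theorem cf53_12 : chkFar
   (.D 20 0 0)
    2199023255552 3298534883328 6597069766656 7696581394432 2 2 = true := by decide +kernel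
theorem cf53_13 : chkFar
   (.D 20 0 0)
    3298534883328 4398046511104 6597069766656 7696581394432 2 2 = true := by decide +kernel
theorem cf53_14 : chkFar
   (.D 28 0 0)
    2199023255552 3298534883328 7696581394432 8796093022208 2 2 = true := by decide +kernel
theorem cf53_15 : chkFar
   (.D 24 0 0)
    3298534883328 4398046511104 7696581394432 8796093022208 2 2 = true := by decide +kernel
theorem cf53 (H : FarH) : FarBox 2199023255552 4398046511104 6597069766656 8796093022208 0 2 :=
   (fM rfl (fT (fS (fM rfl (fT (H _ _ _ _ _ _ _ cf53_0) (H _ _ _ _ _ _ _ cf53_1)) (H _ _ _ _ _ _ _ cf53_2)) (fM rfl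
   (fT (H _ _ _ _ _ _ _ cf53_3) (H _ _ _ _ _ _ _ cf53_4)) (H _ _ _ _ _ _ _ cf53_5))) (fS (fM rfl (fT (H _ _ _ _ _ _ _
   cf53_6) (H _ _ _ _ _ _ _ cf53_7)) (H _ _ _ _ _ _ _ cf53_8)) (fM rfl (fT (H _ _ _ _ _ _ _ cf53_9) (H _ _ _ _ _ _ _
   cf53_10)) (H _ _ _ _ _ _ _ cf53_11)))) (fT (fS (H _ _ _ _ _ _ _ cf53_12) (H _ _ _ _ _ _ _ cf53_13)) (fS (H _ _ _ _
   _ _ _ cf53_14) (H _ _ _ _ _ _ _ cf53_15))))

theorem cf54_0 : chkFar
   (.sT (.D 12 0 0) (.D 12 0 0))
    0 549755813888 4398046511104 4947802324992 3 3 = true := by decide +kernel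
theorem cf54_1 : chkFar
   (.D 10 0 0)
    549755813888 1099511627776 4398046511104 4947802324992 3 3 = true := by decide +kernel
theorem cf54_2 : chkFar
   (.sS (.D 14 0 0) (.D 12 0 0))
    0 1099511627776 4947802324992 5497558138880 3 3 = true := by decide +kernel
theorem cf54_3 : chkFar
   (.sS (.D 12 0 0) (.D 10 0 0))
    0 1099511627776 4398046511104 4947802324992 4 4 = true := by decide +kernel
theorem cf54_4 : chkFar
   (.sS (.D 12 0 0) (.D 10 0 0))
    0 1099511627776 4947802324992 5497558138880 4 4 = true := by decide +kernel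
theorem cf54_5 : chkFar
   (.sT (.D 12 0 0) (.D 12 0 0))
    1099511627776 2199023255552 4398046511104 5497558138880 3 3 = true := by decide +kernel
theorem cf54_6 : chkFar
   (.D 17 0 0)
    1099511627776 2199023255552 4398046511104 5497558138880 4 4 = true := by decide +kernel
theorem cf54_7 : chkFar
   (.sS (.D 14 0 0) (.D 12 0 0))
    0 1099511627776 5497558138880 6047313952768 3 3 = true := by decide +kernel
theorem cf54_8 : chkFar
   (.sS (.D 14 0 0) (.D 12 0 0))
    0 1099511627776 6047313952768 6597069766656 3 3 = true := by decide +kernel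
theorem cf54_9 : chkFar
   (.sS (.D 12 0 0) (.D 10 0 0))
    0 1099511627776 5497558138880 6047313952768 4 4 = true := by decide +kernel
theorem cf54_10 : chkFar
   (.sS (.D 12 0 0) (.D 12 0 0))
    0 1099511627776 6047313952768 6597069766656 4 4 = true := by decide +kernel
theorem cf54_11 : chkFar
   (.D 20 0 0)
    1099511627776 2199023255552 5497558138880 6597069766656 3 3 = true := by decide +kernel
theorem cf54_12 : chkFar
   (.D 14 0 0)
    1099511627776 2199023255552 5497558138880 6597069766656 4 4 = true := by decide +kernel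
theorem cf54_13 : chkFar
   (.sS (.D 10 0 0) (.D 10 0 0))
    0 1099511627776 4398046511104 4947802324992 5 5 = true := by decide +kernel
theorem cf54_14 : chkFar
   (.sS (.D 12 0 0) (.D 10 0 0))
    0 1099511627776 4947802324992 5497558138880 5 5 = true := by decide +kernel
theorem cf54_15 : chkFar
   (.D 12 0 0)
    1099511627776 2199023255552 4398046511104 5497558138880 5 5 = true := by decide +kernel
theorem cf54_16 : chkFar
   (.sS (.D 12 0 0) (.D 10 0 0))
    0 1099511627776 5497558138880 6047313952768 5 5 = true := by decide +kernel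
theorem cf54_17 : chkFar
   (.D 14 0 0)
    0 1099511627776 6047313952768 6597069766656 5 5 = true := by decide +kernel
theorem cf54_18 : chkFar
   (.D 12 0 0)
    1099511627776 2199023255552 5497558138880 6597069766656 5 5 = true := by decide +kernel
theorem cf54_19 : chkFar
   (.sM (.D 10 0 0) (.D 10 0 0))
    2199023255552 3298534883328 4398046511104 5497558138880 3 4 = true := by decide +kernel
theorem cf54_20 : chkFar
   (.D 10 0 0)
    3298534883328 4398046511104 4398046511104 5497558138880 3 4 = true := by decide +kernel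
theorem cf54_21 : chkFar
   (.sM (.D 14 0 0) (.D 12 0 0))
    2199023255552 3298534883328 5497558138880 6597069766656 3 4 = true := by decide +kernel
theorem cf54_22 : chkFar
   (.D 14 0 0)
    3298534883328 4398046511104 5497558138880 6597069766656 3 4 = true := by decide +kernel
theorem cf54_23 : chkFar
   (.sT (.D 12 0 0) (.D 14 0 0))
    2199023255552 4398046511104 4398046511104 6597069766656 5 5 = true := by decide +kernel
theorem cf54 (H : FarH) : FarBox 0 4398046511104 4398046511104 6597069766656 3 5 :=
   (fS (fM rfl (fT (fS (fM rfl (fT (fS (H _ _ _ _ _ _ _ cf54_0) (H _ _ _ _ _ _ _ cf54_1)) (H _ _ _ _ _ _ _ cf54_2))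
   (fT (H _ _ _ _ _ _ _ cf54_3) (H _ _ _ _ _ _ _ cf54_4))) (fM rfl (H _ _ _ _ _ _ _ cf54_5) (H _ _ _ _ _ _ _ cf54_6)))
   (fS (fM rfl (fT (H _ _ _ _ _ _ _ cf54_7) (H _ _ _ _ _ _ _ cf54_8)) (fT (H _ _ _ _ _ _ _ cf54_9) (H _ _ _ _ _ _ _
   cf54_10))) (fM rfl (H _ _ _ _ _ _ _ cf54_11) (H _ _ _ _ _ _ _ cf54_12)))) (fT (fS (fT (H _ _ _ _ _ _ _ cf54_13) (H
   _ _ _ _ _ _ _ cf54_14)) (H _ _ _ _ _ _ _ cf54_15)) (fS (fT (H _ _ _ _ _ _ _ cf54_16) (H _ _ _ _ _ _ _ cf54_17)) (H
   _ _ _ _ _ _ _ cf54_18)))) (fM rfl (fT (fS (H _ _ _ _ _ _ _ cf54_19) (H _ _ _ _ _ _ _ cf54_20)) (fS (H _ _ _ _ _ _ _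
   cf54_21) (H _ _ _ _ _ _ _ cf54_22))) (H _ _ _ _ _ _ _ cf54_23)))


end Crest.Agent.R086.N
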