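import Crest.Agent.R086.N.Spl

/-! generated certificate -/

namespace Crest.Agent.R086.N

set_option maxRecDepth 100000
set_option Elab.async false

theorem cf55_0 : chkFar
   (.sS (.D 14 0 0) (.D 14 0 0))
    0 1099511627776 6597069766656 7146825580544 3 3 = true := by decide +kernel
theorem cf55_1 : chkFar
   (.D 24 0 0)
    0 1099511627776 7146825580544 7696581394432 3 3 = true := by decide +kernel
theorem cf55_2 : chkFar
   (.D 17 0 0)
    0 1099511627776 6597069766656 7146825580544 4 4 = true := by decide +kernel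
theorem cf55_3 : chkFar
   (.D 17 0 0)
    0 1099511627776 7146825580544 7696581394432 4 4 = true := by decide +kernel
theorem cf55_4 : chkFar
   (.D 20 0 0)
    1099511627776 2199023255552 6597069766656 7696581394432 3 3 = true := by decide +kernel
theorem cf55_5 : chkFar
   (.D 17 0 0)
    1099511627776 2199023255552 6597069766656 7696581394432 4 4 = true := by decide +kernel
theorem cf55_6 : chkFar
   (.D 20 0 0)
    0 1099511627776 7696581394432 8246337208320 3 3 = true := by decide +kernel
theorem cf55_7 : chkFar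
   (.D 20 0 0)
    0 1099511627776 8246337208320 8796093022208 3 3 = true := by decide +kernel
theorem cf55_8 : chkFar
   (.D 17 0 0)
    0 1099511627776 7696581394432 8246337208320 4 4 = true := by decide +kernel
theorem cf55_9 : chkFar
   (.D 20 0 0)
    0 1099511627776 8246337208320 8796093022208 4 4 = true := by decide +kernel
theorem cf55_10 : chkFar
   (.D 24 0 0)
    1099511627776 2199023255552 7696581394432 8796093022208 3 3 = true := by decide +kernel
theorem cf55_11 : chkFar
   (.D 17 0 0)
    1099511627776 2199023255552 7696581394432 8796093022208 4 4 = true := by decide +kernel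
theorem cf55_12 : chkFar
   (.D 14 0 0)
    0 1099511627776 6597069766656 7146825580544 5 5 = true := by decide +kernel
theorem cf55_13 : chkFar
   (.D 17 0 0)
    0 1099511627776 7146825580544 7696581394432 5 5 = true := by decide +kernel
theorem cf55_14 : chkFar
   (.D 14 0 0)
    1099511627776 2199023255552 6597069766656 7696581394432 5 5 = true := by decide +kernel
theorem cf55_15 : chkFar
   (.D 17 0 0)
    0 1099511627776 7696581394432 8246337208320 5 5 = true := by decide +kernel
theorem cf55_16 : chkFar
   (.D 17 0 0)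
    0 1099511627776 8246337208320 8796093022208 5 5 = true := by decide +kernel
theorem cf55_17 : chkFar
   (.D 17 0 0)
    1099511627776 2199023255552 7696581394432 8796093022208 5 5 = true := by decide +kernel
theorem cf55_18 : chkFar
   (.D 17 0 0)
    2199023255552 3298534883328 6597069766656 7696581394432 3 3 = true := by decide +kernel
theorem cf55_19 : chkFar
   (.D 14 0 0)
    2199023255552 3298534883328 6597069766656 7696581394432 4 4 = true := by decide +kernel
theorem cf55_20 : chkFar
   (.D 17 0 0)
    3298534883328 4398046511104 6597069766656 7696581394432 3 4 = true := by decide +kernel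
theorem cf55_21 : chkFar
   (.D 20 0 0)
    2199023255552 3298534883328 7696581394432 8796093022208 3 3 = true := by decide +kernel
theorem cf55_22 : chkFar
   (.D 17 0 0)
    2199023255552 3298534883328 7696581394432 8796093022208 4 4 = true := by decide +kernel
theorem cf55_23 : chkFar
   (.D 20 0 0)
    3298534883328 4398046511104 7696581394432 8796093022208 3 4 = true := by decide +kernel
theorem cf55_24 : chkFar
   (.D 17 0 0)
    2199023255552 4398046511104 6597069766656 7696581394432 5 5 = true := by decide +kernel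
theorem cf55_25 : chkFar
   (.D 24 0 0)
    2199023255552 4398046511104 7696581394432 8796093022208 5 5 = true := by decide +kernel
theorem cf55 (H : FarH) : FarBox 0 4398046511104 6597069766656 8796093022208 3 5 :=
   (fS (fM rfl (fT (fS (fM rfl (fT (H _ _ _ _ _ _ _ cf55_0) (H _ _ _ _ _ _ _ cf55_1)) (fT (H _ _ _ _ _ _ _ cf55_2) (H
   _ _ _ _ _ _ _ cf55_3))) (fM rfl (H _ _ _ _ _ _ _ cf55_4) (H _ _ _ _ _ _ _ cf55_5))) (fS (fM rfl (fT (H _ _ _ _ _ _
   _ cf55_6) (H _ _ _ _ _ _ _ cf55_7)) (fT (H _ _ _ _ _ _ _ cf55_8) (H _ _ _ _ _ _ _ cf55_9))) (fM rfl (H _ _ _ _ _ _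
   _ cf55_10) (H _ _ _ _ _ _ _ cf55_11)))) (fT (fS (fT (H _ _ _ _ _ _ _ cf55_12) (H _ _ _ _ _ _ _ cf55_13)) (H _ _ _ _
   _ _ _ cf55_14)) (fS (fT (H _ _ _ _ _ _ _ cf55_15) (H _ _ _ _ _ _ _ cf55_16)) (H _ _ _ _ _ _ _ cf55_17)))) (fM rfl
   (fT (fS (fM rfl (H _ _ _ _ _ _ _ cf55_18) (H _ _ _ _ _ _ _ cf55_19)) (H _ _ _ _ _ _ _ cf55_20)) (fS (fM rfl (H _ _
   _ _ _ _ _ cf55_21) (H _ _ _ _ _ _ _ cf55_22)) (H _ _ _ _ _ _ _ cf55_23))) (fT (H _ _ _ _ _ _ _ cf55_24) (H _ _ _ _
   _ _ _ cf55_25))))

theorem cf56_0 : chkFar
   (.D 28 0 0)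
    0 549755813888 8796093022208 9345848836096 0 0 = true := by decide +kernel
theorem cf56_1 : chkFar
   (.D 28 0 0)
    549755813888 1099511627776 8796093022208 9345848836096 0 0 = true := by decide +kernel
theorem cf56_2 : chkFar
   (.D 28 0 0)
    0 549755813888 9345848836096 9895604649984 0 0 = true := by decide +kernel
theorem cf56_3 : chkFar
   (.D 28 0 0)
    549755813888 1099511627776 9345848836096 9895604649984 0 0 = true := by decide +kernel
theorem cf56_4 : chkFar
   (.D 34 0 0)
    0 1099511627776 8796093022208 9345848836096 1 1 = true := by decide +kernel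
theorem cf56_5 : chkFar
   (.D 34 0 0)
    0 1099511627776 9345848836096 9895604649984 1 1 = true := by decide +kernel
theorem cf56_6 : chkFar
   (.D 40 0 0)
    1099511627776 2199023255552 8796093022208 9345848836096 0 0 = true := by decide +kernel
theorem cf56_7 : chkFar
   (.D 28 0 0)
    1099511627776 1649267441664 9345848836096 9895604649984 0 0 = true := by decide +kernel
theorem cf56_8 : chkFar
   (.D 28 0 0)
    1649267441664 2199023255552 9345848836096 9895604649984 0 0 = true := by decide +kernel
theorem cf56_9 : chkFar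
   (.D 34 0 0)
    1099511627776 2199023255552 8796093022208 9345848836096 1 1 = true := by decide +kernel
theorem cf56_10 : chkFar
   (.D 34 0 0)
    1099511627776 2199023255552 9345848836096 9895604649984 1 1 = true := by decide +kernel
theorem cf56 (H : FarH) : FarBox 0 2199023255552 8796093022208 9895604649984 0 1 :=
   (fS (fM rfl (fT (fS (H _ _ _ _ _ _ _ cf56_0) (H _ _ _ _ _ _ _ cf56_1)) (fS (H _ _ _ _ _ _ _ cf56_2) (H _ _ _ _ _ _
   _ cf56_3))) (fT (H _ _ _ _ _ _ _ cf56_4) (H _ _ _ _ _ _ _ cf56_5))) (fM rfl (fT (H _ _ _ _ _ _ _ cf56_6) (fS (H _ _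
   _ _ _ _ _ cf56_7) (H _ _ _ _ _ _ _ cf56_8))) (fT (H _ _ _ _ _ _ _ cf56_9) (H _ _ _ _ _ _ _ cf56_10))))

theorem cf57_0 : chkFar
   (.D 34 0 0)
    0 549755813888 9895604649984 10445360463872 0 0 = true := by decide +kernel
theorem cf57_1 : chkFar
   (.D 34 0 0)
    549755813888 1099511627776 9895604649984 10445360463872 0 0 = true := by decide +kernel
theorem cf57_2 : chkFar
   (.D 34 0 0)
    0 549755813888 10445360463872 10995116277760 0 0 = true := by decide +kernel
theorem cf57_3 : chkFar
   (.D 34 0 0)
    549755813888 1099511627776 10445360463872 10995116277760 0 0 = true := by decide +kernel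
theorem cf57_4 : chkFar
   (.D 40 0 0)
    0 1099511627776 9895604649984 10445360463872 1 1 = true := by decide +kernel
theorem cf57_5 : chkFar
   (.D 40 0 0)
    0 1099511627776 10445360463872 10995116277760 1 1 = true := by decide +kernel
theorem cf57_6 : chkFar
   (.D 28 0 0)
    1099511627776 1649267441664 9895604649984 10445360463872 0 0 = true := by decide +kernel
theorem cf57_7 : chkFar
   (.D 28 0 0)
    1649267441664 2199023255552 9895604649984 10445360463872 0 0 = true := by decide +kernel
theorem cf57_8 : chkFar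
   (.D 34 0 0)
    1099511627776 1649267441664 10445360463872 10995116277760 0 0 = true := by decide +kernel
theorem cf57_9 : chkFar
   (.D 34 0 0)
    1649267441664 2199023255552 10445360463872 10995116277760 0 0 = true := by decide +kernel
theorem cf57_10 : chkFar
   (.D 34 0 0)
    1099511627776 2199023255552 9895604649984 10445360463872 1 1 = true := by decide +kernel
theorem cf57_11 : chkFar
   (.D 40 0 0)
    1099511627776 2199023255552 10445360463872 10995116277760 1 1 = true := by decide +kernel
theorem cf57 (H : FarH) : FarBox 0 2199023255552 9895604649984 10995116277760 0 1 :=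
   (fS (fM rfl (fT (fS (H _ _ _ _ _ _ _ cf57_0) (H _ _ _ _ _ _ _ cf57_1)) (fS (H _ _ _ _ _ _ _ cf57_2) (H _ _ _ _ _ _
   _ cf57_3))) (fT (H _ _ _ _ _ _ _ cf57_4) (H _ _ _ _ _ _ _ cf57_5))) (fM rfl (fT (fS (H _ _ _ _ _ _ _ cf57_6) (H _ _
   _ _ _ _ _ cf57_7)) (fS (H _ _ _ _ _ _ _ cf57_8) (H _ _ _ _ _ _ _ cf57_9))) (fT (H _ _ _ _ _ _ _ cf57_10) (H _ _ _ _
   _ _ _ cf57_11))))

theorem cf58_0 : chkFar
   (.D 28 0 0)
    0 1099511627776 8796093022208 9345848836096 2 2 = true := by decide +kernel
theorem cf58_1 : chkFar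
   (.D 28 0 0)
    0 1099511627776 9345848836096 9895604649984 2 2 = true := by decide +kernel
theorem cf58_2 : chkFar
   (.D 34 0 0)
    1099511627776 2199023255552 8796093022208 9895604649984 2 2 = true := by decide +kernel
theorem cf58_3 : chkFar
   (.D 28 0 0)
    0 1099511627776 9895604649984 10445360463872 2 2 = true := by decide +kernel
theorem cf58_4 : chkFar
   (.D 34 0 0)
    0 1099511627776 10445360463872 10995116277760 2 2 = true := by decide +kernel
theorem cf58_5 : chkFar
   (.D 40 0 0)
    1099511627776 2199023255552 9895604649984 10995116277760 2 2 = true := by decide +kernel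
theorem cf58 (H : FarH) : FarBox 0 2199023255552 8796093022208 10995116277760 2 2 :=
   (fT (fS (fT (H _ _ _ _ _ _ _ cf58_0) (H _ _ _ _ _ _ _ cf58_1)) (H _ _ _ _ _ _ _ cf58_2)) (fS (fT (H _ _ _ _ _ _ _
   cf58_3) (H _ _ _ _ _ _ _ cf58_4)) (H _ _ _ _ _ _ _ cf58_5)))


end Crest.Agent.R086.N
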