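import Crest.Agent.R086.N.Spl

/-! generated certificate -/

namespace Crest.Agent.R086.N

set_option maxRecDepth 100000
set_option Elab.async false

theorem cf59_0 : chkFar
   (.D 40 0 0)
    2199023255552 3298534883328 8796093022208 9345848836096 0 0 = true := by decide +kernel
theorem cf59_1 : chkFar
   (.D 40 0 0)
    2199023255552 3298534883328 9345848836096 9895604649984 0 0 = true := by decide +kernel
theorem cf59_2 : chkFar
   (.D 28 0 0)
    2199023255552 3298534883328 8796093022208 9345848836096 1 1 = true := by decide +kernel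
theorem cf59_3 : chkFar
   (.D 34 0 0)
    2199023255552 3298534883328 9345848836096 9895604649984 1 1 = true := by decide +kernel
theorem cf59_4 : chkFar
   (.D 40 0 0)
    3298534883328 4398046511104 8796093022208 9345848836096 0 0 = true := by decide +kernel
theorem cf59_5 : chkFar
   (.D 40 0 0)
    3298534883328 4398046511104 9345848836096 9895604649984 0 0 = true := by decide +kernel
theorem cf59_6 : chkFar
   (.D 28 0 0)
    3298534883328 4398046511104 8796093022208 9345848836096 1 1 = true := by decide +kernel
theorem cf59_7 : chkFar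
   (.D 34 0 0)
    3298534883328 4398046511104 9345848836096 9895604649984 1 1 = true := by decide +kernel
theorem cf59_8 : chkFar
   (.D 28 0 0)
    2199023255552 2748779069440 9895604649984 10445360463872 0 0 = true := by decide +kernel
theorem cf59_9 : chkFar
   (.D 28 0 0)
    2748779069440 3298534883328 9895604649984 10445360463872 0 0 = true := by decide +kernel
theorem cf59_10 : chkFar
   (.D 34 0 0)
    2199023255552 2748779069440 10445360463872 10995116277760 0 0 = true := by decide +kernel
theorem cf59_11 : chkFar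
   (.D 28 0 0)
    2748779069440 3298534883328 10445360463872 10995116277760 0 0 = true := by decide +kernel
theorem cf59_12 : chkFar
   (.D 34 0 0)
    2199023255552 3298534883328 9895604649984 10445360463872 1 1 = true := by decide +kernel
theorem cf59_13 : chkFar
   (.D 40 0 0)
    2199023255552 3298534883328 10445360463872 10995116277760 1 1 = true := by decide +kernel
theorem cf59_14 : chkFar
   (.sS (.D 28 0 0) .skip)
    3298534883328 4398046511104 9895604649984 10445360463872 0 0 = true := by decide +kernel
theorem cf59_15 : chkFar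
   (.sS (.D 28 0 0) .skip)
    3298534883328 4398046511104 10445360463872 10995116277760 0 0 = true := by decide +kernel
theorem cf59_16 : chkFar
   (.D 34 0 0)
    3298534883328 4398046511104 9895604649984 10445360463872 1 1 = true := by decide +kernel
theorem cf59_17 : chkFar
   (.D 34 0 0)
    3298534883328 4398046511104 10445360463872 10995116277760 1 1 = true := by decide +kernel
theorem cf59 (H : FarH) : FarBox 2199023255552 4398046511104 8796093022208 10995116277760 0 1 :=
   (fT (fS (fM rfl (fT (H _ _ _ _ _ _ _ cf59_0) (H _ _ _ _ _ _ _ cf59_1)) (fT (H _ _ _ _ _ _ _ cf59_2) (H _ _ _ _ _ _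
   _ cf59_3))) (fM rfl (fT (H _ _ _ _ _ _ _ cf59_4) (H _ _ _ _ _ _ _ cf59_5)) (fT (H _ _ _ _ _ _ _ cf59_6) (H _ _ _ _
   _ _ _ cf59_7)))) (fS (fM rfl (fT (fS (H _ _ _ _ _ _ _ cf59_8) (H _ _ _ _ _ _ _ cf59_9)) (fS (H _ _ _ _ _ _ _
   cf59_10) (H _ _ _ _ _ _ _ cf59_11))) (fT (H _ _ _ _ _ _ _ cf59_12) (H _ _ _ _ _ _ _ cf59_13))) (fM rfl (fT (H _ _ _
   _ _ _ _ cf59_14) (H _ _ _ _ _ _ _ cf59_15)) (fT (H _ _ _ _ _ _ _ cf59_16) (H _ _ _ _ _ _ _ cf59_17)))))

theorem cf60_0 : chkFar
   (.D 34 0 0)
    2199023255552 3298534883328 8796093022208 9895604649984 2 2 = true := by decide +kernel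
theorem cf60_1 : chkFar
   (.D 34 0 0)
    3298534883328 4398046511104 8796093022208 9895604649984 2 2 = true := by decide +kernel
theorem cf60_2 : chkFar
   (.D 40 0 0)
    2199023255552 3298534883328 9895604649984 10995116277760 2 2 = true := by decide +kernel
theorem cf60_3 : chkFar
   (.D 34 0 0)
    3298534883328 4398046511104 9895604649984 10995116277760 2 2 = true := by decide +kernel
theorem cf60 (H : FarH) : FarBox 2199023255552 4398046511104 8796093022208 10995116277760 2 2 :=
   (fT (fS (H _ _ _ _ _ _ _ cf60_0) (H _ _ _ _ _ _ _ cf60_1)) (fS (H _ _ _ _ _ _ _ cf60_2) (H _ _ _ _ _ _ _ cf60_3)))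

theorem cf61_0 : chkFar
   (.D 34 0 0)
    0 549755813888 10995116277760 11544872091648 0 0 = true := by decide +kernel
theorem cf61_1 : chkFar
   (.D 34 0 0)
    549755813888 1099511627776 10995116277760 11544872091648 0 0 = true := by decide +kernel
theorem cf61_2 : chkFar
   (.D 40 0 0)
    0 549755813888 11544872091648 12094627905536 0 0 = true := by decide +kernel
theorem cf61_3 : chkFar
   (.D 34 0 0)
    549755813888 1099511627776 11544872091648 12094627905536 0 0 = true := by decide +kernel
theorem cf61_4 : chkFar
   (.D 40 0 0)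
    0 1099511627776 10995116277760 11544872091648 1 1 = true := by decide +kernel
theorem cf61_5 : chkFar
   (.D 34 0 0)
    0 549755813888 11544872091648 12094627905536 1 1 = true := by decide +kernel
theorem cf61_6 : chkFar
   (.D 34 0 0)
    549755813888 1099511627776 11544872091648 12094627905536 1 1 = true := by decide +kernel
theorem cf61_7 : chkFar
   (.D 34 0 0)
    1099511627776 1649267441664 10995116277760 11544872091648 0 0 = true := by decide +kernel
theorem cf61_8 : chkFar
   (.D 34 0 0)
    1649267441664 2199023255552 10995116277760 11544872091648 0 0 = true := by decide +kernel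
theorem cf61_9 : chkFar
   (.D 34 0 0)
    1099511627776 1649267441664 11544872091648 12094627905536 0 0 = true := by decide +kernel
theorem cf61_10 : chkFar
   (.D 34 0 0)
    1649267441664 2199023255552 11544872091648 12094627905536 0 0 = true := by decide +kernel
theorem cf61_11 : chkFar
   (.D 40 0 0)
    1099511627776 2199023255552 10995116277760 11544872091648 1 1 = true := by decide +kernel
theorem cf61_12 : chkFar
   (.D 28 0 0)
    1099511627776 1649267441664 11544872091648 12094627905536 1 1 = true := by decide +kernel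
theorem cf61_13 : chkFar
   (.D 28 0 0)
    1649267441664 2199023255552 11544872091648 12094627905536 1 1 = true := by decide +kernel
theorem cf61 (H : FarH) : FarBox 0 2199023255552 10995116277760 12094627905536 0 1 :=
   (fS (fM rfl (fT (fS (H _ _ _ _ _ _ _ cf61_0) (H _ _ _ _ _ _ _ cf61_1)) (fS (H _ _ _ _ _ _ _ cf61_2) (H _ _ _ _ _ _
   _ cf61_3))) (fT (H _ _ _ _ _ _ _ cf61_4) (fS (H _ _ _ _ _ _ _ cf61_5) (H _ _ _ _ _ _ _ cf61_6)))) (fM rfl (fT (fS
   (H _ _ _ _ _ _ _ cf61_7) (H _ _ _ _ _ _ _ cf61_8)) (fS (H _ _ _ _ _ _ _ cf61_9) (H _ _ _ _ _ _ _ cf61_10))) (fT (H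
   _ _ _ _ _ _ _ cf61_11) (fS (H _ _ _ _ _ _ _ cf61_12) (H _ _ _ _ _ _ _ cf61_13)))))

theorem cf62_0 : chkFar
   (.D 40 0 0)
    0 549755813888 12094627905536 12644383719424 0 0 = true := by decide +kernel
theorem cf62_1 : chkFar
   (.D 40 0 0)
    549755813888 1099511627776 12094627905536 12644383719424 0 0 = true := by decide +kernel
theorem cf62_2 : chkFar
   (.D 40 0 0)
    0 549755813888 12644383719424 13194139533312 0 0 = true := by decide +kernel
theorem cf62_3 : chkFar
   (.D 40 0 0)
    549755813888 1099511627776 12644383719424 13194139533312 0 0 = true := by decide +kernel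
theorem cf62_4 : chkFar
   (.D 34 0 0)
    0 549755813888 12094627905536 12644383719424 1 1 = true := by decide +kernel
theorem cf62_5 : chkFar
   (.D 34 0 0)
    549755813888 1099511627776 12094627905536 12644383719424 1 1 = true := by decide +kernel
theorem cf62_6 : chkFar
   (.D 34 0 0)
    0 549755813888 12644383719424 13194139533312 1 1 = true := by decide +kernel
theorem cf62_7 : chkFar
   (.D 34 0 0)
    549755813888 1099511627776 12644383719424 13194139533312 1 1 = true := by decide +kernel
theorem cf62_8 : chkFar
   (.D 40 0 0)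
    1099511627776 1649267441664 12094627905536 12644383719424 0 0 = true := by decide +kernel
theorem cf62_9 : chkFar
   (.D 40 0 0)
    1649267441664 2199023255552 12094627905536 12644383719424 0 0 = true := by decide +kernel
theorem cf62_10 : chkFar
   (.D 40 0 0)
    1099511627776 1649267441664 12644383719424 13194139533312 0 0 = true := by decide +kernel
theorem cf62_11 : chkFar
   (.D 40 0 0)
    1649267441664 2199023255552 12644383719424 13194139533312 0 0 = true := by decide +kernel
theorem cf62_12 : chkFar
   (.D 34 0 0)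
    1099511627776 1649267441664 12094627905536 12644383719424 1 1 = true := by decide +kernel
theorem cf62_13 : chkFar
   (.D 34 0 0)
    1649267441664 2199023255552 12094627905536 12644383719424 1 1 = true := by decide +kernel
theorem cf62_14 : chkFar
   (.D 34 0 0)
    1099511627776 1649267441664 12644383719424 13194139533312 1 1 = true := by decide +kernel
theorem cf62_15 : chkFar
   (.D 34 0 0)
    1649267441664 2199023255552 12644383719424 13194139533312 1 1 = true := by decide +kernel
theorem cf62 (H : FarH) : FarBox 0 2199023255552 12094627905536 13194139533312 0 1 :=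
   (fS (fM rfl (fT (fS (H _ _ _ _ _ _ _ cf62_0) (H _ _ _ _ _ _ _ cf62_1)) (fS (H _ _ _ _ _ _ _ cf62_2) (H _ _ _ _ _ _
   _ cf62_3))) (fT (fS (H _ _ _ _ _ _ _ cf62_4) (H _ _ _ _ _ _ _ cf62_5)) (fS (H _ _ _ _ _ _ _ cf62_6) (H _ _ _ _ _ _
   _ cf62_7)))) (fM rfl (fT (fS (H _ _ _ _ _ _ _ cf62_8) (H _ _ _ _ _ _ _ cf62_9)) (fS (H _ _ _ _ _ _ _ cf62_10) (H _
   _ _ _ _ _ _ cf62_11))) (fT (fS (H _ _ _ _ _ _ _ cf62_12) (H _ _ _ _ _ _ _ cf62_13)) (fS (H _ _ _ _ _ _ _ cf62_14)
   (H _ _ _ _ _ _ _ cf62_15)))))


end Crest.Agent.R086.N
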