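import Crest.Agent.R086.N.Spl

/-! generated certificate -/

namespace Crest.Agent.R086.N

set_option maxRecDepth 100000
set_option Elab.async false

theorem cf63_0 : chkFar
   (.D 34 0 0)
    0 1099511627776 10995116277760 11544872091648 2 2 = true := by decide +kernel
theorem cf63_1 : chkFar
   (.D 34 0 0)
    0 1099511627776 11544872091648 12094627905536 2 2 = true := by decide +kernel
theorem cf63_2 : chkFar
   (.D 34 0 0)
    1099511627776 2199023255552 10995116277760 11544872091648 2 2 = true := by decide +kernel
theorem cf63_3 : chkFar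
   (.D 34 0 0)
    1099511627776 2199023255552 11544872091648 12094627905536 2 2 = true := by decide +kernel
theorem cf63_4 : chkFar
   (.D 40 0 0)
    0 1099511627776 12094627905536 12644383719424 2 2 = true := by decide +kernel
theorem cf63_5 : chkFar
   (.D 40 0 0)
    0 1099511627776 12644383719424 13194139533312 2 2 = true := by decide +kernel
theorem cf63_6 : chkFar
   (.D 34 0 0)
    1099511627776 2199023255552 12094627905536 12644383719424 2 2 = true := by decide +kernel
theorem cf63_7 : chkFar
   (.D 40 0 0)
    1099511627776 2199023255552 12644383719424 13194139533312 2 2 = true := by decide +kernel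
theorem cf63 (H : FarH) : FarBox 0 2199023255552 10995116277760 13194139533312 2 2 :=
   (fT (fS (fT (H _ _ _ _ _ _ _ cf63_0) (H _ _ _ _ _ _ _ cf63_1)) (fT (H _ _ _ _ _ _ _ cf63_2) (H _ _ _ _ _ _ _
   cf63_3))) (fS (fT (H _ _ _ _ _ _ _ cf63_4) (H _ _ _ _ _ _ _ cf63_5)) (fT (H _ _ _ _ _ _ _ cf63_6) (H _ _ _ _ _ _ _
   cf63_7))))

theorem cf64_0 : chkFar
   (.D 34 0 0)
    2199023255552 2748779069440 10995116277760 11544872091648 0 0 = true := by decide +kernel
theorem cf64_1 : chkFar
   (.D 34 0 0)
    2748779069440 3298534883328 10995116277760 11544872091648 0 0 = true := by decide +kernel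
theorem cf64_2 : chkFar
   (.D 34 0 0)
    2199023255552 2748779069440 11544872091648 12094627905536 0 0 = true := by decide +kernel
theorem cf64_3 : chkFar
   (.D 34 0 0)
    2748779069440 3298534883328 11544872091648 12094627905536 0 0 = true := by decide +kernel
theorem cf64_4 : chkFar
   (.D 40 0 0)
    2199023255552 3298534883328 10995116277760 11544872091648 1 1 = true := by decide +kernel
theorem cf64_5 : chkFar
   (.D 40 0 0)
    2199023255552 3298534883328 11544872091648 12094627905536 1 1 = true := by decide +kernel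
theorem cf64_6 : chkFar
   (.D 34 0 0)
    3298534883328 3848290697216 10995116277760 11544872091648 0 0 = true := by decide +kernel
theorem cf64_7 : chkFar
   .skip
    3848290697216 4398046511104 10995116277760 11544872091648 0 0 = true := by decide +kernel
theorem cf64_8 : chkFar
   (.D 34 0 0)
    3298534883328 3848290697216 11544872091648 12094627905536 0 0 = true := by decide +kernel
theorem cf64_9 : chkFar
   .skip
    3848290697216 4398046511104 11544872091648 12094627905536 0 0 = true := by decide +kernel
theorem cf64_10 : chkFar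
   (.D 40 0 0)
    3298534883328 4398046511104 10995116277760 11544872091648 1 1 = true := by decide +kernel
theorem cf64_11 : chkFar
   (.D 40 0 0)
    3298534883328 4398046511104 11544872091648 12094627905536 1 1 = true := by decide +kernel
theorem cf64 (H : FarH) : FarBox 2199023255552 4398046511104 10995116277760 12094627905536 0 1 :=
   (fS (fM rfl (fT (fS (H _ _ _ _ _ _ _ cf64_0) (H _ _ _ _ _ _ _ cf64_1)) (fS (H _ _ _ _ _ _ _ cf64_2) (H _ _ _ _ _ _
   _ cf64_3))) (fT (H _ _ _ _ _ _ _ cf64_4) (H _ _ _ _ _ _ _ cf64_5))) (fM rfl (fT (fS (H _ _ _ _ _ _ _ cf64_6) (H _ _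
   _ _ _ _ _ cf64_7)) (fS (H _ _ _ _ _ _ _ cf64_8) (H _ _ _ _ _ _ _ cf64_9))) (fT (H _ _ _ _ _ _ _ cf64_10) (H _ _ _ _
   _ _ _ cf64_11))))

theorem cf65_0 : chkFar
   (.D 40 0 0)
    2199023255552 2748779069440 12094627905536 12644383719424 0 0 = true := by decide +kernel
theorem cf65_1 : chkFar
   (.D 34 0 0)
    2748779069440 3298534883328 12094627905536 12644383719424 0 0 = true := by decide +kernel
theorem cf65_2 : chkFar
   (.D 40 0 0)
    2199023255552 2748779069440 12644383719424 13194139533312 0 0 = true := by decide +kernel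
theorem cf65_3 : chkFar
   (.D 40 0 0)
    2748779069440 3298534883328 12644383719424 13194139533312 0 0 = true := by decide +kernel
theorem cf65_4 : chkFar
   (.D 34 0 0)
    2199023255552 2748779069440 12094627905536 12644383719424 1 1 = true := by decide +kernel
theorem cf65_5 : chkFar
   (.D 28 0 0)
    2748779069440 3298534883328 12094627905536 12644383719424 1 1 = true := by decide +kernel
theorem cf65_6 : chkFar
   (.D 34 0 0)
    2199023255552 2748779069440 12644383719424 13194139533312 1 1 = true := by decide +kernel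
theorem cf65_7 : chkFar
   (.D 34 0 0)
    2748779069440 3298534883328 12644383719424 13194139533312 1 1 = true := by decide +kernel
theorem cf65_8 : chkFar
   (.D 34 0 0)
    3298534883328 3848290697216 12094627905536 12644383719424 0 0 = true := by decide +kernel
theorem cf65_9 : chkFar
   .skip
    3848290697216 4398046511104 12094627905536 12644383719424 0 0 = true := by decide +kernel
theorem cf65_10 : chkFar
   (.D 40 0 0)
    3298534883328 3848290697216 12644383719424 13194139533312 0 0 = true := by decide +kernel
theorem cf65_11 : chkFar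
   .skip
    3848290697216 4398046511104 12644383719424 13194139533312 0 0 = true := by decide +kernel
theorem cf65_12 : chkFar
   (.sS (.D 28 0 0) .skip)
    3298534883328 4398046511104 12094627905536 12644383719424 1 1 = true := by decide +kernel
theorem cf65_13 : chkFar
   (.D 34 0 0)
    3298534883328 3848290697216 12644383719424 13194139533312 1 1 = true := by decide +kernel
theorem cf65_14 : chkFar
   .skip
    3848290697216 4398046511104 12644383719424 13194139533312 1 1 = true := by decide +kernel
theorem cf65 (H : FarH) : FarBox 2199023255552 4398046511104 12094627905536 13194139533312 0 1 :=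
   (fS (fM rfl (fT (fS (H _ _ _ _ _ _ _ cf65_0) (H _ _ _ _ _ _ _ cf65_1)) (fS (H _ _ _ _ _ _ _ cf65_2) (H _ _ _ _ _ _
   _ cf65_3))) (fT (fS (H _ _ _ _ _ _ _ cf65_4) (H _ _ _ _ _ _ _ cf65_5)) (fS (H _ _ _ _ _ _ _ cf65_6) (H _ _ _ _ _ _
   _ cf65_7)))) (fM rfl (fT (fS (H _ _ _ _ _ _ _ cf65_8) (H _ _ _ _ _ _ _ cf65_9)) (fS (H _ _ _ _ _ _ _ cf65_10) (H _
   _ _ _ _ _ _ cf65_11))) (fT (H _ _ _ _ _ _ _ cf65_12) (fS (H _ _ _ _ _ _ _ cf65_13) (H _ _ _ _ _ _ _ cf65_14)))))

theorem cf66_0 : chkFar
   (.D 34 0 0)
    2199023255552 3298534883328 10995116277760 11544872091648 2 2 = true := by decide +kernel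
theorem cf66_1 : chkFar
   (.D 34 0 0)
    2199023255552 3298534883328 11544872091648 12094627905536 2 2 = true := by decide +kernel
theorem cf66_2 : chkFar
   (.D 40 0 0)
    3298534883328 4398046511104 10995116277760 12094627905536 2 2 = true := by decide +kernel
theorem cf66_3 : chkFar
   (.D 34 0 0)
    2199023255552 3298534883328 12094627905536 12644383719424 2 2 = true := by decide +kernel
theorem cf66_4 : chkFar
   (.D 40 0 0)
    2199023255552 3298534883328 12644383719424 13194139533312 2 2 = true := by decide +kernel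
theorem cf66_5 : chkFar
   (.D 34 0 0)
    3298534883328 4398046511104 12094627905536 12644383719424 2 2 = true := by decide +kernel
theorem cf66_6 : chkFar
   (.D 34 0 0)
    3298534883328 4398046511104 12644383719424 13194139533312 2 2 = true := by decide +kernel
theorem cf66 (H : FarH) : FarBox 2199023255552 4398046511104 10995116277760 13194139533312 2 2 :=
   (fT (fS (fT (H _ _ _ _ _ _ _ cf66_0) (H _ _ _ _ _ _ _ cf66_1)) (H _ _ _ _ _ _ _ cf66_2)) (fS (fT (H _ _ _ _ _ _ _
   cf66_3) (H _ _ _ _ _ _ _ cf66_4)) (fT (H _ _ _ _ _ _ _ cf66_5) (H _ _ _ _ _ _ _ cf66_6))))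

theorem cf67_0 : chkFar
   (.D 24 0 0)
    0 1099511627776 8796093022208 9345848836096 3 3 = true := by decide +kernel
theorem cf67_1 : chkFar
   (.D 24 0 0)
    0 1099511627776 9345848836096 9895604649984 3 3 = true := by decide +kernel
theorem cf67_2 : chkFar
   (.D 20 0 0)
    0 1099511627776 8796093022208 9345848836096 4 4 = true := by decide +kernel
theorem cf67_3 : chkFar
   (.D 20 0 0)
    0 1099511627776 9345848836096 9895604649984 4 4 = true := by decide +kernel
theorem cf67_4 : chkFar
   (.D 24 0 0)
    1099511627776 2199023255552 8796093022208 9895604649984 3 3 = true := by decide +kernel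
theorem cf67_5 : chkFar
   (.D 20 0 0)
    1099511627776 2199023255552 8796093022208 9895604649984 4 4 = true := by decide +kernel
theorem cf67_6 : chkFar
   (.D 34 0 0)
    0 1099511627776 9895604649984 10995116277760 3 3 = true := by decide +kernel
theorem cf67_7 : chkFar
   (.D 28 0 0)
    0 1099511627776 9895604649984 10995116277760 4 4 = true := by decide +kernel
theorem cf67_8 : chkFar
   (.D 28 0 0)
    1099511627776 2199023255552 9895604649984 10995116277760 3 3 = true := by decide +kernel
theorem cf67_9 : chkFar
   (.D 24 0 0)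
    1099511627776 2199023255552 9895604649984 10995116277760 4 4 = true := by decide +kernel
theorem cf67_10 : chkFar
   (.D 24 0 0)
    0 1099511627776 8796093022208 9895604649984 5 5 = true := by decide +kernel
theorem cf67_11 : chkFar
   (.D 17 0 0)
    1099511627776 2199023255552 8796093022208 9895604649984 5 5 = true := by decide +kernel
theorem cf67_12 : chkFar
   (.R 12 0)
    0 2199023255552 9895604649984 10995116277760 5 5 = true := by decide +kernel
theorem cf67_13 : chkFar
   (.D 34 0 0)
    2199023255552 3298534883328 8796093022208 9895604649984 3 4 = true := by decide +kernel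
theorem cf67_14 : chkFar
   (.D 24 0 0)
    3298534883328 4398046511104 8796093022208 9895604649984 3 4 = true := by decide +kernel
theorem cf67_15 : chkFar
   (.D 34 0 0)
    2199023255552 3298534883328 9895604649984 10995116277760 3 4 = true := by decide +kernel
theorem cf67_16 : chkFar
   (.D 28 0 0)
    3298534883328 4398046511104 9895604649984 10995116277760 3 4 = true := by decide +kernel
theorem cf67_17 : chkFar
   (.D 28 0 0)
    2199023255552 4398046511104 8796093022208 9895604649984 5 5 = true := by decide +kernel
theorem cf67_18 : chkFar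
   (.R 8 0)
    2199023255552 4398046511104 9895604649984 10995116277760 5 5 = true := by decide +kernel
theorem cf67 (H : FarH) : FarBox 0 4398046511104 8796093022208 10995116277760 3 5 :=
   (fS (fM rfl (fT (fS (fM rfl (fT (H _ _ _ _ _ _ _ cf67_0) (H _ _ _ _ _ _ _ cf67_1)) (fT (H _ _ _ _ _ _ _ cf67_2) (H
   _ _ _ _ _ _ _ cf67_3))) (fM rfl (H _ _ _ _ _ _ _ cf67_4) (H _ _ _ _ _ _ _ cf67_5))) (fS (fM rfl (H _ _ _ _ _ _ _
   cf67_6) (H _ _ _ _ _ _ _ cf67_7)) (fM rfl (H _ _ _ _ _ _ _ cf67_8) (H _ _ _ _ _ _ _ cf67_9)))) (fT (fS (H _ _ _ _ _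
   _ _ cf67_10) (H _ _ _ _ _ _ _ cf67_11)) (H _ _ _ _ _ _ _ cf67_12))) (fM rfl (fT (fS (H _ _ _ _ _ _ _ cf67_13) (H _
   _ _ _ _ _ _ cf67_14)) (fS (H _ _ _ _ _ _ _ cf67_15) (H _ _ _ _ _ _ _ cf67_16))) (fT (H _ _ _ _ _ _ _ cf67_17) (H _
   _ _ _ _ _ _ cf67_18))))


end Crest.Agent.R086.N
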