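import Crest.Agent.R086.N.Spl

/-! generated certificate -/

namespace Crest.Agent.R086.N

set_option maxRecDepth 100000
set_option Elab.async false

theorem cf68_0 : chkFar
   (.D 34 0 0)
    0 1099511627776 10995116277760 12094627905536 3 3 = true := by decide +kernel
theorem cf68_1 : chkFar
   (.D 28 0 0)
    0 1099511627776 10995116277760 12094627905536 4 4 = true := by decide +kernel
theorem cf68_2 : chkFar
   (.D 34 0 0)
    1099511627776 2199023255552 10995116277760 12094627905536 3 3 = true := by decide +kernel
theorem cf68_3 : chkFar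
   (.D 28 0 0)
    1099511627776 2199023255552 10995116277760 12094627905536 4 4 = true := by decide +kernel
theorem cf68_4 : chkFar
   (.D 40 0 0)
    0 1099511627776 12094627905536 13194139533312 3 3 = true := by decide +kernel
theorem cf68_5 : chkFar
   (.R 4 0)
    0 1099511627776 12094627905536 13194139533312 4 4 = true := by decide +kernel
theorem cf68_6 : chkFar
   (.D 40 0 0)
    1099511627776 2199023255552 12094627905536 13194139533312 3 3 = true := by decide +kernel
theorem cf68_7 : chkFar
   (.R 4 0)
    1099511627776 2199023255552 12094627905536 13194139533312 4 4 = true := by decide +kernel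
theorem cf68_8 : chkFar
   (.R 14 0)
    0 2199023255552 10995116277760 13194139533312 5 5 = true := by decide +kernel
theorem cf68_9 : chkFar
   (.D 34 0 0)
    2199023255552 3298534883328 10995116277760 12094627905536 3 4 = true := by decide +kernel
theorem cf68_10 : chkFar
   (.D 34 0 0)
    3298534883328 4398046511104 10995116277760 12094627905536 3 4 = true := by decide +kernel
theorem cf68_11 : chkFar
   (.D 40 0 0)
    2199023255552 3298534883328 12094627905536 13194139533312 3 4 = true := by decide +kernel
theorem cf68_12 : chkFar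
   (.D 40 0 0)
    3298534883328 4398046511104 12094627905536 13194139533312 3 4 = true := by decide +kernel
theorem cf68_13 : chkFar
   (.R 12 0)
    2199023255552 4398046511104 10995116277760 13194139533312 5 5 = true := by decide +kernel
theorem cf68 (H : FarH) : FarBox 0 4398046511104 10995116277760 13194139533312 3 5 :=
   (fS (fM rfl (fT (fS (fM rfl (H _ _ _ _ _ _ _ cf68_0) (H _ _ _ _ _ _ _ cf68_1)) (fM rfl (H _ _ _ _ _ _ _ cf68_2) (H
   _ _ _ _ _ _ _ cf68_3))) (fS (fM rfl (H _ _ _ _ _ _ _ cf68_4) (H _ _ _ _ _ _ _ cf68_5)) (fM rfl (H _ _ _ _ _ _ _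
   cf68_6) (H _ _ _ _ _ _ _ cf68_7)))) (H _ _ _ _ _ _ _ cf68_8)) (fM rfl (fT (fS (H _ _ _ _ _ _ _ cf68_9) (H _ _ _ _ _
   _ _ cf68_10)) (fS (H _ _ _ _ _ _ _ cf68_11) (H _ _ _ _ _ _ _ cf68_12))) (H _ _ _ _ _ _ _ cf68_13)))

theorem cf69_0 : chkFar
   (.D 40 0 0)
    0 549755813888 13194139533312 13469017440256 0 0 = true := by decide +kernel
theorem cf69_1 : chkFar
   (.D 40 0 0)
    0 549755813888 13469017440256 13743895347200 0 0 = true := by decide +kernel
theorem cf69_2 : chkFar
   (.D 40 0 0)
    549755813888 1099511627776 13194139533312 13743895347200 0 0 = true := by decide +kernel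
theorem cf69_3 : chkFar
   (.D 40 0 0)
    0 549755813888 13743895347200 14018773254144 0 0 = true := by decide +kernel
theorem cf69_4 : chkFar
   (.D 40 0 0)
    0 549755813888 14018773254144 14293651161088 0 0 = true := by decide +kernel
theorem cf69_5 : chkFar
   (.D 40 0 0)
    549755813888 1099511627776 13743895347200 14018773254144 0 0 = true := by decide +kernel
theorem cf69_6 : chkFar
   (.D 40 0 0)
    549755813888 1099511627776 14018773254144 14293651161088 0 0 = true := by decide +kernel
theorem cf69_7 : chkFar
   (.D 34 0 0)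
    0 549755813888 13194139533312 13743895347200 1 1 = true := by decide +kernel
theorem cf69_8 : chkFar
   (.D 34 0 0)
    549755813888 1099511627776 13194139533312 13743895347200 1 1 = true := by decide +kernel
theorem cf69_9 : chkFar
   (.D 40 0 0)
    0 549755813888 13743895347200 14293651161088 1 1 = true := by decide +kernel
theorem cf69_10 : chkFar
   (.D 40 0 0)
    549755813888 1099511627776 13743895347200 14293651161088 1 1 = true := by decide +kernel
theorem cf69 (H : FarH) : FarBox 0 1099511627776 13194139533312 14293651161088 0 1 :=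
   (fM rfl (fT (fS (fT (H _ _ _ _ _ _ _ cf69_0) (H _ _ _ _ _ _ _ cf69_1)) (H _ _ _ _ _ _ _ cf69_2)) (fS (fT (H _ _ _ _
   _ _ _ cf69_3) (H _ _ _ _ _ _ _ cf69_4)) (fT (H _ _ _ _ _ _ _ cf69_5) (H _ _ _ _ _ _ _ cf69_6)))) (fT (fS (H _ _ _ _
   _ _ _ cf69_7) (H _ _ _ _ _ _ _ cf69_8)) (fS (H _ _ _ _ _ _ _ cf69_9) (H _ _ _ _ _ _ _ cf69_10))))

theorem cf70_0 : chkFar
   (.D 40 0 0)
    1099511627776 1649267441664 13194139533312 13743895347200 0 0 = true := by decide +kernel
theorem cf70_1 : chkFar
   (.D 40 0 0)
    1649267441664 2199023255552 13194139533312 13743895347200 0 0 = true := by decide +kernel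
theorem cf70_2 : chkFar
   (.D 40 0 0)
    1099511627776 1649267441664 13743895347200 14018773254144 0 0 = true := by decide +kernel
theorem cf70_3 : chkFar
   (.D 40 0 0)
    1099511627776 1649267441664 14018773254144 14293651161088 0 0 = true := by decide +kernel
theorem cf70_4 : chkFar
   (.D 40 0 0)
    1649267441664 2199023255552 13743895347200 14018773254144 0 0 = true := by decide +kernel
theorem cf70_5 : chkFar
   (.D 40 0 0)
    1649267441664 2199023255552 14018773254144 14293651161088 0 0 = true := by decide +kernel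
theorem cf70_6 : chkFar
   (.D 34 0 0)
    1099511627776 1649267441664 13194139533312 13743895347200 1 1 = true := by decide +kernel
theorem cf70_7 : chkFar
   (.D 34 0 0)
    1649267441664 2199023255552 13194139533312 13743895347200 1 1 = true := by decide +kernel
theorem cf70_8 : chkFar
   (.D 40 0 0)
    1099511627776 1649267441664 13743895347200 14293651161088 1 1 = true := by decide +kernel
theorem cf70_9 : chkFar
   (.D 34 0 0)
    1649267441664 2199023255552 13743895347200 14293651161088 1 1 = true := by decide +kernel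
theorem cf70 (H : FarH) : FarBox 1099511627776 2199023255552 13194139533312 14293651161088 0 1 :=
   (fM rfl (fT (fS (H _ _ _ _ _ _ _ cf70_0) (H _ _ _ _ _ _ _ cf70_1)) (fS (fT (H _ _ _ _ _ _ _ cf70_2) (H _ _ _ _ _ _
   _ cf70_3)) (fT (H _ _ _ _ _ _ _ cf70_4) (H _ _ _ _ _ _ _ cf70_5)))) (fT (fS (H _ _ _ _ _ _ _ cf70_6) (H _ _ _ _ _ _
   _ cf70_7)) (fS (H _ _ _ _ _ _ _ cf70_8) (H _ _ _ _ _ _ _ cf70_9))))

theorem cf71_0 : chkFar
   (.D 40 0 0)
    0 549755813888 14293651161088 14568529068032 0 0 = true := by decide +kernel
theorem cf71_1 : chkFar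
   (.D 40 0 0)
    0 549755813888 14568529068032 14843406974976 0 0 = true := by decide +kernel
theorem cf71_2 : chkFar
   (.D 40 0 0)
    549755813888 1099511627776 14293651161088 14568529068032 0 0 = true := by decide +kernel
theorem cf71_3 : chkFar
   (.D 40 0 0)
    549755813888 1099511627776 14568529068032 14843406974976 0 0 = true := by decide +kernel
theorem cf71_4 : chkFar
   (.D 40 0 0)
    0 274877906944 14843406974976 15118284881920 0 0 = true := by decide +kernel
theorem cf71_5 : chkFar
   (.D 40 0 0)
    274877906944 549755813888 14843406974976 15118284881920 0 0 = true := by decide +kernel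
theorem cf71_6 : chkFar
   (.D 40 0 0)
    0 274877906944 15118284881920 15393162788864 0 0 = true := by decide +kernel
theorem cf71_7 : chkFar
   (.D 40 0 0)
    274877906944 549755813888 15118284881920 15393162788864 0 0 = true := by decide +kernel
theorem cf71_8 : chkFar
   (.D 40 0 0)
    549755813888 824633720832 14843406974976 15118284881920 0 0 = true := by decide +kernel
theorem cf71_9 : chkFar
   (.D 40 0 0)
    824633720832 1099511627776 14843406974976 15118284881920 0 0 = true := by decide +kernel
theorem cf71_10 : chkFar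
   (.D 40 0 0)
    549755813888 824633720832 15118284881920 15393162788864 0 0 = true := by decide +kernel
theorem cf71_11 : chkFar
   (.D 40 0 0)
    824633720832 1099511627776 15118284881920 15393162788864 0 0 = true := by decide +kernel
theorem cf71_12 : chkFar
   (.D 40 0 0)
    0 549755813888 14293651161088 14843406974976 1 1 = true := by decide +kernel
theorem cf71_13 : chkFar
   (.D 40 0 0)
    549755813888 1099511627776 14293651161088 14843406974976 1 1 = true := by decide +kernel
theorem cf71_14 : chkFar
   (.D 40 0 0)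
    0 549755813888 14843406974976 15393162788864 1 1 = true := by decide +kernel
theorem cf71_15 : chkFar
   (.D 40 0 0)
    549755813888 1099511627776 14843406974976 15393162788864 1 1 = true := by decide +kernel
theorem cf71 (H : FarH) : FarBox 0 1099511627776 14293651161088 15393162788864 0 1 :=
   (fM rfl (fT (fS (fT (H _ _ _ _ _ _ _ cf71_0) (H _ _ _ _ _ _ _ cf71_1)) (fT (H _ _ _ _ _ _ _ cf71_2) (H _ _ _ _ _ _
   _ cf71_3))) (fS (fT (fS (H _ _ _ _ _ _ _ cf71_4) (H _ _ _ _ _ _ _ cf71_5)) (fS (H _ _ _ _ _ _ _ cf71_6) (H _ _ _ _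
   _ _ _ cf71_7))) (fT (fS (H _ _ _ _ _ _ _ cf71_8) (H _ _ _ _ _ _ _ cf71_9)) (fS (H _ _ _ _ _ _ _ cf71_10) (H _ _ _ _
   _ _ _ cf71_11))))) (fT (fS (H _ _ _ _ _ _ _ cf71_12) (H _ _ _ _ _ _ _ cf71_13)) (fS (H _ _ _ _ _ _ _ cf71_14) (H _
   _ _ _ _ _ _ cf71_15))))


end Crest.Agent.R086.N
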