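import Crest.Agent.R086.N.Spl

/-! generated certificate -/

namespace Crest.Agent.R086.N

set_option maxRecDepth 100000
set_option Elab.async false

theorem cf72_0 : chkFar
   (.D 40 0 0)
    1099511627776 1649267441664 14293651161088 14568529068032 0 0 = true := by decide +kernel
theorem cf72_1 : chkFar
   (.D 40 0 0)
    1099511627776 1649267441664 14568529068032 14843406974976 0 0 = true := by decide +kernel
theorem cf72_2 : chkFar
   (.D 40 0 0)
    1649267441664 2199023255552 14293651161088 14568529068032 0 0 = true := by decide +kernel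
theorem cf72_3 : chkFar
   (.D 40 0 0)
    1649267441664 2199023255552 14568529068032 14843406974976 0 0 = true := by decide +kernel
theorem cf72_4 : chkFar
   (.D 40 0 0)
    1099511627776 1649267441664 14843406974976 15118284881920 0 0 = true := by decide +kernel
theorem cf72_5 : chkFar
   (.D 40 0 0)
    1099511627776 1374389534720 15118284881920 15393162788864 0 0 = true := by decide +kernel
theorem cf72_6 : chkFar
   (.D 40 0 0)
    1374389534720 1649267441664 15118284881920 15393162788864 0 0 = true := by decide +kernel
theorem cf72_7 : chkFar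
   (.D 40 0 0)
    1649267441664 2199023255552 14843406974976 15118284881920 0 0 = true := by decide +kernel
theorem cf72_8 : chkFar
   (.D 40 0 0)
    1649267441664 1924145348608 15118284881920 15393162788864 0 0 = true := by decide +kernel
theorem cf72_9 : chkFar
   (.D 40 0 0)
    1924145348608 2199023255552 15118284881920 15393162788864 0 0 = true := by decide +kernel
theorem cf72_10 : chkFar
   (.D 40 0 0)
    1099511627776 1649267441664 14293651161088 14843406974976 1 1 = true := by decide +kernel
theorem cf72_11 : chkFar
   (.D 40 0 0)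
    1649267441664 2199023255552 14293651161088 14843406974976 1 1 = true := by decide +kernel
theorem cf72_12 : chkFar
   (.D 40 0 0)
    1099511627776 1649267441664 14843406974976 15393162788864 1 1 = true := by decide +kernel
theorem cf72_13 : chkFar
   (.D 40 0 0)
    1649267441664 2199023255552 14843406974976 15393162788864 1 1 = true := by decide +kernel
theorem cf72 (H : FarH) : FarBox 1099511627776 2199023255552 14293651161088 15393162788864 0 1 :=
   (fM rfl (fT (fS (fT (H _ _ _ _ _ _ _ cf72_0) (H _ _ _ _ _ _ _ cf72_1)) (fT (H _ _ _ _ _ _ _ cf72_2) (H _ _ _ _ _ _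
   _ cf72_3))) (fS (fT (H _ _ _ _ _ _ _ cf72_4) (fS (H _ _ _ _ _ _ _ cf72_5) (H _ _ _ _ _ _ _ cf72_6))) (fT (H _ _ _ _
   _ _ _ cf72_7) (fS (H _ _ _ _ _ _ _ cf72_8) (H _ _ _ _ _ _ _ cf72_9))))) (fT (fS (H _ _ _ _ _ _ _ cf72_10) (H _ _ _
   _ _ _ _ cf72_11)) (fS (H _ _ _ _ _ _ _ cf72_12) (H _ _ _ _ _ _ _ cf72_13))))

theorem cf73_0 : chkFar
   (.D 40 0 0)
    0 1099511627776 13194139533312 13743895347200 2 2 = true := by decide +kernel
theorem cf73_1 : chkFar
   (.D 34 0 0)
    0 549755813888 13743895347200 14293651161088 2 2 = true := by decide +kernel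
theorem cf73_2 : chkFar
   (.D 34 0 0)
    549755813888 1099511627776 13743895347200 14293651161088 2 2 = true := by decide +kernel
theorem cf73_3 : chkFar
   (.D 40 0 0)
    1099511627776 2199023255552 13194139533312 13743895347200 2 2 = true := by decide +kernel
theorem cf73_4 : chkFar
   (.D 40 0 0)
    1099511627776 2199023255552 13743895347200 14293651161088 2 2 = true := by decide +kernel
theorem cf73_5 : chkFar
   (.D 34 0 0)
    0 549755813888 14293651161088 14843406974976 2 2 = true := by decide +kernel
theorem cf73_6 : chkFar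
   (.D 34 0 0)
    549755813888 1099511627776 14293651161088 14843406974976 2 2 = true := by decide +kernel
theorem cf73_7 : chkFar
   (.D 34 0 0)
    0 549755813888 14843406974976 15393162788864 2 2 = true := by decide +kernel
theorem cf73_8 : chkFar
   (.D 34 0 0)
    549755813888 1099511627776 14843406974976 15393162788864 2 2 = true := by decide +kernel
theorem cf73_9 : chkFar
   (.D 34 0 0)
    1099511627776 1649267441664 14293651161088 14843406974976 2 2 = true := by decide +kernel
theorem cf73_10 : chkFar
   (.D 34 0 0)
    1649267441664 2199023255552 14293651161088 14843406974976 2 2 = true := by decide +kernel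
theorem cf73_11 : chkFar
   (.D 34 0 0)
    1099511627776 1649267441664 14843406974976 15393162788864 2 2 = true := by decide +kernel
theorem cf73_12 : chkFar
   (.D 34 0 0)
    1649267441664 2199023255552 14843406974976 15393162788864 2 2 = true := by decide +kernel
theorem cf73 (H : FarH) : FarBox 0 2199023255552 13194139533312 15393162788864 2 2 :=
   (fT (fS (fT (H _ _ _ _ _ _ _ cf73_0) (fS (H _ _ _ _ _ _ _ cf73_1) (H _ _ _ _ _ _ _ cf73_2))) (fT (H _ _ _ _ _ _ _
   cf73_3) (H _ _ _ _ _ _ _ cf73_4))) (fS (fT (fS (H _ _ _ _ _ _ _ cf73_5) (H _ _ _ _ _ _ _ cf73_6)) (fS (H _ _ _ _ _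
   _ _ cf73_7) (H _ _ _ _ _ _ _ cf73_8))) (fT (fS (H _ _ _ _ _ _ _ cf73_9) (H _ _ _ _ _ _ _ cf73_10)) (fS (H _ _ _ _ _
   _ _ cf73_11) (H _ _ _ _ _ _ _ cf73_12)))))

theorem cf74_0 : chkFar
   (.D 40 0 0)
    2199023255552 2748779069440 13194139533312 13743895347200 0 0 = true := by decide +kernel
theorem cf74_1 : chkFar
   (.D 40 0 0)
    2748779069440 3298534883328 13194139533312 13743895347200 0 0 = true := by decide +kernel
theorem cf74_2 : chkFar
   (.D 40 0 0)
    2199023255552 2748779069440 13743895347200 14018773254144 0 0 = true := by decide +kernel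
theorem cf74_3 : chkFar
   (.D 40 0 0)
    2199023255552 2748779069440 14018773254144 14293651161088 0 0 = true := by decide +kernel
theorem cf74_4 : chkFar
   (.D 40 0 0)
    2748779069440 3298534883328 13743895347200 14293651161088 0 0 = true := by decide +kernel
theorem cf74_5 : chkFar
   (.D 34 0 0)
    2199023255552 2748779069440 13194139533312 13743895347200 1 1 = true := by decide +kernel
theorem cf74_6 : chkFar
   (.D 34 0 0)
    2748779069440 3298534883328 13194139533312 13743895347200 1 1 = true := by decide +kernel
theorem cf74_7 : chkFar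
   (.D 34 0 0)
    2199023255552 2748779069440 13743895347200 14293651161088 1 1 = true := by decide +kernel
theorem cf74_8 : chkFar
   (.D 34 0 0)
    2748779069440 3298534883328 13743895347200 14293651161088 1 1 = true := by decide +kernel
theorem cf74_9 : chkFar
   (.D 40 0 0)
    3298534883328 3848290697216 13194139533312 13743895347200 0 0 = true := by decide +kernel
theorem cf74_10 : chkFar
   .skip
    3848290697216 4398046511104 13194139533312 13743895347200 0 0 = true := by decide +kernel
theorem cf74_11 : chkFar
   (.D 40 0 0)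
    3298534883328 3848290697216 13743895347200 14293651161088 0 0 = true := by decide +kernel
theorem cf74_12 : chkFar
   .skip
    3848290697216 4398046511104 13743895347200 14293651161088 0 0 = true := by decide +kernel
theorem cf74_13 : chkFar
   (.D 34 0 0)
    3298534883328 3848290697216 13194139533312 13743895347200 1 1 = true := by decide +kernel
theorem cf74_14 : chkFar
   .skip
    3848290697216 4398046511104 13194139533312 13743895347200 1 1 = true := by decide +kernel
theorem cf74_15 : chkFar
   (.D 34 0 0)
    3298534883328 3848290697216 13743895347200 14293651161088 1 1 = true := by decide +kernel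
theorem cf74_16 : chkFar
   .skip
    3848290697216 4398046511104 13743895347200 14293651161088 1 1 = true := by decide +kernel
theorem cf74 (H : FarH) : FarBox 2199023255552 4398046511104 13194139533312 14293651161088 0 1 :=
   (fS (fM rfl (fT (fS (H _ _ _ _ _ _ _ cf74_0) (H _ _ _ _ _ _ _ cf74_1)) (fS (fT (H _ _ _ _ _ _ _ cf74_2) (H _ _ _ _
   _ _ _ cf74_3)) (H _ _ _ _ _ _ _ cf74_4))) (fT (fS (H _ _ _ _ _ _ _ cf74_5) (H _ _ _ _ _ _ _ cf74_6)) (fS (H _ _ _ _
   _ _ _ cf74_7) (H _ _ _ _ _ _ _ cf74_8)))) (fM rfl (fT (fS (H _ _ _ _ _ _ _ cf74_9) (H _ _ _ _ _ _ _ cf74_10)) (fS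
   (H _ _ _ _ _ _ _ cf74_11) (H _ _ _ _ _ _ _ cf74_12))) (fT (fS (H _ _ _ _ _ _ _ cf74_13) (H _ _ _ _ _ _ _ cf74_14))
   (fS (H _ _ _ _ _ _ _ cf74_15) (H _ _ _ _ _ _ _ cf74_16)))))


end Crest.Agent.R086.N
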