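import Crest.Agent.R086.N.Spl

/-! generated certificate -/

namespace Crest.Agent.R086.N

set_option maxRecDepth 100000
set_option Elab.async false

theorem cf75_0 : chkFar
   (.D 40 0 0)
    2199023255552 2748779069440 14293651161088 14568529068032 0 0 = true := by decide +kernel
theorem cf75_1 : chkFar
   (.D 40 0 0)
    2199023255552 2748779069440 14568529068032 14843406974976 0 0 = true := by decide +kernel
theorem cf75_2 : chkFar
   (.D 40 0 0)
    2748779069440 3298534883328 14293651161088 14568529068032 0 0 = true := by decide +kernel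
theorem cf75_3 : chkFar
   (.D 40 0 0)
    2748779069440 3298534883328 14568529068032 14843406974976 0 0 = true := by decide +kernel
theorem cf75_4 : chkFar
   (.D 40 0 0)
    2199023255552 2748779069440 14843406974976 15118284881920 0 0 = true := by decide +kernel
theorem cf75_5 : chkFar
   (.D 40 0 0)
    2199023255552 2748779069440 15118284881920 15393162788864 0 0 = true := by decide +kernel
theorem cf75_6 : chkFar
   (.D 40 0 0)
    2748779069440 3298534883328 14843406974976 15118284881920 0 0 = true := by decide +kernel
theorem cf75_7 : chkFar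
   (.D 40 0 0)
    2748779069440 3298534883328 15118284881920 15393162788864 0 0 = true := by decide +kernel
theorem cf75_8 : chkFar
   (.D 40 0 0)
    2199023255552 2748779069440 14293651161088 14843406974976 1 1 = true := by decide +kernel
theorem cf75_9 : chkFar
   (.D 40 0 0)
    2748779069440 3298534883328 14293651161088 14843406974976 1 1 = true := by decide +kernel
theorem cf75_10 : chkFar
   (.D 40 0 0)
    2199023255552 2748779069440 14843406974976 15393162788864 1 1 = true := by decide +kernel
theorem cf75_11 : chkFar
   (.D 40 0 0)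
    2748779069440 3298534883328 14843406974976 15393162788864 1 1 = true := by decide +kernel
theorem cf75_12 : chkFar
   (.D 40 0 0)
    3298534883328 3848290697216 14293651161088 14568529068032 0 0 = true := by decide +kernel
theorem cf75_13 : chkFar
   (.D 40 0 0)
    3298534883328 3848290697216 14568529068032 14843406974976 0 0 = true := by decide +kernel
theorem cf75_14 : chkFar
   .skip
    3848290697216 4398046511104 14293651161088 14843406974976 0 0 = true := by decide +kernel
theorem cf75_15 : chkFar
   (.D 40 0 0)
    3298534883328 3848290697216 14843406974976 15118284881920 0 0 = true := by decide +kernel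
theorem cf75_16 : chkFar
   (.D 40 0 0)
    3298534883328 3848290697216 15118284881920 15393162788864 0 0 = true := by decide +kernel
theorem cf75_17 : chkFar
   .skip
    3848290697216 4398046511104 14843406974976 15393162788864 0 0 = true := by decide +kernel
theorem cf75_18 : chkFar
   (.D 40 0 0)
    3298534883328 3848290697216 14293651161088 14843406974976 1 1 = true := by decide +kernel
theorem cf75_19 : chkFar
   .skip
    3848290697216 4398046511104 14293651161088 14843406974976 1 1 = true := by decide +kernel
theorem cf75_20 : chkFar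
   (.D 40 0 0)
    3298534883328 3848290697216 14843406974976 15393162788864 1 1 = true := by decide +kernel
theorem cf75_21 : chkFar
   .skip
    3848290697216 4398046511104 14843406974976 15393162788864 1 1 = true := by decide +kernel
theorem cf75 (H : FarH) : FarBox 2199023255552 4398046511104 14293651161088 15393162788864 0 1 :=
   (fS (fM rfl (fT (fS (fT (H _ _ _ _ _ _ _ cf75_0) (H _ _ _ _ _ _ _ cf75_1)) (fT (H _ _ _ _ _ _ _ cf75_2) (H _ _ _ _
   _ _ _ cf75_3))) (fS (fT (H _ _ _ _ _ _ _ cf75_4) (H _ _ _ _ _ _ _ cf75_5)) (fT (H _ _ _ _ _ _ _ cf75_6) (H _ _ _ _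
   _ _ _ cf75_7)))) (fT (fS (H _ _ _ _ _ _ _ cf75_8) (H _ _ _ _ _ _ _ cf75_9)) (fS (H _ _ _ _ _ _ _ cf75_10) (H _ _ _
   _ _ _ _ cf75_11)))) (fM rfl (fT (fS (fT (H _ _ _ _ _ _ _ cf75_12) (H _ _ _ _ _ _ _ cf75_13)) (H _ _ _ _ _ _ _
   cf75_14)) (fS (fT (H _ _ _ _ _ _ _ cf75_15) (H _ _ _ _ _ _ _ cf75_16)) (H _ _ _ _ _ _ _ cf75_17))) (fT (fS (H _ _ _
   _ _ _ _ cf75_18) (H _ _ _ _ _ _ _ cf75_19)) (fS (H _ _ _ _ _ _ _ cf75_20) (H _ _ _ _ _ _ _ cf75_21)))))

theorem cf76_0 : chkFar
   (.D 40 0 0)
    2199023255552 3298534883328 13194139533312 13743895347200 2 2 = true := by decide +kernel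
theorem cf76_1 : chkFar
   (.D 40 0 0)
    2199023255552 3298534883328 13743895347200 14293651161088 2 2 = true := by decide +kernel
theorem cf76_2 : chkFar
   (.D 40 0 0)
    3298534883328 4398046511104 13194139533312 13743895347200 2 2 = true := by decide +kernel
theorem cf76_3 : chkFar
   (.D 40 0 0)
    3298534883328 4398046511104 13743895347200 14293651161088 2 2 = true := by decide +kernel
theorem cf76_4 : chkFar
   (.D 34 0 0)
    2199023255552 2748779069440 14293651161088 14843406974976 2 2 = true := by decide +kernel
theorem cf76_5 : chkFar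
   (.D 34 0 0)
    2748779069440 3298534883328 14293651161088 14843406974976 2 2 = true := by decide +kernel
theorem cf76_6 : chkFar
   (.D 34 0 0)
    2199023255552 2748779069440 14843406974976 15393162788864 2 2 = true := by decide +kernel
theorem cf76_7 : chkFar
   (.D 34 0 0)
    2748779069440 3298534883328 14843406974976 15393162788864 2 2 = true := by decide +kernel
theorem cf76_8 : chkFar
   (.D 34 0 0)
    3298534883328 3848290697216 14293651161088 14843406974976 2 2 = true := by decide +kernel
theorem cf76_9 : chkFar
   .skip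
    3848290697216 4398046511104 14293651161088 14843406974976 2 2 = true := by decide +kernel
theorem cf76_10 : chkFar
   (.D 34 0 0)
    3298534883328 3848290697216 14843406974976 15393162788864 2 2 = true := by decide +kernel
theorem cf76_11 : chkFar
   .skip
    3848290697216 4398046511104 14843406974976 15393162788864 2 2 = true := by decide +kernel
theorem cf76 (H : FarH) : FarBox 2199023255552 4398046511104 13194139533312 15393162788864 2 2 :=
   (fT (fS (fT (H _ _ _ _ _ _ _ cf76_0) (H _ _ _ _ _ _ _ cf76_1)) (fT (H _ _ _ _ _ _ _ cf76_2) (H _ _ _ _ _ _ _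
   cf76_3))) (fS (fT (fS (H _ _ _ _ _ _ _ cf76_4) (H _ _ _ _ _ _ _ cf76_5)) (fS (H _ _ _ _ _ _ _ cf76_6) (H _ _ _ _ _
   _ _ cf76_7))) (fT (fS (H _ _ _ _ _ _ _ cf76_8) (H _ _ _ _ _ _ _ cf76_9)) (fS (H _ _ _ _ _ _ _ cf76_10) (H _ _ _ _ _
   _ _ cf76_11)))))

theorem cf77_0 : chkFar
   (.D 40 0 0)
    0 274877906944 15393162788864 15668040695808 0 0 = true := by decide +kernel
theorem cf77_1 : chkFar
   (.D 40 0 0)
    274877906944 549755813888 15393162788864 15668040695808 0 0 = true := by decide +kernel
theorem cf77_2 : chkFar
   (.D 40 0 0)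
    0 274877906944 15668040695808 15942918602752 0 0 = true := by decide +kernel
theorem cf77_3 : chkFar
   (.D 40 0 0)
    274877906944 549755813888 15668040695808 15942918602752 0 0 = true := by decide +kernel
theorem cf77_4 : chkFar
   (.D 40 0 0)
    549755813888 824633720832 15393162788864 15668040695808 0 0 = true := by decide +kernel
theorem cf77_5 : chkFar
   (.D 40 0 0)
    824633720832 1099511627776 15393162788864 15668040695808 0 0 = true := by decide +kernel
theorem cf77_6 : chkFar
   (.D 40 0 0)
    549755813888 824633720832 15668040695808 15942918602752 0 0 = true := by decide +kernel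
theorem cf77_7 : chkFar
   (.D 40 0 0)
    824633720832 1099511627776 15668040695808 15942918602752 0 0 = true := by decide +kernel
theorem cf77_8 : chkFar
   (.D 40 0 0)
    0 274877906944 15942918602752 16217796509696 0 0 = true := by decide +kernel
theorem cf77_9 : chkFar
   (.D 40 0 0)
    274877906944 549755813888 15942918602752 16217796509696 0 0 = true := by decide +kernel
theorem cf77_10 : chkFar
   (.D 40 0 0)
    0 274877906944 16217796509696 16492674416640 0 0 = true := by decide +kernel
theorem cf77_11 : chkFar
   (.D 40 0 0)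
    274877906944 549755813888 16217796509696 16492674416640 0 0 = true := by decide +kernel
theorem cf77_12 : chkFar
   (.D 40 0 0)
    549755813888 824633720832 15942918602752 16217796509696 0 0 = true := by decide +kernel
theorem cf77_13 : chkFar
   (.D 40 0 0)
    824633720832 1099511627776 15942918602752 16217796509696 0 0 = true := by decide +kernel
theorem cf77_14 : chkFar
   (.D 40 0 0)
    549755813888 824633720832 16217796509696 16492674416640 0 0 = true := by decide +kernel
theorem cf77_15 : chkFar
   (.D 40 0 0)
    824633720832 1099511627776 16217796509696 16492674416640 0 0 = true := by decide +kernel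
theorem cf77 (H : FarH) : FarBox 0 1099511627776 15393162788864 16492674416640 0 0 :=
   (fT (fS (fT (fS (H _ _ _ _ _ _ _ cf77_0) (H _ _ _ _ _ _ _ cf77_1)) (fS (H _ _ _ _ _ _ _ cf77_2) (H _ _ _ _ _ _ _
   cf77_3))) (fT (fS (H _ _ _ _ _ _ _ cf77_4) (H _ _ _ _ _ _ _ cf77_5)) (fS (H _ _ _ _ _ _ _ cf77_6) (H _ _ _ _ _ _ _
   cf77_7)))) (fS (fT (fS (H _ _ _ _ _ _ _ cf77_8) (H _ _ _ _ _ _ _ cf77_9)) (fS (H _ _ _ _ _ _ _ cf77_10) (H _ _ _ _
   _ _ _ cf77_11))) (fT (fS (H _ _ _ _ _ _ _ cf77_12) (H _ _ _ _ _ _ _ cf77_13)) (fS (H _ _ _ _ _ _ _ cf77_14) (H _ _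
   _ _ _ _ _ cf77_15)))))


end Crest.Agent.R086.N
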