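import Crest.Agent.R086.N.Spl

/-! generated certificate -/

namespace Crest.Agent.R086.N

set_option maxRecDepth 100000
set_option Elab.async false

theorem cf78_0 : chkFar
   (.D 40 0 0)
    0 549755813888 15393162788864 15668040695808 1 1 = true := by decide +kernel
theorem cf78_1 : chkFar
   (.D 40 0 0)
    0 549755813888 15668040695808 15942918602752 1 1 = true := by decide +kernel
theorem cf78_2 : chkFar
   (.D 40 0 0)
    549755813888 1099511627776 15393162788864 15668040695808 1 1 = true := by decide +kernel
theorem cf78_3 : chkFar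
   (.D 40 0 0)
    549755813888 1099511627776 15668040695808 15942918602752 1 1 = true := by decide +kernel
theorem cf78_4 : chkFar
   (.D 40 0 0)
    0 549755813888 15942918602752 16217796509696 1 1 = true := by decide +kernel
theorem cf78_5 : chkFar
   (.D 40 0 0)
    0 549755813888 16217796509696 16492674416640 1 1 = true := by decide +kernel
theorem cf78_6 : chkFar
   (.D 40 0 0)
    549755813888 1099511627776 15942918602752 16217796509696 1 1 = true := by decide +kernel
theorem cf78_7 : chkFar
   (.D 40 0 0)
    549755813888 1099511627776 16217796509696 16492674416640 1 1 = true := by decide +kernel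
theorem cf78 (H : FarH) : FarBox 0 1099511627776 15393162788864 16492674416640 1 1 :=
   (fT (fS (fT (H _ _ _ _ _ _ _ cf78_0) (H _ _ _ _ _ _ _ cf78_1)) (fT (H _ _ _ _ _ _ _ cf78_2) (H _ _ _ _ _ _ _
   cf78_3))) (fS (fT (H _ _ _ _ _ _ _ cf78_4) (H _ _ _ _ _ _ _ cf78_5)) (fT (H _ _ _ _ _ _ _ cf78_6) (H _ _ _ _ _ _ _
   cf78_7))))

theorem cf79_0 : chkFar
   (.D 40 0 0)
    1099511627776 1374389534720 15393162788864 15668040695808 0 0 = true := by decide +kernel
theorem cf79_1 : chkFar
   (.D 40 0 0)
    1374389534720 1649267441664 15393162788864 15668040695808 0 0 = true := by decide +kernel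
theorem cf79_2 : chkFar
   (.D 40 0 0)
    1099511627776 1374389534720 15668040695808 15942918602752 0 0 = true := by decide +kernel
theorem cf79_3 : chkFar
   (.D 40 0 0)
    1374389534720 1649267441664 15668040695808 15942918602752 0 0 = true := by decide +kernel
theorem cf79_4 : chkFar
   (.D 40 0 0)
    1649267441664 1924145348608 15393162788864 15668040695808 0 0 = true := by decide +kernel
theorem cf79_5 : chkFar
   (.D 40 0 0)
    1924145348608 2199023255552 15393162788864 15668040695808 0 0 = true := by decide +kernel
theorem cf79_6 : chkFar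
   (.D 40 0 0)
    1649267441664 1924145348608 15668040695808 15942918602752 0 0 = true := by decide +kernel
theorem cf79_7 : chkFar
   (.D 40 0 0)
    1924145348608 2199023255552 15668040695808 15942918602752 0 0 = true := by decide +kernel
theorem cf79_8 : chkFar
   (.D 40 0 0)
    1099511627776 1374389534720 15942918602752 16217796509696 0 0 = true := by decide +kernel
theorem cf79_9 : chkFar
   (.D 40 0 0)
    1374389534720 1649267441664 15942918602752 16217796509696 0 0 = true := by decide +kernel
theorem cf79_10 : chkFar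
   (.D 40 0 0)
    1099511627776 1374389534720 16217796509696 16492674416640 0 0 = true := by decide +kernel
theorem cf79_11 : chkFar
   (.D 40 0 0)
    1374389534720 1649267441664 16217796509696 16492674416640 0 0 = true := by decide +kernel
theorem cf79_12 : chkFar
   (.D 40 0 0)
    1649267441664 1924145348608 15942918602752 16217796509696 0 0 = true := by decide +kernel
theorem cf79_13 : chkFar
   (.D 40 0 0)
    1924145348608 2199023255552 15942918602752 16217796509696 0 0 = true := by decide +kernel
theorem cf79_14 : chkFar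
   (.D 40 0 0)
    1649267441664 1924145348608 16217796509696 16492674416640 0 0 = true := by decide +kernel
theorem cf79_15 : chkFar
   (.D 40 0 0)
    1924145348608 2199023255552 16217796509696 16492674416640 0 0 = true := by decide +kernel
theorem cf79 (H : FarH) : FarBox 1099511627776 2199023255552 15393162788864 16492674416640 0 0 :=
   (fT (fS (fT (fS (H _ _ _ _ _ _ _ cf79_0) (H _ _ _ _ _ _ _ cf79_1)) (fS (H _ _ _ _ _ _ _ cf79_2) (H _ _ _ _ _ _ _
   cf79_3))) (fT (fS (H _ _ _ _ _ _ _ cf79_4) (H _ _ _ _ _ _ _ cf79_5)) (fS (H _ _ _ _ _ _ _ cf79_6) (H _ _ _ _ _ _ _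
   cf79_7)))) (fS (fT (fS (H _ _ _ _ _ _ _ cf79_8) (H _ _ _ _ _ _ _ cf79_9)) (fS (H _ _ _ _ _ _ _ cf79_10) (H _ _ _ _
   _ _ _ cf79_11))) (fT (fS (H _ _ _ _ _ _ _ cf79_12) (H _ _ _ _ _ _ _ cf79_13)) (fS (H _ _ _ _ _ _ _ cf79_14) (H _ _
   _ _ _ _ _ cf79_15)))))

theorem cf80_0 : chkFar
   (.D 40 0 0)
    1099511627776 1649267441664 15393162788864 15942918602752 1 1 = true := by decide +kernel
theorem cf80_1 : chkFar
   (.D 40 0 0)
    1649267441664 2199023255552 15393162788864 15942918602752 1 1 = true := by decide +kernel
theorem cf80_2 : chkFar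
   (.D 40 0 0)
    1099511627776 1649267441664 15942918602752 16217796509696 1 1 = true := by decide +kernel
theorem cf80_3 : chkFar
   (.D 40 0 0)
    1099511627776 1649267441664 16217796509696 16492674416640 1 1 = true := by decide +kernel
theorem cf80_4 : chkFar
   (.D 40 0 0)
    1649267441664 2199023255552 15942918602752 16217796509696 1 1 = true := by decide +kernel
theorem cf80_5 : chkFar
   (.D 40 0 0)
    1649267441664 2199023255552 16217796509696 16492674416640 1 1 = true := by decide +kernel
theorem cf80 (H : FarH) : FarBox 1099511627776 2199023255552 15393162788864 16492674416640 1 1 :=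
   (fT (fS (H _ _ _ _ _ _ _ cf80_0) (H _ _ _ _ _ _ _ cf80_1)) (fS (fT (H _ _ _ _ _ _ _ cf80_2) (H _ _ _ _ _ _ _
   cf80_3)) (fT (H _ _ _ _ _ _ _ cf80_4) (H _ _ _ _ _ _ _ cf80_5))))

theorem cf81_0 : chkFar
   (.D 40 0 0)
    0 274877906944 16492674416640 16767552323584 0 0 = true := by decide +kernel
theorem cf81_1 : chkFar
   (.D 40 0 0)
    274877906944 549755813888 16492674416640 16767552323584 0 0 = true := by decide +kernel
theorem cf81_2 : chkFar
   (.D 40 0 0)
    0 274877906944 16767552323584 16904991277056 0 0 = true := by decide +kernel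
theorem cf81_3 : chkFar
   (.D 40 0 0)
    0 274877906944 16904991277056 17042430230528 0 0 = true := by decide +kernel
theorem cf81_4 : chkFar
   (.D 40 0 0)
    274877906944 549755813888 16767552323584 16904991277056 0 0 = true := by decide +kernel
theorem cf81_5 : chkFar
   (.D 40 0 0)
    274877906944 549755813888 16904991277056 17042430230528 0 0 = true := by decide +kernel
theorem cf81_6 : chkFar
   (.D 40 0 0)
    549755813888 824633720832 16492674416640 16767552323584 0 0 = true := by decide +kernel
theorem cf81_7 : chkFar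
   (.D 40 0 0)
    824633720832 1099511627776 16492674416640 16767552323584 0 0 = true := by decide +kernel
theorem cf81_8 : chkFar
   (.D 40 0 0)
    549755813888 824633720832 16767552323584 16904991277056 0 0 = true := by decide +kernel
theorem cf81_9 : chkFar
   (.D 40 0 0)
    549755813888 824633720832 16904991277056 17042430230528 0 0 = true := by decide +kernel
theorem cf81_10 : chkFar
   (.D 40 0 0)
    824633720832 1099511627776 16767552323584 17042430230528 0 0 = true := by decide +kernel
theorem cf81 (H : FarH) : FarBox 0 1099511627776 16492674416640 17042430230528 0 0 :=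
   (fS (fT (fS (H _ _ _ _ _ _ _ cf81_0) (H _ _ _ _ _ _ _ cf81_1)) (fS (fT (H _ _ _ _ _ _ _ cf81_2) (H _ _ _ _ _ _ _
   cf81_3)) (fT (H _ _ _ _ _ _ _ cf81_4) (H _ _ _ _ _ _ _ cf81_5)))) (fT (fS (H _ _ _ _ _ _ _ cf81_6) (H _ _ _ _ _ _ _
   cf81_7)) (fS (fT (H _ _ _ _ _ _ _ cf81_8) (H _ _ _ _ _ _ _ cf81_9)) (H _ _ _ _ _ _ _ cf81_10))))


end Crest.Agent.R086.N
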