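import Crest.Agent.R086.N.Spl

/-! generated certificate -/

namespace Crest.Agent.R086.N

set_option maxRecDepth 100000
set_option Elab.async false

theorem cf82_0 : chkFar
   (.D 40 0 0)
    0 274877906944 17042430230528 17179869184000 0 0 = true := by decide +kernel
theorem cf82_1 : chkFar
   (.D 40 0 0)
    0 274877906944 17179869184000 17317308137472 0 0 = true := by decide +kernel
theorem cf82_2 : chkFar
   (.D 40 0 0)
    274877906944 549755813888 17042430230528 17179869184000 0 0 = true := by decide +kernel
theorem cf82_3 : chkFar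
   (.D 40 0 0)
    274877906944 549755813888 17179869184000 17317308137472 0 0 = true := by decide +kernel
theorem cf82_4 : chkFar
   (.D 40 0 0)
    0 137438953472 17317308137472 17454747090944 0 0 = true := by decide +kernel
theorem cf82_5 : chkFar
   (.D 40 0 0)
    137438953472 274877906944 17317308137472 17454747090944 0 0 = true := by decide +kernel
theorem cf82_6 : chkFar
   (.R 4 0)
    0 274877906944 17454747090944 17592186044416 0 0 = true := by decide +kernel
theorem cf82_7 : chkFar
   (.D 40 0 0)
    274877906944 549755813888 17317308137472 17454747090944 0 0 = true := by decide +kernel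
theorem cf82_8 : chkFar
   (.R 4 0)
    274877906944 549755813888 17454747090944 17592186044416 0 0 = true := by decide +kernel
theorem cf82_9 : chkFar
   (.D 40 0 0)
    549755813888 824633720832 17042430230528 17179869184000 0 0 = true := by decide +kernel
theorem cf82_10 : chkFar
   (.D 40 0 0)
    549755813888 824633720832 17179869184000 17317308137472 0 0 = true := by decide +kernel
theorem cf82_11 : chkFar
   (.D 40 0 0)
    824633720832 1099511627776 17042430230528 17179869184000 0 0 = true := by decide +kernel
theorem cf82_12 : chkFar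
   (.D 40 0 0)
    824633720832 1099511627776 17179869184000 17317308137472 0 0 = true := by decide +kernel
theorem cf82_13 : chkFar
   (.D 40 0 0)
    549755813888 824633720832 17317308137472 17454747090944 0 0 = true := by decide +kernel
theorem cf82_14 : chkFar
   (.R 4 0)
    549755813888 824633720832 17454747090944 17592186044416 0 0 = true := by decide +kernel
theorem cf82_15 : chkFar
   (.D 40 0 0)
    824633720832 1099511627776 17317308137472 17454747090944 0 0 = true := by decide +kernel
theorem cf82_16 : chkFar
   (.R 4 0)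
    824633720832 1099511627776 17454747090944 17592186044416 0 0 = true := by decide +kernel
theorem cf82 (H : FarH) : FarBox 0 1099511627776 17042430230528 17592186044416 0 0 :=
   (fS (fT (fS (fT (H _ _ _ _ _ _ _ cf82_0) (H _ _ _ _ _ _ _ cf82_1)) (fT (H _ _ _ _ _ _ _ cf82_2) (H _ _ _ _ _ _ _
   cf82_3))) (fS (fT (fS (H _ _ _ _ _ _ _ cf82_4) (H _ _ _ _ _ _ _ cf82_5)) (H _ _ _ _ _ _ _ cf82_6)) (fT (H _ _ _ _ _
   _ _ cf82_7) (H _ _ _ _ _ _ _ cf82_8)))) (fT (fS (fT (H _ _ _ _ _ _ _ cf82_9) (H _ _ _ _ _ _ _ cf82_10)) (fT (H _ _
   _ _ _ _ _ cf82_11) (H _ _ _ _ _ _ _ cf82_12))) (fS (fT (H _ _ _ _ _ _ _ cf82_13) (H _ _ _ _ _ _ _ cf82_14)) (fT (H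
   _ _ _ _ _ _ _ cf82_15) (H _ _ _ _ _ _ _ cf82_16)))))

theorem cf83_0 : chkFar
   (.R 4 0)
    0 1099511627776 16492674416640 17592186044416 1 1 = true := by decide +kernel
theorem cf83 (H : FarH) : FarBox 0 1099511627776 16492674416640 17592186044416 1 1 :=
   (H _ _ _ _ _ _ _ cf83_0)

theorem cf84_0 : chkFar
   (.D 40 0 0)
    1099511627776 1374389534720 16492674416640 16767552323584 0 0 = true := by decide +kernel
theorem cf84_1 : chkFar
   (.D 40 0 0)
    1374389534720 1649267441664 16492674416640 16767552323584 0 0 = true := by decide +kernel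
theorem cf84_2 : chkFar
   (.D 40 0 0)
    1099511627776 1374389534720 16767552323584 17042430230528 0 0 = true := by decide +kernel
theorem cf84_3 : chkFar
   (.D 40 0 0)
    1374389534720 1649267441664 16767552323584 17042430230528 0 0 = true := by decide +kernel
theorem cf84_4 : chkFar
   (.D 40 0 0)
    1649267441664 1924145348608 16492674416640 16767552323584 0 0 = true := by decide +kernel
theorem cf84_5 : chkFar
   (.D 40 0 0)
    1924145348608 2199023255552 16492674416640 16767552323584 0 0 = true := by decide +kernel
theorem cf84_6 : chkFar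
   (.D 40 0 0)
    1649267441664 1924145348608 16767552323584 17042430230528 0 0 = true := by decide +kernel
theorem cf84_7 : chkFar
   (.D 40 0 0)
    1924145348608 2199023255552 16767552323584 17042430230528 0 0 = true := by decide +kernel
theorem cf84 (H : FarH) : FarBox 1099511627776 2199023255552 16492674416640 17042430230528 0 0 :=
   (fS (fT (fS (H _ _ _ _ _ _ _ cf84_0) (H _ _ _ _ _ _ _ cf84_1)) (fS (H _ _ _ _ _ _ _ cf84_2) (H _ _ _ _ _ _ _
   cf84_3))) (fT (fS (H _ _ _ _ _ _ _ cf84_4) (H _ _ _ _ _ _ _ cf84_5)) (fS (H _ _ _ _ _ _ _ cf84_6) (H _ _ _ _ _ _ _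
   cf84_7))))

theorem cf85_0 : chkFar
   (.D 40 0 0)
    1099511627776 1374389534720 17042430230528 17179869184000 0 0 = true := by decide +kernel
theorem cf85_1 : chkFar
   (.D 40 0 0)
    1099511627776 1374389534720 17179869184000 17317308137472 0 0 = true := by decide +kernel
theorem cf85_2 : chkFar
   (.D 40 0 0)
    1374389534720 1649267441664 17042430230528 17179869184000 0 0 = true := by decide +kernel
theorem cf85_3 : chkFar
   (.D 40 0 0)
    1374389534720 1649267441664 17179869184000 17317308137472 0 0 = true := by decide +kernel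
theorem cf85_4 : chkFar
   (.D 40 0 0)
    1099511627776 1374389534720 17317308137472 17454747090944 0 0 = true := by decide +kernel
theorem cf85_5 : chkFar
   (.R 4 0)
    1099511627776 1374389534720 17454747090944 17592186044416 0 0 = true := by decide +kernel
theorem cf85_6 : chkFar
   (.D 40 0 0)
    1374389534720 1649267441664 17317308137472 17454747090944 0 0 = true := by decide +kernel
theorem cf85_7 : chkFar
   (.R 4 0)
    1374389534720 1649267441664 17454747090944 17592186044416 0 0 = true := by decide +kernel
theorem cf85_8 : chkFar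
   (.D 40 0 0)
    1649267441664 1924145348608 17042430230528 17179869184000 0 0 = true := by decide +kernel
theorem cf85_9 : chkFar
   (.D 40 0 0)
    1649267441664 1924145348608 17179869184000 17317308137472 0 0 = true := by decide +kernel
theorem cf85_10 : chkFar
   (.D 40 0 0)
    1924145348608 2199023255552 17042430230528 17317308137472 0 0 = true := by decide +kernel
theorem cf85_11 : chkFar
   (.D 40 0 0)
    1649267441664 1924145348608 17317308137472 17454747090944 0 0 = true := by decide +kernel
theorem cf85_12 : chkFar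
   (.R 4 0)
    1649267441664 1924145348608 17454747090944 17592186044416 0 0 = true := by decide +kernel
theorem cf85_13 : chkFar
   (.D 40 0 0)
    1924145348608 2199023255552 17317308137472 17454747090944 0 0 = true := by decide +kernel
theorem cf85_14 : chkFar
   (.R 4 0)
    1924145348608 2199023255552 17454747090944 17592186044416 0 0 = true := by decide +kernel
theorem cf85 (H : FarH) : FarBox 1099511627776 2199023255552 17042430230528 17592186044416 0 0 :=
   (fS (fT (fS (fT (H _ _ _ _ _ _ _ cf85_0) (H _ _ _ _ _ _ _ cf85_1)) (fT (H _ _ _ _ _ _ _ cf85_2) (H _ _ _ _ _ _ _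
   cf85_3))) (fS (fT (H _ _ _ _ _ _ _ cf85_4) (H _ _ _ _ _ _ _ cf85_5)) (fT (H _ _ _ _ _ _ _ cf85_6) (H _ _ _ _ _ _ _
   cf85_7)))) (fT (fS (fT (H _ _ _ _ _ _ _ cf85_8) (H _ _ _ _ _ _ _ cf85_9)) (H _ _ _ _ _ _ _ cf85_10)) (fS (fT (H _ _
   _ _ _ _ _ cf85_11) (H _ _ _ _ _ _ _ cf85_12)) (fT (H _ _ _ _ _ _ _ cf85_13) (H _ _ _ _ _ _ _ cf85_14)))))

theorem cf86_0 : chkFar
   (.R 4 0)
    1099511627776 2199023255552 16492674416640 17592186044416 1 1 = true := by decide +kernel
theorem cf86 (H : FarH) : FarBox 1099511627776 2199023255552 16492674416640 17592186044416 1 1 :=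
   (H _ _ _ _ _ _ _ cf86_0)

theorem cf87_0 : chkFar
   (.R 12 0)
    0 2199023255552 15393162788864 17592186044416 2 2 = true := by decide +kernel
theorem cf87 (H : FarH) : FarBox 0 2199023255552 15393162788864 17592186044416 2 2 :=
   (H _ _ _ _ _ _ _ cf87_0)

theorem cf88_0 : chkFar
   (.D 40 0 0)
    2199023255552 2473901162496 15393162788864 15668040695808 0 0 = true := by decide +kernel
theorem cf88_1 : chkFar
   (.D 40 0 0)
    2473901162496 2748779069440 15393162788864 15668040695808 0 0 = true := by decide +kernel
theorem cf88_2 : chkFar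
   (.D 40 0 0)
    2199023255552 2473901162496 15668040695808 15942918602752 0 0 = true := by decide +kernel
theorem cf88_3 : chkFar
   (.D 40 0 0)
    2473901162496 2748779069440 15668040695808 15942918602752 0 0 = true := by decide +kernel
theorem cf88_4 : chkFar
   (.D 40 0 0)
    2748779069440 3023656976384 15393162788864 15668040695808 0 0 = true := by decide +kernel
theorem cf88_5 : chkFar
   (.D 34 0 0)
    3023656976384 3298534883328 15393162788864 15668040695808 0 0 = true := by decide +kernel
theorem cf88_6 : chkFar
   (.D 40 0 0)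
    2748779069440 3023656976384 15668040695808 15942918602752 0 0 = true := by decide +kernel
theorem cf88_7 : chkFar
   (.D 40 0 0)
    3023656976384 3298534883328 15668040695808 15942918602752 0 0 = true := by decide +kernel
theorem cf88_8 : chkFar
   (.D 40 0 0)
    2199023255552 2473901162496 15942918602752 16217796509696 0 0 = true := by decide +kernel
theorem cf88_9 : chkFar
   (.D 40 0 0)
    2473901162496 2748779069440 15942918602752 16217796509696 0 0 = true := by decide +kernel
theorem cf88_10 : chkFar
   (.D 40 0 0)
    2199023255552 2473901162496 16217796509696 16492674416640 0 0 = true := by decide +kernel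
theorem cf88_11 : chkFar
   (.D 40 0 0)
    2473901162496 2748779069440 16217796509696 16492674416640 0 0 = true := by decide +kernel
theorem cf88_12 : chkFar
   (.D 40 0 0)
    2748779069440 3023656976384 15942918602752 16217796509696 0 0 = true := by decide +kernel
theorem cf88_13 : chkFar
   (.D 40 0 0)
    3023656976384 3298534883328 15942918602752 16217796509696 0 0 = true := by decide +kernel
theorem cf88_14 : chkFar
   (.D 40 0 0)
    2748779069440 3023656976384 16217796509696 16492674416640 0 0 = true := by decide +kernel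
theorem cf88_15 : chkFar
   (.D 40 0 0)
    3023656976384 3298534883328 16217796509696 16492674416640 0 0 = true := by decide +kernel
theorem cf88 (H : FarH) : FarBox 2199023255552 3298534883328 15393162788864 16492674416640 0 0 :=
   (fT (fS (fT (fS (H _ _ _ _ _ _ _ cf88_0) (H _ _ _ _ _ _ _ cf88_1)) (fS (H _ _ _ _ _ _ _ cf88_2) (H _ _ _ _ _ _ _
   cf88_3))) (fT (fS (H _ _ _ _ _ _ _ cf88_4) (H _ _ _ _ _ _ _ cf88_5)) (fS (H _ _ _ _ _ _ _ cf88_6) (H _ _ _ _ _ _ _
   cf88_7)))) (fS (fT (fS (H _ _ _ _ _ _ _ cf88_8) (H _ _ _ _ _ _ _ cf88_9)) (fS (H _ _ _ _ _ _ _ cf88_10) (H _ _ _ _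
   _ _ _ cf88_11))) (fT (fS (H _ _ _ _ _ _ _ cf88_12) (H _ _ _ _ _ _ _ cf88_13)) (fS (H _ _ _ _ _ _ _ cf88_14) (H _ _
   _ _ _ _ _ cf88_15)))))


end Crest.Agent.R086.N
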