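import Crest.Agent.R086.N.Spl

/-! generated certificate -/

namespace Crest.Agent.R086.N

set_option maxRecDepth 100000
set_option Elab.async false

theorem cf8_0 : chkFar
   (.sT (.D 7 0 0) (.D 7 0 0))
    0 17179869184 137438953472 154618822656 1 1 = true := by decide +kernel
theorem cf8_1 : chkFar
   (.sT (.D 7 0 0) (.D 7 0 0))
    17179869184 34359738368 137438953472 154618822656 1 1 = true := by decide +kernel
theorem cf8_2 : chkFar
   (.sT (.D 7 0 0) (.D 7 0 0))
    0 17179869184 154618822656 171798691840 1 1 = true := by decide +kernel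
theorem cf8_3 : chkFar
   (.sT (.D 7 0 0) (.D 7 0 0))
    17179869184 34359738368 154618822656 171798691840 1 1 = true := by decide +kernel
theorem cf8_4 : chkFar
   (.sS (.sT (.D 7 0 0) (.D 7 0 0)) (.D 10 0 0))
    34359738368 68719476736 137438953472 154618822656 1 1 = true := by decide +kernel
theorem cf8_5 : chkFar
   (.sS (.D 10 0 0) (.D 7 0 0))
    34359738368 68719476736 154618822656 171798691840 1 1 = true := by decide +kernel
theorem cf8_6 : chkFar
   (.sS (.sT (.D 7 0 0) (.D 7 0 0)) (.D 10 0 0))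
    0 34359738368 171798691840 188978561024 1 1 = true := by decide +kernel
theorem cf8_7 : chkFar
   (.sS (.D 8 0 0) (.D 7 0 0))
    0 34359738368 188978561024 206158430208 1 1 = true := by decide +kernel
theorem cf8_8 : chkFar
   (.sS (.D 7 0 0) (.D 7 0 0))
    34359738368 68719476736 171798691840 188978561024 1 1 = true := by decide +kernel
theorem cf8_9 : chkFar
   (.sS (.D 7 0 0) (.D 7 0 0))
    34359738368 68719476736 188978561024 206158430208 1 1 = true := by decide +kernel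
theorem cf8_10 : chkFar
   (.sS (.D 7 0 0) (.D 7 0 0))
    68719476736 103079215104 137438953472 154618822656 1 1 = true := by decide +kernel
theorem cf8_11 : chkFar
   (.sS (.D 7 0 0) (.D 7 0 0))
    68719476736 103079215104 154618822656 171798691840 1 1 = true := by decide +kernel
theorem cf8_12 : chkFar
   (.sS (.D 7 0 0) (.D 7 0 0))
    103079215104 137438953472 137438953472 154618822656 1 1 = true := by decide +kernel
theorem cf8_13 : chkFar
   (.sS (.D 7 0 0) (.D 6 0 0))
    103079215104 137438953472 154618822656 171798691840 1 1 = true := by decide +kernel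
theorem cf8_14 : chkFar
   (.sS (.D 7 0 0) (.D 7 0 0))
    68719476736 103079215104 171798691840 188978561024 1 1 = true := by decide +kernel
theorem cf8_15 : chkFar
   (.sS (.D 7 0 0) (.D 6 0 0))
    68719476736 103079215104 188978561024 206158430208 1 1 = true := by decide +kernel
theorem cf8_16 : chkFar
   (.sT (.sS (.D 6 0 0) (.D 6 0 0)) (.sS (.D 6 0 0) (.D 6 0 0)))
    103079215104 137438953472 171798691840 206158430208 1 1 = true := by decide +kernel
theorem cf8_17 : chkFar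
   (.sS (.D 7 0 0) (.D 7 0 0))
    0 34359738368 206158430208 223338299392 1 1 = true := by decide +kernel
theorem cf8_18 : chkFar
   (.sS (.D 7 0 0) (.D 7 0 0))
    0 34359738368 223338299392 240518168576 1 1 = true := by decide +kernel
theorem cf8_19 : chkFar
   (.sS (.D 7 0 0) (.D 7 0 0))
    34359738368 68719476736 206158430208 223338299392 1 1 = true := by decide +kernel
theorem cf8_20 : chkFar
   (.sS (.D 7 0 0) (.D 6 0 0))
    34359738368 68719476736 223338299392 240518168576 1 1 = true := by decide +kernel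
theorem cf8_21 : chkFar
   (.sS (.D 7 0 0) (.D 7 0 0))
    0 34359738368 240518168576 257698037760 1 1 = true := by decide +kernel
theorem cf8_22 : chkFar
   (.sS (.D 7 0 0) (.D 6 0 0))
    0 34359738368 257698037760 274877906944 1 1 = true := by decide +kernel
theorem cf8_23 : chkFar
   (.sT (.sS (.D 6 0 0) (.D 6 0 0)) (.sS (.D 6 0 0) (.D 6 0 0)))
    34359738368 68719476736 240518168576 274877906944 1 1 = true := by decide +kernel
theorem cf8_24 : chkFar
   (.sT (.sS (.D 6 0 0) (.D 6 0 0)) (.sS (.D 6 0 0) (.D 6 0 0)))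
    68719476736 103079215104 206158430208 240518168576 1 1 = true := by decide +kernel
theorem cf8_25 : chkFar
   (.sT (.sS (.D 6 0 0) (.D 6 0 0)) (.sS (.D 6 0 0) (.D 6 0 0)))
    103079215104 137438953472 206158430208 240518168576 1 1 = true := by decide +kernel
theorem cf8_26 : chkFar
   (.sT (.sS (.D 6 0 0) (.D 6 0 0)) (.sS (.D 6 0 0) (.D 6 0 0)))
    68719476736 103079215104 240518168576 274877906944 1 1 = true := by decide +kernel
theorem cf8_27 : chkFar
   (.sT (.sS (.D 6 0 0) (.D 6 0 0)) (.sS (.D 6 0 0) (.D 6 0 0)))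
    103079215104 137438953472 240518168576 274877906944 1 1 = true := by decide +kernel
theorem cf8 (H : FarH) : FarBox 0 137438953472 137438953472 274877906944 1 1 :=
   (fT (fS (fT (fS (fT (fS (H _ _ _ _ _ _ _ cf8_0) (H _ _ _ _ _ _ _ cf8_1)) (fS (H _ _ _ _ _ _ _ cf8_2) (H _ _ _ _ _ _
   _ cf8_3))) (fT (H _ _ _ _ _ _ _ cf8_4) (H _ _ _ _ _ _ _ cf8_5))) (fS (fT (H _ _ _ _ _ _ _ cf8_6) (H _ _ _ _ _ _ _
   cf8_7)) (fT (H _ _ _ _ _ _ _ cf8_8) (H _ _ _ _ _ _ _ cf8_9)))) (fT (fS (fT (H _ _ _ _ _ _ _ cf8_10) (H _ _ _ _ _ _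
   _ cf8_11)) (fT (H _ _ _ _ _ _ _ cf8_12) (H _ _ _ _ _ _ _ cf8_13))) (fS (fT (H _ _ _ _ _ _ _ cf8_14) (H _ _ _ _ _ _
   _ cf8_15)) (H _ _ _ _ _ _ _ cf8_16)))) (fS (fT (fS (fT (H _ _ _ _ _ _ _ cf8_17) (H _ _ _ _ _ _ _ cf8_18)) (fT (H _
   _ _ _ _ _ _ cf8_19) (H _ _ _ _ _ _ _ cf8_20))) (fS (fT (H _ _ _ _ _ _ _ cf8_21) (H _ _ _ _ _ _ _ cf8_22)) (H _ _ _
   _ _ _ _ cf8_23))) (fT (fS (H _ _ _ _ _ _ _ cf8_24) (H _ _ _ _ _ _ _ cf8_25)) (fS (H _ _ _ _ _ _ _ cf8_26) (H _ _ _
   _ _ _ _ cf8_27)))))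

theorem cf9_0 : chkFar
   (.sT (.sS (.D 6 0 0) (.D 6 0 0)) (.sS (.D 6 0 0) (.D 6 0 0)))
    137438953472 171798691840 137438953472 171798691840 1 1 = true := by decide +kernel
theorem cf9_1 : chkFar
   (.sT (.sS (.D 6 0 0) (.D 6 0 0)) (.sS (.D 6 0 0) (.D 6 0 0)))
    171798691840 206158430208 137438953472 171798691840 1 1 = true := by decide +kernel
theorem cf9_2 : chkFar
   (.sT (.sS (.D 6 0 0) (.D 6 0 0)) (.sS (.D 6 0 0) (.D 6 0 0)))
    137438953472 171798691840 171798691840 206158430208 1 1 = true := by decide +kernel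
theorem cf9_3 : chkFar
   (.sT (.sS (.D 6 0 0) (.D 6 0 0)) (.sS (.D 6 0 0) (.D 6 0 0)))
    171798691840 206158430208 171798691840 206158430208 1 1 = true := by decide +kernel
theorem cf9_4 : chkFar
   (.sT (.sS (.D 6 0 0) (.D 6 0 0)) (.sS (.D 6 0 0) (.D 6 0 0)))
    206158430208 240518168576 137438953472 171798691840 1 1 = true := by decide +kernel
theorem cf9_5 : chkFar
   (.sT (.sS (.D 6 0 0) (.D 6 0 0)) (.sS (.D 6 0 0) (.D 6 0 0)))
    240518168576 274877906944 137438953472 171798691840 1 1 = true := by decide +kernel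
theorem cf9_6 : chkFar
   (.sT (.sS (.D 6 0 0) (.D 6 0 0)) (.sS (.D 6 0 0) (.D 6 0 0)))
    206158430208 240518168576 171798691840 206158430208 1 1 = true := by decide +kernel
theorem cf9_7 : chkFar
   (.sT (.sS (.D 6 0 0) (.D 6 0 0)) (.sS (.D 6 0 0) (.D 6 0 0)))
    240518168576 274877906944 171798691840 206158430208 1 1 = true := by decide +kernel
theorem cf9_8 : chkFar
   (.sT (.sS (.D 6 0 0) (.D 6 0 0)) (.sS (.D 6 0 0) (.D 6 0 0)))
    137438953472 171798691840 206158430208 240518168576 1 1 = true := by decide +kernel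
theorem cf9_9 : chkFar
   (.sT (.sS (.D 6 0 0) (.D 6 0 0)) (.sS (.D 6 0 0) (.D 6 0 0)))
    171798691840 206158430208 206158430208 240518168576 1 1 = true := by decide +kernel
theorem cf9_10 : chkFar
   (.sT (.sS (.D 6 0 0) (.D 6 0 0)) (.sS (.D 6 0 0) (.D 6 0 0)))
    137438953472 171798691840 240518168576 274877906944 1 1 = true := by decide +kernel
theorem cf9_11 : chkFar
   (.sT (.sS (.D 6 0 0) (.D 6 0 0)) (.sS (.D 6 0 0) (.D 6 0 0)))
    171798691840 206158430208 240518168576 274877906944 1 1 = true := by decide +kernel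
theorem cf9_12 : chkFar
   (.sT (.sS (.D 6 0 0) (.D 6 0 0)) (.sS (.D 6 0 0) (.D 6 0 0)))
    206158430208 240518168576 206158430208 240518168576 1 1 = true := by decide +kernel
theorem cf9_13 : chkFar
   (.sT (.sS (.D 6 0 0) (.D 6 0 0)) (.sS (.D 6 0 0) (.D 6 0 0)))
    240518168576 274877906944 206158430208 240518168576 1 1 = true := by decide +kernel
theorem cf9_14 : chkFar
   (.sT (.sS (.D 6 0 0) (.D 6 0 0)) (.D 7 0 0))
    206158430208 240518168576 240518168576 274877906944 1 1 = true := by decide +kernel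
theorem cf9_15 : chkFar
   (.sT (.D 8 0 0) (.D 7 0 0))
    240518168576 274877906944 240518168576 274877906944 1 1 = true := by decide +kernel
theorem cf9 (H : FarH) : FarBox 137438953472 274877906944 137438953472 274877906944 1 1 :=
   (fT (fS (fT (fS (H _ _ _ _ _ _ _ cf9_0) (H _ _ _ _ _ _ _ cf9_1)) (fS (H _ _ _ _ _ _ _ cf9_2) (H _ _ _ _ _ _ _
   cf9_3))) (fT (fS (H _ _ _ _ _ _ _ cf9_4) (H _ _ _ _ _ _ _ cf9_5)) (fS (H _ _ _ _ _ _ _ cf9_6) (H _ _ _ _ _ _ _
   cf9_7)))) (fS (fT (fS (H _ _ _ _ _ _ _ cf9_8) (H _ _ _ _ _ _ _ cf9_9)) (fS (H _ _ _ _ _ _ _ cf9_10) (H _ _ _ _ _ _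
   _ cf9_11))) (fT (fS (H _ _ _ _ _ _ _ cf9_12) (H _ _ _ _ _ _ _ cf9_13)) (fS (H _ _ _ _ _ _ _ cf9_14) (H _ _ _ _ _ _
   _ cf9_15)))))

theorem cf10_0 : chkFar
   .skip
    274877906944 549755813888 0 274877906944 1 1 = true := by decide +kernel
theorem cf10 (H : FarH) : FarBox 274877906944 549755813888 0 274877906944 1 1 :=
   (H _ _ _ _ _ _ _ cf10_0)

theorem cf11_0 : chkFar
   (.sT (.sS (.D 6 0 0) (.D 6 0 0)) (.sS (.D 6 0 0) (.D 6 0 0)))
    0 34359738368 274877906944 309237645312 1 1 = true := by decide +kernel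
theorem cf11_1 : chkFar
   (.sT (.sS (.D 6 0 0) (.D 6 0 0)) (.sS (.D 6 0 0) (.D 6 0 0)))
    34359738368 68719476736 274877906944 309237645312 1 1 = true := by decide +kernel
theorem cf11_2 : chkFar
   (.sT (.sS (.D 6 0 0) (.D 6 0 0)) (.sS (.D 6 0 0) (.D 6 0 0)))
    0 34359738368 309237645312 343597383680 1 1 = true := by decide +kernel
theorem cf11_3 : chkFar
   (.sT (.sS (.D 6 0 0) (.D 6 0 0)) (.sS (.D 6 0 0) (.D 6 0 0)))
    34359738368 68719476736 309237645312 343597383680 1 1 = true := by decide +kernel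
theorem cf11_4 : chkFar
   (.sT (.sS (.D 6 0 0) (.D 6 0 0)) (.sS (.D 6 0 0) (.D 6 0 0)))
    68719476736 103079215104 274877906944 309237645312 1 1 = true := by decide +kernel
theorem cf11_5 : chkFar
   (.sT (.sS (.D 6 0 0) (.D 6 0 0)) (.sS (.D 6 0 0) (.D 6 0 0)))
    103079215104 137438953472 274877906944 309237645312 1 1 = true := by decide +kernel
theorem cf11_6 : chkFar
   (.sT (.sS (.D 6 0 0) (.D 6 0 0)) (.D 10 0 0))
    68719476736 103079215104 309237645312 343597383680 1 1 = true := by decide +kernel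
theorem cf11_7 : chkFar
   (.sT (.D 8 0 0) (.D 7 0 0))
    103079215104 137438953472 309237645312 343597383680 1 1 = true := by decide +kernel
theorem cf11_8 : chkFar
   (.sT (.sS (.D 6 0 0) (.D 6 0 0)) (.sS (.D 6 0 0) (.D 6 0 0)))
    0 34359738368 343597383680 377957122048 1 1 = true := by decide +kernel
theorem cf11_9 : chkFar
   (.sT (.sS (.D 6 0 0) (.D 6 0 0)) (.D 8 0 0))
    34359738368 68719476736 343597383680 377957122048 1 1 = true := by decide +kernel
theorem cf11_10 : chkFar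
   (.sT (.D 8 0 0) (.D 7 0 0))
    0 34359738368 377957122048 412316860416 1 1 = true := by decide +kernel
theorem cf11_11 : chkFar
   (.sT (.D 7 0 0) (.D 7 0 0))
    34359738368 68719476736 377957122048 412316860416 1 1 = true := by decide +kernel
theorem cf11_12 : chkFar
   (.sT (.D 7 0 0) (.D 7 0 0))
    68719476736 103079215104 343597383680 377957122048 1 1 = true := by decide +kernel
theorem cf11_13 : chkFar
   (.sT (.D 7 0 0) (.D 7 0 0))
    103079215104 137438953472 343597383680 377957122048 1 1 = true := by decide +kernel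
theorem cf11_14 : chkFar
   (.sS (.sT (.D 7 0 0) (.D 7 0 0)) (.sT (.D 6 0 0) (.D 6 0 0)))
    68719476736 137438953472 377957122048 412316860416 1 1 = true := by decide +kernel
theorem cf11_15 : chkFar
   (.sT (.sS (.D 6 0 0) (.D 6 0 0)) (.D 8 0 0))
    137438953472 171798691840 274877906944 309237645312 1 1 = true := by decide +kernel
theorem cf11_16 : chkFar
   (.sT (.D 8 0 0) (.D 7 0 0))
    171798691840 206158430208 274877906944 309237645312 1 1 = true := by decide +kernel
theorem cf11_17 : chkFar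
   (.sT (.D 7 0 0) (.D 7 0 0))
    137438953472 171798691840 309237645312 343597383680 1 1 = true := by decide +kernel
theorem cf11_18 : chkFar
   (.sT (.D 7 0 0) (.D 6 0 0))
    171798691840 206158430208 309237645312 343597383680 1 1 = true := by decide +kernel
theorem cf11_19 : chkFar
   (.sT (.D 7 0 0) (.D 7 0 0))
    206158430208 240518168576 274877906944 309237645312 1 1 = true := by decide +kernel
theorem cf11_20 : chkFar
   (.sT (.D 7 0 0) (.D 6 0 0))
    240518168576 274877906944 274877906944 309237645312 1 1 = true := by decide +kernel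
theorem cf11_21 : chkFar
   (.sS (.sT (.D 6 0 0) (.D 6 0 0)) (.sT (.D 6 0 0) (.D 6 0 0)))
    206158430208 274877906944 309237645312 343597383680 1 1 = true := by decide +kernel
theorem cf11_22 : chkFar
   (.sS (.sT (.D 7 0 0) (.D 6 0 0)) (.sT (.D 6 0 0) (.D 6 0 0)))
    137438953472 206158430208 343597383680 377957122048 1 1 = true := by decide +kernel
theorem cf11_23 : chkFar
   (.sS (.sT (.D 6 0 0) (.D 6 0 0)) (.sT (.D 6 0 0) (.D 6 0 0)))
    137438953472 206158430208 377957122048 412316860416 1 1 = true := by decide +kernel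
theorem cf11_24 : chkFar
   (.sS (.sT (.D 6 0 0) (.D 6 0 0)) (.D 12 0 0))
    206158430208 274877906944 343597383680 377957122048 1 1 = true := by decide +kernel
theorem cf11_25 : chkFar
   (.sS (.D 7 0 0) (.D 7 0 0))
    206158430208 274877906944 377957122048 412316860416 1 1 = true := by decide +kernel
theorem cf11 (H : FarH) : FarBox 0 274877906944 274877906944 412316860416 1 1 :=
   (fS (fT (fS (fT (fS (H _ _ _ _ _ _ _ cf11_0) (H _ _ _ _ _ _ _ cf11_1)) (fS (H _ _ _ _ _ _ _ cf11_2) (H _ _ _ _ _ _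
   _ cf11_3))) (fT (fS (H _ _ _ _ _ _ _ cf11_4) (H _ _ _ _ _ _ _ cf11_5)) (fS (H _ _ _ _ _ _ _ cf11_6) (H _ _ _ _ _ _
   _ cf11_7)))) (fS (fT (fS (H _ _ _ _ _ _ _ cf11_8) (H _ _ _ _ _ _ _ cf11_9)) (fS (H _ _ _ _ _ _ _ cf11_10) (H _ _ _
   _ _ _ _ cf11_11))) (fT (fS (H _ _ _ _ _ _ _ cf11_12) (H _ _ _ _ _ _ _ cf11_13)) (H _ _ _ _ _ _ _ cf11_14)))) (fT
   (fS (fT (fS (H _ _ _ _ _ _ _ cf11_15) (H _ _ _ _ _ _ _ cf11_16)) (fS (H _ _ _ _ _ _ _ cf11_17) (H _ _ _ _ _ _ _
   cf11_18))) (fT (fS (H _ _ _ _ _ _ _ cf11_19) (H _ _ _ _ _ _ _ cf11_20)) (H _ _ _ _ _ _ _ cf11_21))) (fS (fT (H _ _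
   _ _ _ _ _ cf11_22) (H _ _ _ _ _ _ _ cf11_23)) (fT (H _ _ _ _ _ _ _ cf11_24) (H _ _ _ _ _ _ _ cf11_25)))))

theorem cf12_0 : chkFar
   (.sT (.D 7 0 0) (.D 7 0 0))
    0 34359738368 412316860416 446676598784 1 1 = true := by decide +kernel
theorem cf12_1 : chkFar
   (.sT (.D 7 0 0) (.D 7 0 0))
    34359738368 68719476736 412316860416 446676598784 1 1 = true := by decide +kernel
theorem cf12_2 : chkFar
   (.sS (.sT (.D 7 0 0) (.D 7 0 0)) (.sT (.D 6 0 0) (.D 6 0 0)))
    0 68719476736 446676598784 481036337152 1 1 = true := by decide +kernel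
theorem cf12_3 : chkFar
   (.sS (.sT (.D 6 0 0) (.D 6 0 0)) (.sT (.D 6 0 0) (.D 6 0 0)))
    68719476736 137438953472 412316860416 446676598784 1 1 = true := by decide +kernel
theorem cf12_4 : chkFar
   (.sS (.sT (.D 6 0 0) (.D 6 0 0)) (.D 8 0 0))
    68719476736 137438953472 446676598784 481036337152 1 1 = true := by decide +kernel
theorem cf12_5 : chkFar
   (.sS (.sT (.D 6 0 0) (.D 6 0 0)) (.sT (.D 6 0 0) (.D 6 0 0)))
    0 68719476736 481036337152 515396075520 1 1 = true := by decide +kernel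
theorem cf12_6 : chkFar
   (.sS (.sT (.D 6 0 0) (.D 6 0 0)) (.D 8 0 0))
    0 68719476736 515396075520 549755813888 1 1 = true := by decide +kernel
theorem cf12_7 : chkFar
   (.sS (.D 8 0 0) (.D 7 0 0))
    68719476736 137438953472 481036337152 515396075520 1 1 = true := by decide +kernel
theorem cf12_8 : chkFar
   (.sS (.D 7 0 0) (.D 7 0 0))
    68719476736 137438953472 515396075520 549755813888 1 1 = true := by decide +kernel
theorem cf12_9 : chkFar
   (.sS (.D 10 0 0) (.D 7 0 0))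
    137438953472 206158430208 412316860416 446676598784 1 1 = true := by decide +kernel
theorem cf12_10 : chkFar
   (.sS (.D 7 0 0) (.D 6 0 0))
    137438953472 206158430208 446676598784 481036337152 1 1 = true := by decide +kernel
theorem cf12_11 : chkFar
   (.sT (.sS (.D 6 0 0) (.D 6 0 0)) (.sS (.D 6 0 0) (.D 6 0 0)))
    206158430208 274877906944 412316860416 481036337152 1 1 = true := by decide +kernel
theorem cf12_12 : chkFar
   (.sT (.sS (.D 7 0 0) (.D 6 0 0)) (.sS (.D 6 0 0) (.D 6 0 0)))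
    137438953472 206158430208 481036337152 549755813888 1 1 = true := by decide +kernel
theorem cf12_13 : chkFar
   (.sT (.sS (.D 6 0 0) (.D 6 0 0)) (.sS (.D 6 0 0) (.D 6 0 0)))
    206158430208 274877906944 481036337152 549755813888 1 1 = true := by decide +kernel
theorem cf12 (H : FarH) : FarBox 0 274877906944 412316860416 549755813888 1 1 :=
   (fS (fT (fS (fT (fS (H _ _ _ _ _ _ _ cf12_0) (H _ _ _ _ _ _ _ cf12_1)) (H _ _ _ _ _ _ _ cf12_2)) (fT (H _ _ _ _ _ _
   _ cf12_3) (H _ _ _ _ _ _ _ cf12_4))) (fS (fT (H _ _ _ _ _ _ _ cf12_5) (H _ _ _ _ _ _ _ cf12_6)) (fT (H _ _ _ _ _ _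
   _ cf12_7) (H _ _ _ _ _ _ _ cf12_8)))) (fT (fS (fT (H _ _ _ _ _ _ _ cf12_9) (H _ _ _ _ _ _ _ cf12_10)) (H _ _ _ _ _
   _ _ cf12_11)) (fS (H _ _ _ _ _ _ _ cf12_12) (H _ _ _ _ _ _ _ cf12_13))))


end Crest.Agent.R086.N
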