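import Crest.Agent.R086.N.Spl

/-! generated certificate -/

namespace Crest.Agent.R086.N

set_option maxRecDepth 100000
set_option Elab.async false

theorem cf89_0 : chkFar
   (.D 40 0 0)
    2199023255552 2748779069440 15393162788864 15942918602752 1 1 = true := by decide +kernel
theorem cf89_1 : chkFar
   (.D 40 0 0)
    2748779069440 3298534883328 15393162788864 15942918602752 1 1 = true := by decide +kernel
theorem cf89_2 : chkFar
   (.D 40 0 0)
    2199023255552 2748779069440 15942918602752 16217796509696 1 1 = true := by decide +kernel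
theorem cf89_3 : chkFar
   (.D 40 0 0)
    2199023255552 2748779069440 16217796509696 16492674416640 1 1 = true := by decide +kernel
theorem cf89_4 : chkFar
   (.D 40 0 0)
    2748779069440 3298534883328 15942918602752 16217796509696 1 1 = true := by decide +kernel
theorem cf89_5 : chkFar
   (.D 40 0 0)
    2748779069440 3298534883328 16217796509696 16492674416640 1 1 = true := by decide +kernel
theorem cf89 (H : FarH) : FarBox 2199023255552 3298534883328 15393162788864 16492674416640 1 1 :=
   (fT (fS (H _ _ _ _ _ _ _ cf89_0) (H _ _ _ _ _ _ _ cf89_1)) (fS (fT (H _ _ _ _ _ _ _ cf89_2) (H _ _ _ _ _ _ _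
   cf89_3)) (fT (H _ _ _ _ _ _ _ cf89_4) (H _ _ _ _ _ _ _ cf89_5))))

theorem cf90_0 : chkFar
   (.D 40 0 0)
    3298534883328 3848290697216 15393162788864 15668040695808 0 0 = true := by decide +kernel
theorem cf90_1 : chkFar
   (.D 40 0 0)
    3298534883328 3573412790272 15668040695808 15942918602752 0 0 = true := by decide +kernel
theorem cf90_2 : chkFar
   (.D 40 0 0)
    3573412790272 3848290697216 15668040695808 15942918602752 0 0 = true := by decide +kernel
theorem cf90_3 : chkFar
   .skip
    3848290697216 4398046511104 15393162788864 15942918602752 0 0 = true := by decide +kernel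
theorem cf90_4 : chkFar
   (.D 40 0 0)
    3298534883328 3573412790272 15942918602752 16217796509696 0 0 = true := by decide +kernel
theorem cf90_5 : chkFar
   (.D 40 0 0)
    3573412790272 3848290697216 15942918602752 16217796509696 0 0 = true := by decide +kernel
theorem cf90_6 : chkFar
   (.D 40 0 0)
    3298534883328 3573412790272 16217796509696 16492674416640 0 0 = true := by decide +kernel
theorem cf90_7 : chkFar
   (.D 40 0 0)
    3573412790272 3848290697216 16217796509696 16492674416640 0 0 = true := by decide +kernel
theorem cf90_8 : chkFar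
   .skip
    3848290697216 4398046511104 15942918602752 16492674416640 0 0 = true := by decide +kernel
theorem cf90_9 : chkFar
   (.D 40 0 0)
    3298534883328 3848290697216 15393162788864 15942918602752 1 1 = true := by decide +kernel
theorem cf90_10 : chkFar
   .skip
    3848290697216 4398046511104 15393162788864 15942918602752 1 1 = true := by decide +kernel
theorem cf90_11 : chkFar
   (.D 40 0 0)
    3298534883328 3848290697216 15942918602752 16492674416640 1 1 = true := by decide +kernel
theorem cf90_12 : chkFar
   .skip
    3848290697216 4398046511104 15942918602752 16492674416640 1 1 = true := by decide +kernel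
theorem cf90 (H : FarH) : FarBox 3298534883328 4398046511104 15393162788864 16492674416640 0 1 :=
   (fM rfl (fT (fS (fT (H _ _ _ _ _ _ _ cf90_0) (fS (H _ _ _ _ _ _ _ cf90_1) (H _ _ _ _ _ _ _ cf90_2))) (H _ _ _ _ _ _
   _ cf90_3)) (fS (fT (fS (H _ _ _ _ _ _ _ cf90_4) (H _ _ _ _ _ _ _ cf90_5)) (fS (H _ _ _ _ _ _ _ cf90_6) (H _ _ _ _ _
   _ _ cf90_7))) (H _ _ _ _ _ _ _ cf90_8))) (fT (fS (H _ _ _ _ _ _ _ cf90_9) (H _ _ _ _ _ _ _ cf90_10)) (fS (H _ _ _ _
   _ _ _ cf90_11) (H _ _ _ _ _ _ _ cf90_12))))

theorem cf91_0 : chkFar
   (.D 40 0 0)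
    2199023255552 2473901162496 16492674416640 16767552323584 0 0 = true := by decide +kernel
theorem cf91_1 : chkFar
   (.D 40 0 0)
    2473901162496 2748779069440 16492674416640 16767552323584 0 0 = true := by decide +kernel
theorem cf91_2 : chkFar
   (.D 40 0 0)
    2199023255552 2473901162496 16767552323584 17042430230528 0 0 = true := by decide +kernel
theorem cf91_3 : chkFar
   (.D 40 0 0)
    2473901162496 2748779069440 16767552323584 17042430230528 0 0 = true := by decide +kernel
theorem cf91_4 : chkFar
   (.D 40 0 0)
    2748779069440 3023656976384 16492674416640 16767552323584 0 0 = true := by decide +kernel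
theorem cf91_5 : chkFar
   (.D 40 0 0)
    3023656976384 3298534883328 16492674416640 16767552323584 0 0 = true := by decide +kernel
theorem cf91_6 : chkFar
   (.D 40 0 0)
    2748779069440 3023656976384 16767552323584 17042430230528 0 0 = true := by decide +kernel
theorem cf91_7 : chkFar
   (.D 40 0 0)
    3023656976384 3298534883328 16767552323584 17042430230528 0 0 = true := by decide +kernel
theorem cf91_8 : chkFar
   (.D 40 0 0)
    2199023255552 2473901162496 17042430230528 17317308137472 0 0 = true := by decide +kernel
theorem cf91_9 : chkFar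
   (.D 40 0 0)
    2473901162496 2748779069440 17042430230528 17317308137472 0 0 = true := by decide +kernel
theorem cf91_10 : chkFar
   (.D 40 0 0)
    2199023255552 2473901162496 17317308137472 17454747090944 0 0 = true := by decide +kernel
theorem cf91_11 : chkFar
   (.R 4 0)
    2199023255552 2473901162496 17454747090944 17592186044416 0 0 = true := by decide +kernel
theorem cf91_12 : chkFar
   (.D 40 0 0)
    2473901162496 2748779069440 17317308137472 17454747090944 0 0 = true := by decide +kernel
theorem cf91_13 : chkFar
   (.R 4 0)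
    2473901162496 2748779069440 17454747090944 17592186044416 0 0 = true := by decide +kernel
theorem cf91_14 : chkFar
   (.D 40 0 0)
    2748779069440 3023656976384 17042430230528 17317308137472 0 0 = true := by decide +kernel
theorem cf91_15 : chkFar
   (.D 40 0 0)
    3023656976384 3298534883328 17042430230528 17317308137472 0 0 = true := by decide +kernel
theorem cf91_16 : chkFar
   (.D 40 0 0)
    2748779069440 3023656976384 17317308137472 17592186044416 0 0 = true := by decide +kernel
theorem cf91_17 : chkFar
   (.D 40 0 0)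
    3023656976384 3298534883328 17317308137472 17592186044416 0 0 = true := by decide +kernel
theorem cf91_18 : chkFar
   (.R 4 0)
    2199023255552 3298534883328 16492674416640 17592186044416 1 1 = true := by decide +kernel
theorem cf91 (H : FarH) : FarBox 2199023255552 3298534883328 16492674416640 17592186044416 0 1 :=
   (fM rfl (fT (fS (fT (fS (H _ _ _ _ _ _ _ cf91_0) (H _ _ _ _ _ _ _ cf91_1)) (fS (H _ _ _ _ _ _ _ cf91_2) (H _ _ _ _
   _ _ _ cf91_3))) (fT (fS (H _ _ _ _ _ _ _ cf91_4) (H _ _ _ _ _ _ _ cf91_5)) (fS (H _ _ _ _ _ _ _ cf91_6) (H _ _ _ _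
   _ _ _ cf91_7)))) (fS (fT (fS (H _ _ _ _ _ _ _ cf91_8) (H _ _ _ _ _ _ _ cf91_9)) (fS (fT (H _ _ _ _ _ _ _ cf91_10)
   (H _ _ _ _ _ _ _ cf91_11)) (fT (H _ _ _ _ _ _ _ cf91_12) (H _ _ _ _ _ _ _ cf91_13)))) (fT (fS (H _ _ _ _ _ _ _
   cf91_14) (H _ _ _ _ _ _ _ cf91_15)) (fS (H _ _ _ _ _ _ _ cf91_16) (H _ _ _ _ _ _ _ cf91_17))))) (H _ _ _ _ _ _ _
   cf91_18))

theorem cf92_0 : chkFar
   (.D 40 0 0)
    3298534883328 3573412790272 16492674416640 16767552323584 0 0 = true := by decide +kernel
theorem cf92_1 : chkFar
   (.D 40 0 0)
    3573412790272 3848290697216 16492674416640 16767552323584 0 0 = true := by decide +kernel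
theorem cf92_2 : chkFar
   (.D 40 0 0)
    3298534883328 3573412790272 16767552323584 17042430230528 0 0 = true := by decide +kernel
theorem cf92_3 : chkFar
   (.D 40 0 0)
    3573412790272 3848290697216 16767552323584 17042430230528 0 0 = true := by decide +kernel
theorem cf92_4 : chkFar
   .skip
    3848290697216 4398046511104 16492674416640 17042430230528 0 0 = true := by decide +kernel
theorem cf92_5 : chkFar
   (.D 40 0 0)
    3298534883328 3573412790272 17042430230528 17317308137472 0 0 = true := by decide +kernel
theorem cf92_6 : chkFar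
   (.D 40 0 0)
    3573412790272 3848290697216 17042430230528 17317308137472 0 0 = true := by decide +kernel
theorem cf92_7 : chkFar
   (.D 40 0 0)
    3298534883328 3573412790272 17317308137472 17592186044416 0 0 = true := by decide +kernel
theorem cf92_8 : chkFar
   (.D 40 0 0)
    3573412790272 3848290697216 17317308137472 17592186044416 0 0 = true := by decide +kernel
theorem cf92_9 : chkFar
   .skip
    3848290697216 4398046511104 17042430230528 17592186044416 0 0 = true := by decide +kernel
theorem cf92_10 : chkFar
   (.R 4 0)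
    3298534883328 4398046511104 16492674416640 17592186044416 1 1 = true := by decide +kernel
theorem cf92 (H : FarH) : FarBox 3298534883328 4398046511104 16492674416640 17592186044416 0 1 :=
   (fM rfl (fT (fS (fT (fS (H _ _ _ _ _ _ _ cf92_0) (H _ _ _ _ _ _ _ cf92_1)) (fS (H _ _ _ _ _ _ _ cf92_2) (H _ _ _ _
   _ _ _ cf92_3))) (H _ _ _ _ _ _ _ cf92_4)) (fS (fT (fS (H _ _ _ _ _ _ _ cf92_5) (H _ _ _ _ _ _ _ cf92_6)) (fS (H _ _
   _ _ _ _ _ cf92_7) (H _ _ _ _ _ _ _ cf92_8))) (H _ _ _ _ _ _ _ cf92_9))) (H _ _ _ _ _ _ _ cf92_10))

theorem cf93_0 : chkFar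
   (.R 10 0)
    2199023255552 4398046511104 15393162788864 17592186044416 2 2 = true := by decide +kernel
theorem cf93 (H : FarH) : FarBox 2199023255552 4398046511104 15393162788864 17592186044416 2 2 :=
   (H _ _ _ _ _ _ _ cf93_0)

theorem cf94_0 : chkFar
   (.D 34 0 0)
    0 1099511627776 13194139533312 13743895347200 3 3 = true := by decide +kernel
theorem cf94_1 : chkFar
   (.R 4 0)
    0 1099511627776 13743895347200 14293651161088 3 3 = true := by decide +kernel
theorem cf94_2 : chkFar
   (.R 4 0)
    0 1099511627776 13194139533312 14293651161088 4 4 = true := by decide +kernel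
theorem cf94_3 : chkFar
   (.D 34 0 0)
    1099511627776 2199023255552 13194139533312 13743895347200 3 3 = true := by decide +kernel
theorem cf94_4 : chkFar
   (.R 4 0)
    1099511627776 2199023255552 13743895347200 14293651161088 3 3 = true := by decide +kernel
theorem cf94_5 : chkFar
   (.R 4 0)
    1099511627776 2199023255552 13194139533312 14293651161088 4 4 = true := by decide +kernel
theorem cf94_6 : chkFar
   (.R 10 0)
    0 2199023255552 14293651161088 15393162788864 3 4 = true := by decide +kernel
theorem cf94_7 : chkFar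
   (.R 14 0)
    0 2199023255552 13194139533312 15393162788864 5 5 = true := by decide +kernel
theorem cf94_8 : chkFar
   (.D 40 0 0)
    2199023255552 3298534883328 13194139533312 14293651161088 3 3 = true := by decide +kernel
theorem cf94_9 : chkFar
   (.R 4 0)
    2199023255552 3298534883328 13194139533312 14293651161088 4 4 = true := by decide +kernel
theorem cf94_10 : chkFar
   (.D 40 0 0)
    3298534883328 4398046511104 13194139533312 14293651161088 3 4 = true := by decide +kernel
theorem cf94_11 : chkFar
   (.R 7 0)
    2199023255552 4398046511104 14293651161088 15393162788864 3 4 = true := by decide +kernel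
theorem cf94_12 : chkFar
   (.R 12 0)
    2199023255552 4398046511104 13194139533312 15393162788864 5 5 = true := by decide +kernel
theorem cf94_13 : chkFar
   (.sS (.R 17 0) (.R 17 0))
    0 4398046511104 15393162788864 17592186044416 3 5 = true := by decide +kernel
theorem cf94 (H : FarH) : FarBox 0 4398046511104 13194139533312 17592186044416 3 5 :=
   (fT (fS (fM rfl (fT (fS (fM rfl (fT (H _ _ _ _ _ _ _ cf94_0) (H _ _ _ _ _ _ _ cf94_1)) (H _ _ _ _ _ _ _ cf94_2))
   (fM rfl (fT (H _ _ _ _ _ _ _ cf94_3) (H _ _ _ _ _ _ _ cf94_4)) (H _ _ _ _ _ _ _ cf94_5))) (H _ _ _ _ _ _ _ cf94_6))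
   (H _ _ _ _ _ _ _ cf94_7)) (fM rfl (fT (fS (fM rfl (H _ _ _ _ _ _ _ cf94_8) (H _ _ _ _ _ _ _ cf94_9)) (H _ _ _ _ _ _
   _ cf94_10)) (H _ _ _ _ _ _ _ cf94_11)) (H _ _ _ _ _ _ _ cf94_12))) (H _ _ _ _ _ _ _ cf94_13))


end Crest.Agent.R086.N
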