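import Crest.Agent.R086.N.Spl

/-! generated certificate -/

namespace Crest.Agent.R086.N

set_option maxRecDepth 100000
set_option Elab.async false

theorem cf95_0 : chkFar
   (.sS (.D 7 0 0) (.D 7 0 0))
    0 549755813888 0 274877906944 6 6 = true := by decide +kernel
theorem cf95_1 : chkFar
   (.sS (.D 7 0 0) (.D 7 0 0))
    0 549755813888 274877906944 549755813888 6 6 = true := by decide +kernel
theorem cf95_2 : chkFar
   (.D 7 0 0)
    549755813888 1099511627776 0 549755813888 6 6 = true := by decide +kernel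
theorem cf95_3 : chkFar
   (.sS (.D 7 0 0) (.D 7 0 0))
    0 549755813888 549755813888 824633720832 6 6 = true := by decide +kernel
theorem cf95_4 : chkFar
   (.sS (.D 7 0 0) (.D 7 0 0))
    0 549755813888 824633720832 1099511627776 6 6 = true := by decide +kernel
theorem cf95_5 : chkFar
   (.D 7 0 0)
    549755813888 1099511627776 549755813888 1099511627776 6 6 = true := by decide +kernel
theorem cf95_6 : chkFar
   (.sT (.D 6 0 0) (.D 7 0 0))
    1099511627776 2199023255552 0 1099511627776 6 6 = true := by decide +kernel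
theorem cf95_7 : chkFar
   (.sS (.D 8 0 0) (.D 7 0 0))
    0 549755813888 1099511627776 1374389534720 6 6 = true := by decide +kernel
theorem cf95_8 : chkFar
   (.sS (.D 8 0 0) (.D 7 0 0))
    0 549755813888 1374389534720 1649267441664 6 6 = true := by decide +kernel
theorem cf95_9 : chkFar
   (.D 8 0 0)
    549755813888 1099511627776 1099511627776 1649267441664 6 6 = true := by decide +kernel
theorem cf95_10 : chkFar
   (.sS (.D 8 0 0) (.D 7 0 0))
    0 549755813888 1649267441664 1924145348608 6 6 = true := by decide +kernel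
theorem cf95_11 : chkFar
   (.sS (.D 8 0 0) (.D 7 0 0))
    0 549755813888 1924145348608 2199023255552 6 6 = true := by decide +kernel
theorem cf95_12 : chkFar
   (.D 8 0 0)
    549755813888 1099511627776 1649267441664 2199023255552 6 6 = true := by decide +kernel
theorem cf95_13 : chkFar
   (.sT (.D 7 0 0) (.D 7 0 0))
    1099511627776 2199023255552 1099511627776 2199023255552 6 6 = true := by decide +kernel
theorem cf95_14 : chkFar
   (.sS (.sT (.D 8 0 0) (.D 8 0 0)) (.D 7 0 0))
    0 1099511627776 0 549755813888 7 7 = true := by decide +kernel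
theorem cf95_15 : chkFar
   (.sS (.sT (.D 8 0 0) (.D 8 0 0)) (.D 7 0 0))
    0 1099511627776 549755813888 1099511627776 7 7 = true := by decide +kernel
theorem cf95_16 : chkFar
   (.sT (.D 7 0 0) (.D 7 0 0))
    1099511627776 2199023255552 0 1099511627776 7 7 = true := by decide +kernel
theorem cf95_17 : chkFar
   (.sS (.sT (.D 8 0 0) (.D 8 0 0)) (.D 7 0 0))
    0 1099511627776 1099511627776 1649267441664 7 7 = true := by decide +kernel
theorem cf95_18 : chkFar
   (.sS (.sT (.D 8 0 0) (.D 8 0 0)) (.D 7 0 0))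
    0 1099511627776 1649267441664 2199023255552 7 7 = true := by decide +kernel
theorem cf95_19 : chkFar
   (.sT (.D 7 0 0) (.D 7 0 0))
    1099511627776 2199023255552 1099511627776 2199023255552 7 7 = true := by decide +kernel
theorem cf95_20 : chkFar
   (.sM (.sT (.D 5 0 0) (.D 6 0 0)) (.sT (.D 6 0 0) (.D 6 0 0)))
    2199023255552 4398046511104 0 2199023255552 6 7 = true := by decide +kernel
theorem cf95_21 : chkFar
   (.sT (.D 10 0 0) (.D 10 0 0))
    0 549755813888 2199023255552 2748779069440 6 6 = true := by decide +kernel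
theorem cf95_22 : chkFar
   (.D 8 0 0)
    549755813888 1099511627776 2199023255552 2748779069440 6 6 = true := by decide +kernel
theorem cf95_23 : chkFar
   (.sT (.D 10 0 0) (.D 10 0 0))
    0 549755813888 2748779069440 3298534883328 6 6 = true := by decide +kernel
theorem cf95_24 : chkFar
   (.D 8 0 0)
    549755813888 1099511627776 2748779069440 3298534883328 6 6 = true := by decide +kernel
theorem cf95_25 : chkFar
   (.sT (.D 7 0 0) (.D 8 0 0))
    1099511627776 2199023255552 2199023255552 3298534883328 6 6 = true := by decide +kernel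
theorem cf95_26 : chkFar
   (.sS (.D 12 0 0) (.D 8 0 0))
    0 1099511627776 3298534883328 3848290697216 6 6 = true := by decide +kernel
theorem cf95_27 : chkFar
   (.sS (.D 10 0 0) (.D 10 0 0))
    0 1099511627776 3848290697216 4398046511104 6 6 = true := by decide +kernel
theorem cf95_28 : chkFar
   (.D 12 0 0)
    1099511627776 2199023255552 3298534883328 4398046511104 6 6 = true := by decide +kernel
theorem cf95_29 : chkFar
   (.sS (.sT (.D 8 0 0) (.D 8 0 0)) (.D 8 0 0))
    0 1099511627776 2199023255552 2748779069440 7 7 = true := by decide +kernel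
theorem cf95_30 : chkFar
   (.sS (.D 10 0 0) (.D 8 0 0))
    0 1099511627776 2748779069440 3298534883328 7 7 = true := by decide +kernel
theorem cf95_31 : chkFar
   (.D 10 1 0)
    1099511627776 2199023255552 2199023255552 3298534883328 7 7 = true := by decide +kernel
theorem cf95_32 : chkFar
   (.sS (.D 10 0 0) (.D 8 0 0))
    0 1099511627776 3298534883328 3848290697216 7 7 = true := by decide +kernel
theorem cf95_33 : chkFar
   (.sS (.D 10 0 0) (.D 8 0 0))
    0 1099511627776 3848290697216 4398046511104 7 7 = true := by decide +kernel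
theorem cf95_34 : chkFar
   (.D 10 0 0)
    1099511627776 2199023255552 3298534883328 4398046511104 7 7 = true := by decide +kernel
theorem cf95_35 : chkFar
   (.sT (.D 7 0 0) (.D 10 0 0))
    2199023255552 4398046511104 2199023255552 4398046511104 6 6 = true := by decide +kernel
theorem cf95_36 : chkFar
   (.sT (.D 7 0 0) (.D 8 0 0))
    2199023255552 4398046511104 2199023255552 4398046511104 7 7 = true := by decide +kernel
theorem cf95 (H : FarH) : FarBox 0 4398046511104 0 4398046511104 6 7 :=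
   (fT (fS (fM rfl (fT (fS (fT (fS (fT (H _ _ _ _ _ _ _ cf95_0) (H _ _ _ _ _ _ _ cf95_1)) (H _ _ _ _ _ _ _ cf95_2))
   (fS (fT (H _ _ _ _ _ _ _ cf95_3) (H _ _ _ _ _ _ _ cf95_4)) (H _ _ _ _ _ _ _ cf95_5))) (H _ _ _ _ _ _ _ cf95_6)) (fS
   (fT (fS (fT (H _ _ _ _ _ _ _ cf95_7) (H _ _ _ _ _ _ _ cf95_8)) (H _ _ _ _ _ _ _ cf95_9)) (fS (fT (H _ _ _ _ _ _ _
   cf95_10) (H _ _ _ _ _ _ _ cf95_11)) (H _ _ _ _ _ _ _ cf95_12))) (H _ _ _ _ _ _ _ cf95_13))) (fT (fS (fT (H _ _ _ _
   _ _ _ cf95_14) (H _ _ _ _ _ _ _ cf95_15)) (H _ _ _ _ _ _ _ cf95_16)) (fS (fT (H _ _ _ _ _ _ _ cf95_17) (H _ _ _ _ _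
   _ _ cf95_18)) (H _ _ _ _ _ _ _ cf95_19)))) (H _ _ _ _ _ _ _ cf95_20)) (fS (fM rfl (fT (fS (fT (fS (H _ _ _ _ _ _ _
   cf95_21) (H _ _ _ _ _ _ _ cf95_22)) (fS (H _ _ _ _ _ _ _ cf95_23) (H _ _ _ _ _ _ _ cf95_24))) (H _ _ _ _ _ _ _
   cf95_25)) (fS (fT (H _ _ _ _ _ _ _ cf95_26) (H _ _ _ _ _ _ _ cf95_27)) (H _ _ _ _ _ _ _ cf95_28))) (fT (fS (fT (H _
   _ _ _ _ _ _ cf95_29) (H _ _ _ _ _ _ _ cf95_30)) (H _ _ _ _ _ _ _ cf95_31)) (fS (fT (H _ _ _ _ _ _ _ cf95_32) (H _ _
   _ _ _ _ _ cf95_33)) (H _ _ _ _ _ _ _ cf95_34)))) (fM rfl (H _ _ _ _ _ _ _ cf95_35) (H _ _ _ _ _ _ _ cf95_36))))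

theorem cf96_0 : chkFar
   (.sS (.D 10 0 0) (.D 7 0 0))
    0 1099511627776 0 549755813888 8 8 = true := by decide +kernel
theorem cf96_1 : chkFar
   (.sS (.D 10 0 0) (.D 7 0 0))
    0 1099511627776 549755813888 1099511627776 8 8 = true := by decide +kernel
theorem cf96_2 : chkFar
   (.D 7 0 0)
    1099511627776 2199023255552 0 1099511627776 8 8 = true := by decide +kernel
theorem cf96_3 : chkFar
   (.sS (.D 10 0 0) (.D 7 0 0))
    0 1099511627776 1099511627776 1649267441664 8 8 = true := by decide +kernel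
theorem cf96_4 : chkFar
   (.sS (.D 10 0 0) (.D 7 1 0))
    0 1099511627776 1649267441664 2199023255552 8 8 = true := by decide +kernel
theorem cf96_5 : chkFar
   (.D 8 0 0)
    1099511627776 2199023255552 1099511627776 2199023255552 8 8 = true := by decide +kernel
theorem cf96_6 : chkFar
   (.D 10 0 0)
    2199023255552 4398046511104 0 2199023255552 8 8 = true := by decide +kernel
theorem cf96_7 : chkFar
   (.sT (.sS (.D 10 0 0) (.D 8 0 0)) (.R 10 0))
    0 1099511627776 2199023255552 3298534883328 8 8 = true := by decide +kernel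
theorem cf96_8 : chkFar
   (.D 8 0 0)
    1099511627776 2199023255552 2199023255552 3298534883328 8 8 = true := by decide +kernel
theorem cf96_9 : chkFar
   (.sS (.sT (.R 10 0) (.R 10 0)) (.R 8 0))
    0 2199023255552 3298534883328 4398046511104 8 8 = true := by decide +kernel
theorem cf96_10 : chkFar
   (.D 10 0 0)
    2199023255552 4398046511104 2199023255552 4398046511104 8 8 = true := by decide +kernel
theorem cf96 (H : FarH) : FarBox 0 4398046511104 0 4398046511104 8 8 :=
   (fT (fS (fT (fS (fT (H _ _ _ _ _ _ _ cf96_0) (H _ _ _ _ _ _ _ cf96_1)) (H _ _ _ _ _ _ _ cf96_2)) (fS (fT (H _ _ _ _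
   _ _ _ cf96_3) (H _ _ _ _ _ _ _ cf96_4)) (H _ _ _ _ _ _ _ cf96_5))) (H _ _ _ _ _ _ _ cf96_6)) (fS (fT (fS (H _ _ _ _
   _ _ _ cf96_7) (H _ _ _ _ _ _ _ cf96_8)) (H _ _ _ _ _ _ _ cf96_9)) (H _ _ _ _ _ _ _ cf96_10)))

theorem cf97_0 : chkFar
   (.sS (.D 10 0 0) (.D 10 0 0))
    0 1099511627776 4398046511104 4947802324992 6 6 = true := by decide +kernel
theorem cf97_1 : chkFar
   (.sS (.D 10 0 0) (.D 10 0 0))
    0 1099511627776 4947802324992 5497558138880 6 6 = true := by decide +kernel
theorem cf97_2 : chkFar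
   (.D 10 0 0)
    1099511627776 2199023255552 4398046511104 5497558138880 6 6 = true := by decide +kernel
theorem cf97_3 : chkFar
   (.sT (.D 14 0 0) (.D 14 0 0))
    0 1099511627776 5497558138880 6597069766656 6 6 = true := by decide +kernel
theorem cf97_4 : chkFar
   (.D 12 0 0)
    1099511627776 2199023255552 5497558138880 6597069766656 6 6 = true := by decide +kernel
theorem cf97_5 : chkFar
   (.sS (.D 10 0 0) (.D 10 0 0))
    0 1099511627776 4398046511104 4947802324992 7 7 = true := by decide +kernel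
theorem cf97_6 : chkFar
   (.D 12 0 0)
    0 1099511627776 4947802324992 5497558138880 7 7 = true := by decide +kernel
theorem cf97_7 : chkFar
   (.D 10 0 0)
    1099511627776 2199023255552 4398046511104 5497558138880 7 7 = true := by decide +kernel
theorem cf97_8 : chkFar
   (.sS (.R 14 0) (.R 10 0))
    0 2199023255552 5497558138880 6597069766656 7 7 = true := by decide +kernel
theorem cf97_9 : chkFar
   (.sT (.D 10 0 0) (.D 12 0 0))
    2199023255552 4398046511104 4398046511104 6597069766656 6 6 = true := by decide +kernel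
theorem cf97_10 : chkFar
   (.D 14 0 0)
    2199023255552 4398046511104 4398046511104 6597069766656 7 7 = true := by decide +kernel
theorem cf97_11 : chkFar
   (.sT (.D 14 0 0) (.D 14 0 0))
    0 1099511627776 6597069766656 7696581394432 6 6 = true := by decide +kernel
theorem cf97_12 : chkFar
   (.D 12 0 0)
    1099511627776 2199023255552 6597069766656 7696581394432 6 6 = true := by decide +kernel
theorem cf97_13 : chkFar
   (.R 14 0)
    0 2199023255552 7696581394432 8796093022208 6 6 = true := by decide +kernel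
theorem cf97_14 : chkFar
   (.sT (.sS (.R 12 0) (.R 10 0)) (.sS (.R 12 0) (.R 10 0)))
    0 2199023255552 6597069766656 8796093022208 7 7 = true := by decide +kernel
theorem cf97_15 : chkFar
   (.sM (.sT (.D 14 0 0) (.R 10 0)) (.R 12 0))
    2199023255552 4398046511104 6597069766656 8796093022208 6 7 = true := by decide +kernel
theorem cf97_16 : chkFar
   (.sT (.sS (.sT (.R 10 0) (.R 10 0)) (.R 10 0)) (.sS (.R 12 0) (.R 10 0)))
    0 2199023255552 4398046511104 6597069766656 8 8 = true := by decide +kernel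
theorem cf97_17 : chkFar
   (.R 10 0)
    2199023255552 4398046511104 4398046511104 6597069766656 8 8 = true := by decide +kernel
theorem cf97_18 : chkFar
   (.sT (.sS (.R 12 0) (.R 10 0)) (.sS (.R 12 0) (.R 10 0)))
    0 2199023255552 6597069766656 8796093022208 8 8 = true := by decide +kernel
theorem cf97_19 : chkFar
   (.R 12 0)
    2199023255552 4398046511104 6597069766656 8796093022208 8 8 = true := by decide +kernel
theorem cf97 (H : FarH) : FarBox 0 4398046511104 4398046511104 8796093022208 6 8 :=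
   (fM rfl (fT (fS (fM rfl (fT (fS (fT (H _ _ _ _ _ _ _ cf97_0) (H _ _ _ _ _ _ _ cf97_1)) (H _ _ _ _ _ _ _ cf97_2))
   (fS (H _ _ _ _ _ _ _ cf97_3) (H _ _ _ _ _ _ _ cf97_4))) (fT (fS (fT (H _ _ _ _ _ _ _ cf97_5) (H _ _ _ _ _ _ _
   cf97_6)) (H _ _ _ _ _ _ _ cf97_7)) (H _ _ _ _ _ _ _ cf97_8))) (fM rfl (H _ _ _ _ _ _ _ cf97_9) (H _ _ _ _ _ _ _
   cf97_10))) (fS (fM rfl (fT (fS (H _ _ _ _ _ _ _ cf97_11) (H _ _ _ _ _ _ _ cf97_12)) (H _ _ _ _ _ _ _ cf97_13)) (H _
   _ _ _ _ _ _ cf97_14)) (H _ _ _ _ _ _ _ cf97_15))) (fT (fS (H _ _ _ _ _ _ _ cf97_16) (H _ _ _ _ _ _ _ cf97_17)) (fS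
   (H _ _ _ _ _ _ _ cf97_18) (H _ _ _ _ _ _ _ cf97_19))))

theorem cf98_0 : chkFar
   (.sT (.sS (.D 8 0 0) (.D 7 0 0)) (.R 10 0))
    0 1099511627776 0 1099511627776 9 9 = true := by decide +kernel
theorem cf98_1 : chkFar
   (.D 7 0 0)
    1099511627776 2199023255552 0 1099511627776 9 9 = true := by decide +kernel
theorem cf98_2 : chkFar
   (.sS (.sT (.R 10 0) (.R 10 0)) (.R 7 0))
    0 2199023255552 1099511627776 2199023255552 9 9 = true := by decide +kernel
theorem cf98_3 : chkFar
   (.sT (.sS (.D 8 0 0) (.D 8 0 0)) (.R 8 0))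
    0 1099511627776 0 1099511627776 10 10 = true := by decide +kernel
theorem cf98_4 : chkFar
   (.D 7 0 0)
    1099511627776 2199023255552 0 1099511627776 10 10 = true := by decide +kernel
theorem cf98_5 : chkFar
   (.sS (.sT (.R 10 0) (.R 10 0)) (.R 7 0))
    0 2199023255552 1099511627776 2199023255552 10 10 = true := by decide +kernel
theorem cf98_6 : chkFar
   (.sM (.D 7 0 0) (.D 7 0 0))
    2199023255552 4398046511104 0 2199023255552 9 10 = true := by decide +kernel
theorem cf98_7 : chkFar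
   (.sT (.sS (.sT (.R 10 0) (.R 10 0)) (.R 8 0)) (.sS (.R 12 0) (.R 8 0)))
    0 2199023255552 2199023255552 4398046511104 9 9 = true := by decide +kernel
theorem cf98_8 : chkFar
   (.sT (.sS (.R 10 0) (.R 8 0)) (.sS (.R 10 0) (.R 8 0)))
    0 2199023255552 2199023255552 4398046511104 10 10 = true := by decide +kernel
theorem cf98_9 : chkFar
   (.sM (.R 8 0) (.R 8 0))
    2199023255552 4398046511104 2199023255552 4398046511104 9 10 = true := by decide +kernel
theorem cf98_10 : chkFar
   (.sS (.sT (.D 10 0 0) (.R 10 0)) (.D 8 0 0))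
    0 2199023255552 0 1099511627776 11 11 = true := by decide +kernel
theorem cf98_11 : chkFar
   (.sS (.R 10 0) (.R 7 0))
    0 2199023255552 1099511627776 2199023255552 11 11 = true := by decide +kernel
theorem cf98_12 : chkFar
   (.D 7 0 0)
    2199023255552 4398046511104 0 2199023255552 11 11 = true := by decide +kernel
theorem cf98_13 : chkFar
   (.sS (.sT (.sS (.R 10 0) (.R 8 0)) (.sS (.R 10 0) (.R 8 0))) (.R 8 0))
    0 4398046511104 2199023255552 4398046511104 11 11 = true := by decide +kernel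
theorem cf98_14 : chkFar
   (.sT (.sS (.R 12 0) (.R 10 0)) (.sS (.R 12 0) (.R 10 0)))
    0 2199023255552 4398046511104 6597069766656 9 9 = true := by decide +kernel
theorem cf98_15 : chkFar
   (.sT (.sS (.R 12 0) (.R 10 0)) (.sS (.R 12 0) (.R 10 0)))
    0 2199023255552 4398046511104 6597069766656 10 10 = true := by decide +kernel
theorem cf98_16 : chkFar
   (.sM (.R 10 0) (.R 10 0))
    2199023255552 4398046511104 4398046511104 6597069766656 9 10 = true := by decide +kernel
theorem cf98_17 : chkFar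
   (.sT (.sS (.R 12 0) (.R 10 0)) (.sS (.R 12 0) (.R 10 0)))
    0 2199023255552 6597069766656 8796093022208 9 9 = true := by decide +kernel
theorem cf98_18 : chkFar
   (.sT (.sS (.R 12 0) (.R 10 0)) (.R 17 0))
    0 2199023255552 6597069766656 8796093022208 10 10 = true := by decide +kernel
theorem cf98_19 : chkFar
   (.sM (.R 12 0) (.R 12 0))
    2199023255552 4398046511104 6597069766656 8796093022208 9 10 = true := by decide +kernel
theorem cf98_20 : chkFar
   (.sS (.sT (.sS (.R 10 0) (.R 10 0)) (.sS (.R 12 0) (.R 10 0))) (.R 10 0))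
    0 4398046511104 4398046511104 6597069766656 11 11 = true := by decide +kernel
theorem cf98_21 : chkFar
   (.sS (.sT (.R 14 0) (.R 14 0)) (.R 12 0))
    0 4398046511104 6597069766656 8796093022208 11 11 = true := by decide +kernel
theorem cf98 (H : FarH) : FarBox 0 4398046511104 0 8796093022208 9 11 :=
   (fT (fM rfl (fT (fS (fM rfl (fT (fS (H _ _ _ _ _ _ _ cf98_0) (H _ _ _ _ _ _ _ cf98_1)) (H _ _ _ _ _ _ _ cf98_2))
   (fT (fS (H _ _ _ _ _ _ _ cf98_3) (H _ _ _ _ _ _ _ cf98_4)) (H _ _ _ _ _ _ _ cf98_5))) (H _ _ _ _ _ _ _ cf98_6)) (fS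
   (fM rfl (H _ _ _ _ _ _ _ cf98_7) (H _ _ _ _ _ _ _ cf98_8)) (H _ _ _ _ _ _ _ cf98_9))) (fT (fS (fT (H _ _ _ _ _ _ _
   cf98_10) (H _ _ _ _ _ _ _ cf98_11)) (H _ _ _ _ _ _ _ cf98_12)) (H _ _ _ _ _ _ _ cf98_13))) (fM rfl (fT (fS (fM rfl
   (H _ _ _ _ _ _ _ cf98_14) (H _ _ _ _ _ _ _ cf98_15)) (H _ _ _ _ _ _ _ cf98_16)) (fS (fM rfl (H _ _ _ _ _ _ _
   cf98_17) (H _ _ _ _ _ _ _ cf98_18)) (H _ _ _ _ _ _ _ cf98_19))) (fT (H _ _ _ _ _ _ _ cf98_20) (H _ _ _ _ _ _ _
   cf98_21))))

theorem cf99_0 : chkFar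
   (.sM (.R 17 0) (.sT (.R 14 0) (.R 14 0)))
    0 2199023255552 8796093022208 10995116277760 6 7 = true := by decide +kernel
theorem cf99_1 : chkFar
   (.R 17 0)
    2199023255552 4398046511104 8796093022208 10995116277760 6 7 = true := by decide +kernel
theorem cf99_2 : chkFar
   (.sS (.R 28 0) (.R 17 0))
    0 4398046511104 10995116277760 13194139533312 6 7 = true := by decide +kernel
theorem cf99_3 : chkFar
   (.sS (.sT (.R 17 0) (.R 17 0)) (.R 14 0))
    0 4398046511104 8796093022208 10995116277760 8 8 = true := by decide +kernel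
theorem cf99_4 : chkFar
   (.sS (.R 20 0) (.R 14 0))
    0 4398046511104 10995116277760 13194139533312 8 8 = true := by decide +kernel
theorem cf99_5 : chkFar
   (.sS (.R 20 0) (.R 17 0))
    0 4398046511104 13194139533312 15393162788864 6 7 = true := by decide +kernel
theorem cf99_6 : chkFar
   (.sS (.R 17 0) (.R 17 0))
    0 4398046511104 15393162788864 17592186044416 6 7 = true := by decide +kernel
theorem cf99_7 : chkFar
   (.sS (.R 17 0) (.R 14 0))
    0 4398046511104 13194139533312 15393162788864 8 8 = true := by decide +kernel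
theorem cf99_8 : chkFar
   (.R 34 0)
    0 4398046511104 15393162788864 17592186044416 8 8 = true := by decide +kernel
theorem cf99_9 : chkFar
   (.sT (.R 17 0) (.R 17 0))
    0 2199023255552 8796093022208 10995116277760 9 9 = true := by decide +kernel
theorem cf99_10 : chkFar
   (.sT (.R 17 0) (.R 17 0))
    0 2199023255552 8796093022208 10995116277760 10 10 = true := by decide +kernel
theorem cf99_11 : chkFar
   (.sM (.R 14 0) (.R 14 0))
    2199023255552 4398046511104 8796093022208 10995116277760 9 10 = true := by decide +kernel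
theorem cf99_12 : chkFar
   (.sT (.R 17 0) (.R 17 0))
    0 2199023255552 10995116277760 13194139533312 9 9 = true := by decide +kernel
theorem cf99_13 : chkFar
   (.sT (.R 17 0) (.R 17 0))
    0 2199023255552 10995116277760 13194139533312 10 10 = true := by decide +kernel
theorem cf99_14 : chkFar
   (.R 24 0)
    2199023255552 4398046511104 10995116277760 13194139533312 9 10 = true := by decide +kernel
theorem cf99_15 : chkFar
   (.sS (.sT (.R 14 0) (.R 17 0)) (.R 12 0))
    0 4398046511104 8796093022208 10995116277760 11 11 = true := by decide +kernel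
theorem cf99_16 : chkFar
   (.sS (.sT (.R 17 0) (.R 17 0)) (.R 14 0))
    0 4398046511104 10995116277760 13194139533312 11 11 = true := by decide +kernel
theorem cf99_17 : chkFar
   (.sM (.R 20 0) (.R 20 0))
    0 2199023255552 13194139533312 15393162788864 9 10 = true := by decide +kernel
theorem cf99_18 : chkFar
   (.R 20 0)
    2199023255552 4398046511104 13194139533312 15393162788864 9 10 = true := by decide +kernel
theorem cf99_19 : chkFar
   (.sS (.sM (.R 20 0) (.R 20 0)) (.R 17 0))
    0 4398046511104 15393162788864 17592186044416 9 10 = true := by decide +kernel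
theorem cf99_20 : chkFar
   (.sS (.R 20 0) (.R 17 0))
    0 4398046511104 13194139533312 15393162788864 11 11 = true := by decide +kernel
theorem cf99_21 : chkFar
   (.sS (.R 20 0) (.R 17 0))
    0 4398046511104 15393162788864 17592186044416 11 11 = true := by decide +kernel
theorem cf99 (H : FarH) : FarBox 0 4398046511104 8796093022208 17592186044416 6 11 :=
   (fM rfl (fT (fM rfl (fT (fS (H _ _ _ _ _ _ _ cf99_0) (H _ _ _ _ _ _ _ cf99_1)) (H _ _ _ _ _ _ _ cf99_2)) (fT (H _ _
   _ _ _ _ _ cf99_3) (H _ _ _ _ _ _ _ cf99_4))) (fM rfl (fT (H _ _ _ _ _ _ _ cf99_5) (H _ _ _ _ _ _ _ cf99_6)) (fT (H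
   _ _ _ _ _ _ _ cf99_7) (H _ _ _ _ _ _ _ cf99_8)))) (fT (fM rfl (fT (fS (fM rfl (H _ _ _ _ _ _ _ cf99_9) (H _ _ _ _ _
   _ _ cf99_10)) (H _ _ _ _ _ _ _ cf99_11)) (fS (fM rfl (H _ _ _ _ _ _ _ cf99_12) (H _ _ _ _ _ _ _ cf99_13)) (H _ _ _
   _ _ _ _ cf99_14))) (fT (H _ _ _ _ _ _ _ cf99_15) (H _ _ _ _ _ _ _ cf99_16))) (fM rfl (fT (fS (H _ _ _ _ _ _ _
   cf99_17) (H _ _ _ _ _ _ _ cf99_18)) (H _ _ _ _ _ _ _ cf99_19)) (fT (H _ _ _ _ _ _ _ cf99_20) (H _ _ _ _ _ _ _
   cf99_21)))))


end Crest.Agent.R086.N
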