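import Crest.Agent.R086.N.Spl

/-! generated certificate -/

namespace Crest.Agent.R086.N

set_option maxRecDepth 100000
set_option Elab.async false

theorem cf100_0 : chkFar
   (.sS (.R 17 0) (.R 14 0))
    0 4398046511104 17592186044416 19791209299968 0 2 = true := by decide +kernel
theorem cf100_1 : chkFar
   (.sS (.R 14 0) (.R 12 0))
    0 4398046511104 19791209299968 21990232555520 0 2 = true := by decide +kernel
theorem cf100_2 : chkFar
   (.sS (.R 17 0) (.R 17 0))
    0 4398046511104 17592186044416 19791209299968 3 5 = true := by decide +kernel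
theorem cf100_3 : chkFar
   (.sS (.R 17 0) (.R 14 0))
    0 4398046511104 19791209299968 21990232555520 3 5 = true := by decide +kernel
theorem cf100_4 : chkFar
   (.sT (.sS (.R 12 0) (.R 10 0)) (.sS (.R 10 0) (.R 10 0)))
    0 4398046511104 21990232555520 26388279066624 0 2 = true := by decide +kernel
theorem cf100_5 : chkFar
   (.sS (.R 17 0) (.R 14 0))
    0 4398046511104 21990232555520 24189255811072 3 5 = true := by decide +kernel
theorem cf100_6 : chkFar
   (.sS (.R 14 0) (.R 12 0))
    0 4398046511104 24189255811072 26388279066624 3 5 = true := by decide +kernel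
theorem cf100_7 : chkFar
   (.sT (.sS (.R 10 0) (.R 10 0)) (.sS (.R 10 0) (.R 8 0)))
    0 4398046511104 26388279066624 30786325577728 0 2 = true := by decide +kernel
theorem cf100_8 : chkFar
   (.sT (.sS (.R 14 0) (.R 12 0)) (.sS (.R 12 0) (.R 10 0)))
    0 4398046511104 26388279066624 30786325577728 3 5 = true := by decide +kernel
theorem cf100_9 : chkFar
   (.sT (.sS (.R 10 0) (.R 8 0)) (.sS (.R 8 0) (.R 8 0)))
    0 4398046511104 30786325577728 35184372088832 0 2 = true := by decide +kernel
theorem cf100_10 : chkFar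
   (.sT (.sS (.R 10 0) (.R 10 0)) (.sS (.R 10 0) (.R 8 0)))
    0 4398046511104 30786325577728 35184372088832 3 5 = true := by decide +kernel
theorem cf100 (H : FarH) : FarBox 0 4398046511104 17592186044416 35184372088832 0 5 :=
   (fT (fT (fM rfl (fT (H _ _ _ _ _ _ _ cf100_0) (H _ _ _ _ _ _ _ cf100_1)) (fT (H _ _ _ _ _ _ _ cf100_2) (H _ _ _ _ _
   _ _ cf100_3))) (fM rfl (H _ _ _ _ _ _ _ cf100_4) (fT (H _ _ _ _ _ _ _ cf100_5) (H _ _ _ _ _ _ _ cf100_6)))) (fT (fM
   rfl (H _ _ _ _ _ _ _ cf100_7) (H _ _ _ _ _ _ _ cf100_8)) (fM rfl (H _ _ _ _ _ _ _ cf100_9) (H _ _ _ _ _ _ _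
   cf100_10))))

theorem cf101_0 : chkFar
   (.sS (.R 17 0) (.R 14 0))
    0 4398046511104 17592186044416 19791209299968 6 7 = true := by decide +kernel
theorem cf101_1 : chkFar
   (.sS (.R 17 0) (.R 14 0))
    0 4398046511104 19791209299968 21990232555520 6 7 = true := by decide +kernel
theorem cf101_2 : chkFar
   (.R 40 0)
    0 4398046511104 17592186044416 19791209299968 8 8 = true := by decide +kernel
theorem cf101_3 : chkFar
   (.R 40 0)
    0 4398046511104 19791209299968 21990232555520 8 8 = true := by decide +kernel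
theorem cf101_4 : chkFar
   (.sS (.R 17 0) (.R 14 0))
    0 4398046511104 21990232555520 24189255811072 6 7 = true := by decide +kernel
theorem cf101_5 : chkFar
   (.sS (.R 17 0) (.R 14 0))
    0 4398046511104 24189255811072 26388279066624 6 7 = true := by decide +kernel
theorem cf101_6 : chkFar
   (.R 40 0)
    0 4398046511104 21990232555520 24189255811072 8 8 = true := by decide +kernel
theorem cf101_7 : chkFar
   (.R 40 0)
    0 4398046511104 24189255811072 26388279066624 8 8 = true := by decide +kernel
theorem cf101_8 : chkFar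
   (.sS (.R 24 0) (.R 17 0))
    0 4398046511104 17592186044416 19791209299968 9 10 = true := by decide +kernel
theorem cf101_9 : chkFar
   (.sS (.R 20 0) (.R 17 0))
    0 4398046511104 19791209299968 21990232555520 9 10 = true := by decide +kernel
theorem cf101_10 : chkFar
   (.sS (.R 20 0) (.R 17 0))
    0 4398046511104 17592186044416 19791209299968 11 11 = true := by decide +kernel
theorem cf101_11 : chkFar
   (.R 34 0)
    0 4398046511104 19791209299968 21990232555520 11 11 = true := by decide +kernel
theorem cf101_12 : chkFar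
   (.R 40 0)
    0 4398046511104 21990232555520 24189255811072 9 10 = true := by decide +kernel
theorem cf101_13 : chkFar
   (.R 40 0)
    0 4398046511104 24189255811072 26388279066624 9 10 = true := by decide +kernel
theorem cf101_14 : chkFar
   (.R 34 0)
    0 4398046511104 21990232555520 24189255811072 11 11 = true := by decide +kernel
theorem cf101_15 : chkFar
   (.R 34 0)
    0 4398046511104 24189255811072 26388279066624 11 11 = true := by decide +kernel
theorem cf101_16 : chkFar
   (.sT (.sS (.R 14 0) (.R 12 0)) (.sS (.R 14 0) (.R 12 0)))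
    0 4398046511104 26388279066624 30786325577728 6 7 = true := by decide +kernel
theorem cf101_17 : chkFar
   (.R 40 0)
    0 4398046511104 26388279066624 28587302322176 8 8 = true := by decide +kernel
theorem cf101_18 : chkFar
   (.R 40 0)
    0 4398046511104 28587302322176 30786325577728 8 8 = true := by decide +kernel
theorem cf101_19 : chkFar
   (.sT (.sS (.R 12 0) (.R 10 0)) (.sS (.R 12 0) (.R 8 0)))
    0 4398046511104 30786325577728 35184372088832 6 7 = true := by decide +kernel
theorem cf101_20 : chkFar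
   (.R 40 0)
    0 4398046511104 30786325577728 32985348833280 8 8 = true := by decide +kernel
theorem cf101_21 : chkFar
   (.R 40 0)
    0 4398046511104 32985348833280 35184372088832 8 8 = true := by decide +kernel
theorem cf101_22 : chkFar
   (.R 40 0)
    0 4398046511104 26388279066624 28587302322176 9 10 = true := by decide +kernel
theorem cf101_23 : chkFar
   (.R 40 0)
    0 4398046511104 28587302322176 30786325577728 9 10 = true := by decide +kernel
theorem cf101_24 : chkFar
   (.R 34 0)
    0 4398046511104 26388279066624 28587302322176 11 11 = true := by decide +kernel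
theorem cf101_25 : chkFar
   (.R 34 0)
    0 4398046511104 28587302322176 30786325577728 11 11 = true := by decide +kernel
theorem cf101_26 : chkFar
   (.R 40 0)
    0 4398046511104 30786325577728 32985348833280 9 10 = true := by decide +kernel
theorem cf101_27 : chkFar
   (.R 40 0)
    0 4398046511104 32985348833280 35184372088832 9 10 = true := by decide +kernel
theorem cf101_28 : chkFar
   (.R 34 0)
    0 4398046511104 30786325577728 32985348833280 11 11 = true := by decide +kernel
theorem cf101_29 : chkFar
   (.R 34 0)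
    0 4398046511104 32985348833280 35184372088832 11 11 = true := by decide +kernel
theorem cf101 (H : FarH) : FarBox 0 4398046511104 17592186044416 35184372088832 6 11 :=
   (fT (fM rfl (fT (fM rfl (fT (H _ _ _ _ _ _ _ cf101_0) (H _ _ _ _ _ _ _ cf101_1)) (fT (H _ _ _ _ _ _ _ cf101_2) (H _
   _ _ _ _ _ _ cf101_3))) (fM rfl (fT (H _ _ _ _ _ _ _ cf101_4) (H _ _ _ _ _ _ _ cf101_5)) (fT (H _ _ _ _ _ _ _
   cf101_6) (H _ _ _ _ _ _ _ cf101_7)))) (fT (fM rfl (fT (H _ _ _ _ _ _ _ cf101_8) (H _ _ _ _ _ _ _ cf101_9)) (fT (H _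
   _ _ _ _ _ _ cf101_10) (H _ _ _ _ _ _ _ cf101_11))) (fM rfl (fT (H _ _ _ _ _ _ _ cf101_12) (H _ _ _ _ _ _ _
   cf101_13)) (fT (H _ _ _ _ _ _ _ cf101_14) (H _ _ _ _ _ _ _ cf101_15))))) (fM rfl (fT (fM rfl (H _ _ _ _ _ _ _
   cf101_16) (fT (H _ _ _ _ _ _ _ cf101_17) (H _ _ _ _ _ _ _ cf101_18))) (fM rfl (H _ _ _ _ _ _ _ cf101_19) (fT (H _ _
   _ _ _ _ _ cf101_20) (H _ _ _ _ _ _ _ cf101_21)))) (fT (fM rfl (fT (H _ _ _ _ _ _ _ cf101_22) (H _ _ _ _ _ _ _
   cf101_23)) (fT (H _ _ _ _ _ _ _ cf101_24) (H _ _ _ _ _ _ _ cf101_25))) (fM rfl (fT (H _ _ _ _ _ _ _ cf101_26) (H _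
   _ _ _ _ _ _ cf101_27)) (fT (H _ _ _ _ _ _ _ cf101_28) (H _ _ _ _ _ _ _ cf101_29))))))

theorem cf102_0 : chkFar
   (.sM (.sT .A (.sS (.sM (.sT (.sS (.R 10 0) (.R 8 0)) (.sS (.R 10 0) (.R 8 0))) .A) (.sM (.R 8 0) .A))) .A)
    0 4398046511104 0 4398046511104 12 14 = true := by decide +kernel
theorem cf102_1 : chkFar
   (.sM (.sT (.R 14 0) (.R 14 0)) (.sT (.R 12 0) (.R 12 0)))
    0 2199023255552 4398046511104 6597069766656 12 13 = true := by decide +kernel
theorem cf102_2 : chkFar
   (.sM (.R 10 0) (.R 10 0))
    2199023255552 4398046511104 4398046511104 6597069766656 12 13 = true := by decide +kernel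
theorem cf102_3 : chkFar
   (.sM (.sT (.R 14 0) (.R 14 0)) (.sT (.R 12 0) (.R 14 0)))
    0 2199023255552 6597069766656 8796093022208 12 13 = true := by decide +kernel
theorem cf102_4 : chkFar
   (.sM (.R 12 0) (.R 12 0))
    2199023255552 4398046511104 6597069766656 8796093022208 12 13 = true := by decide +kernel
theorem cf102_5 : chkFar
   (.sT .A (.sS (.sT .A (.R 14 0)) (.R 10 0)))
    0 4398046511104 4398046511104 8796093022208 14 14 = true := by decide +kernel
theorem cf102_6 : chkFar
   (.sM (.sT (.R 14 0) (.R 14 0)) (.sT (.R 14 0) (.R 14 0)))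
    0 2199023255552 8796093022208 10995116277760 12 13 = true := by decide +kernel
theorem cf102_7 : chkFar
   (.sM (.R 12 0) (.R 12 0))
    2199023255552 4398046511104 8796093022208 10995116277760 12 13 = true := by decide +kernel
theorem cf102_8 : chkFar
   (.sM (.sT (.R 17 0) (.R 17 0)) (.R 20 0))
    0 2199023255552 10995116277760 13194139533312 12 13 = true := by decide +kernel
theorem cf102_9 : chkFar
   (.R 24 0)
    2199023255552 4398046511104 10995116277760 13194139533312 12 13 = true := by decide +kernel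
theorem cf102_10 : chkFar
   (.sS (.R 17 0) (.R 12 0))
    0 4398046511104 8796093022208 10995116277760 14 14 = true := by decide +kernel
theorem cf102_11 : chkFar
   (.sS (.R 20 0) (.R 14 0))
    0 4398046511104 10995116277760 13194139533312 14 14 = true := by decide +kernel
theorem cf102_12 : chkFar
   (.sM (.R 20 0) (.R 20 0))
    0 2199023255552 13194139533312 15393162788864 12 13 = true := by decide +kernel
theorem cf102_13 : chkFar
   (.R 20 0)
    2199023255552 4398046511104 13194139533312 15393162788864 12 13 = true := by decide +kernel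
theorem cf102_14 : chkFar
   (.sM (.R 20 0) (.R 20 0))
    0 2199023255552 15393162788864 17592186044416 12 13 = true := by decide +kernel
theorem cf102_15 : chkFar
   (.R 20 0)
    2199023255552 4398046511104 15393162788864 17592186044416 12 13 = true := by decide +kernel
theorem cf102_16 : chkFar
   (.sS (.R 20 0) (.R 17 0))
    0 4398046511104 13194139533312 15393162788864 14 14 = true := by decide +kernel
theorem cf102_17 : chkFar
   (.sS (.R 20 0) (.R 17 0))
    0 4398046511104 15393162788864 17592186044416 14 14 = true := by decide +kernel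
theorem cf102_18 : chkFar
   .A
    0 4398046511104 0 8796093022208 15 17 = true := by decide +kernel
theorem cf102_19 : chkFar
   (.sS (.sM (.R 17 0) .A) (.R 14 0))
    0 4398046511104 8796093022208 10995116277760 15 16 = true := by decide +kernel
theorem cf102_20 : chkFar
   (.sS (.sM (.R 17 0) .A) (.R 17 0))
    0 4398046511104 10995116277760 13194139533312 15 16 = true := by decide +kernel
theorem cf102_21 : chkFar
   .A
    0 4398046511104 8796093022208 13194139533312 17 17 = true := by decide +kernel
theorem cf102_22 : chkFar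
   (.sM (.R 20 0) (.R 20 0))
    0 2199023255552 13194139533312 15393162788864 15 16 = true := by decide +kernel
theorem cf102_23 : chkFar
   (.R 20 0)
    2199023255552 4398046511104 13194139533312 15393162788864 15 16 = true := by decide +kernel
theorem cf102_24 : chkFar
   (.sM (.R 20 0) (.R 20 0))
    0 2199023255552 15393162788864 17592186044416 15 16 = true := by decide +kernel
theorem cf102_25 : chkFar
   (.R 20 0)
    2199023255552 4398046511104 15393162788864 17592186044416 15 16 = true := by decide +kernel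
theorem cf102_26 : chkFar
   (.sT .A (.sS (.R 20 0) (.R 17 0)))
    0 4398046511104 13194139533312 17592186044416 17 17 = true := by decide +kernel
theorem cf102 (H : FarH) : FarBox 0 4398046511104 0 17592186044416 12 17 :=
   (fM rfl (fT (fT (H _ _ _ _ _ _ _ cf102_0) (fM rfl (fT (fS (H _ _ _ _ _ _ _ cf102_1) (H _ _ _ _ _ _ _ cf102_2)) (fS
   (H _ _ _ _ _ _ _ cf102_3) (H _ _ _ _ _ _ _ cf102_4))) (H _ _ _ _ _ _ _ cf102_5))) (fT (fM rfl (fT (fS (H _ _ _ _ _
   _ _ cf102_6) (H _ _ _ _ _ _ _ cf102_7)) (fS (H _ _ _ _ _ _ _ cf102_8) (H _ _ _ _ _ _ _ cf102_9))) (fT (H _ _ _ _ _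
   _ _ cf102_10) (H _ _ _ _ _ _ _ cf102_11))) (fM rfl (fT (fS (H _ _ _ _ _ _ _ cf102_12) (H _ _ _ _ _ _ _ cf102_13))
   (fS (H _ _ _ _ _ _ _ cf102_14) (H _ _ _ _ _ _ _ cf102_15))) (fT (H _ _ _ _ _ _ _ cf102_16) (H _ _ _ _ _ _ _
   cf102_17))))) (fT (H _ _ _ _ _ _ _ cf102_18) (fT (fM rfl (fT (H _ _ _ _ _ _ _ cf102_19) (H _ _ _ _ _ _ _ cf102_20))
   (H _ _ _ _ _ _ _ cf102_21)) (fM rfl (fT (fS (H _ _ _ _ _ _ _ cf102_22) (H _ _ _ _ _ _ _ cf102_23)) (fS (H _ _ _ _ _
   _ _ cf102_24) (H _ _ _ _ _ _ _ cf102_25))) (H _ _ _ _ _ _ _ cf102_26)))))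

theorem cf103_0 : chkFar
   (.sM (.R 20 0) (.R 24 0))
    0 2199023255552 17592186044416 19791209299968 12 13 = true := by decide +kernel
theorem cf103_1 : chkFar
   (.R 20 0)
    2199023255552 4398046511104 17592186044416 19791209299968 12 13 = true := by decide +kernel
theorem cf103_2 : chkFar
   (.sM (.R 20 0) (.R 24 0))
    0 2199023255552 19791209299968 21990232555520 12 13 = true := by decide +kernel
theorem cf103_3 : chkFar
   (.R 20 0)
    2199023255552 4398046511104 19791209299968 21990232555520 12 13 = true := by decide +kernel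
theorem cf103_4 : chkFar
   (.sS (.R 24 0) (.R 17 0))
    0 4398046511104 17592186044416 19791209299968 14 14 = true := by decide +kernel
theorem cf103_5 : chkFar
   (.sS (.R 24 0) (.R 20 0))
    0 4398046511104 19791209299968 21990232555520 14 14 = true := by decide +kernel
theorem cf103_6 : chkFar
   (.sS (.R 28 0) (.R 24 0))
    0 4398046511104 21990232555520 24189255811072 12 13 = true := by decide +kernel
theorem cf103_7 : chkFar
   (.sS (.R 24 0) (.R 24 0))
    0 4398046511104 24189255811072 26388279066624 12 13 = true := by decide +kernel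
theorem cf103_8 : chkFar
   (.sS (.R 24 0) (.R 20 0))
    0 4398046511104 21990232555520 24189255811072 14 14 = true := by decide +kernel
theorem cf103_9 : chkFar
   (.R 34 0)
    0 4398046511104 24189255811072 26388279066624 14 14 = true := by decide +kernel
theorem cf103_10 : chkFar
   (.sS (.R 24 0) (.R 24 0))
    0 4398046511104 26388279066624 28587302322176 12 13 = true := by decide +kernel
theorem cf103_11 : chkFar
   (.R 40 0)
    0 4398046511104 28587302322176 30786325577728 12 13 = true := by decide +kernel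
theorem cf103_12 : chkFar
   (.R 34 0)
    0 4398046511104 26388279066624 28587302322176 14 14 = true := by decide +kernel
theorem cf103_13 : chkFar
   (.R 34 0)
    0 4398046511104 28587302322176 30786325577728 14 14 = true := by decide +kernel
theorem cf103_14 : chkFar
   (.R 40 0)
    0 4398046511104 30786325577728 32985348833280 12 13 = true := by decide +kernel
theorem cf103_15 : chkFar
   (.R 40 0)
    0 4398046511104 32985348833280 35184372088832 12 13 = true := by decide +kernel
theorem cf103_16 : chkFar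
   (.R 34 0)
    0 4398046511104 30786325577728 32985348833280 14 14 = true := by decide +kernel
theorem cf103_17 : chkFar
   (.R 34 0)
    0 4398046511104 32985348833280 35184372088832 14 14 = true := by decide +kernel
theorem cf103 (H : FarH) : FarBox 0 4398046511104 17592186044416 35184372088832 12 14 :=
   (fT (fT (fM rfl (fT (fS (H _ _ _ _ _ _ _ cf103_0) (H _ _ _ _ _ _ _ cf103_1)) (fS (H _ _ _ _ _ _ _ cf103_2) (H _ _ _
   _ _ _ _ cf103_3))) (fT (H _ _ _ _ _ _ _ cf103_4) (H _ _ _ _ _ _ _ cf103_5))) (fM rfl (fT (H _ _ _ _ _ _ _ cf103_6)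
   (H _ _ _ _ _ _ _ cf103_7)) (fT (H _ _ _ _ _ _ _ cf103_8) (H _ _ _ _ _ _ _ cf103_9)))) (fT (fM rfl (fT (H _ _ _ _ _
   _ _ cf103_10) (H _ _ _ _ _ _ _ cf103_11)) (fT (H _ _ _ _ _ _ _ cf103_12) (H _ _ _ _ _ _ _ cf103_13))) (fM rfl (fT
   (H _ _ _ _ _ _ _ cf103_14) (H _ _ _ _ _ _ _ cf103_15)) (fT (H _ _ _ _ _ _ _ cf103_16) (H _ _ _ _ _ _ _
   cf103_17)))))


end Crest.Agent.R086.N
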