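import Crest.Agent.R086.N.Spl

/-! generated certificate -/

namespace Crest.Agent.R086.N

set_option maxRecDepth 100000
set_option Elab.async false

theorem cf104_0 : chkFar
   (.sM (.R 20 0) (.R 20 0))
    0 2199023255552 17592186044416 19791209299968 15 16 = true := by decide +kernel
theorem cf104_1 : chkFar
   (.R 20 0)
    2199023255552 4398046511104 17592186044416 19791209299968 15 16 = true := by decide +kernel
theorem cf104_2 : chkFar
   (.sM (.R 24 0) (.R 24 0))
    0 2199023255552 19791209299968 21990232555520 15 16 = true := by decide +kernel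
theorem cf104_3 : chkFar
   (.R 24 0)
    2199023255552 4398046511104 19791209299968 21990232555520 15 16 = true := by decide +kernel
theorem cf104_4 : chkFar
   (.sS (.R 20 0) (.R 17 0))
    0 4398046511104 17592186044416 19791209299968 17 17 = true := by decide +kernel
theorem cf104_5 : chkFar
   (.sS (.R 24 0) (.R 20 0))
    0 4398046511104 19791209299968 21990232555520 17 17 = true := by decide +kernel
theorem cf104_6 : chkFar
   (.sM (.R 24 0) (.R 24 0))
    0 2199023255552 21990232555520 24189255811072 15 16 = true := by decide +kernel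
theorem cf104_7 : chkFar
   (.R 24 0)
    2199023255552 4398046511104 21990232555520 24189255811072 15 16 = true := by decide +kernel
theorem cf104_8 : chkFar
   (.sM (.R 24 0) (.R 24 0))
    0 2199023255552 24189255811072 26388279066624 15 16 = true := by decide +kernel
theorem cf104_9 : chkFar
   (.R 24 0)
    2199023255552 4398046511104 24189255811072 26388279066624 15 16 = true := by decide +kernel
theorem cf104_10 : chkFar
   (.sS (.R 24 0) (.R 20 0))
    0 4398046511104 21990232555520 24189255811072 17 17 = true := by decide +kernel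
theorem cf104_11 : chkFar
   (.R 34 0)
    0 4398046511104 24189255811072 26388279066624 17 17 = true := by decide +kernel
theorem cf104_12 : chkFar
   (.sM (.R 24 0) (.R 24 0))
    0 2199023255552 26388279066624 28587302322176 15 16 = true := by decide +kernel
theorem cf104_13 : chkFar
   (.R 24 0)
    2199023255552 4398046511104 26388279066624 28587302322176 15 16 = true := by decide +kernel
theorem cf104_14 : chkFar
   (.sS (.R 34 0) (.R 24 0))
    0 4398046511104 28587302322176 30786325577728 15 16 = true := by decide +kernel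
theorem cf104_15 : chkFar
   (.R 34 0)
    0 4398046511104 26388279066624 28587302322176 17 17 = true := by decide +kernel
theorem cf104_16 : chkFar
   (.R 34 0)
    0 4398046511104 28587302322176 30786325577728 17 17 = true := by decide +kernel
theorem cf104_17 : chkFar
   (.sS (.R 28 0) (.R 28 0))
    0 4398046511104 30786325577728 32985348833280 15 16 = true := by decide +kernel
theorem cf104_18 : chkFar
   (.sS (.R 28 0) (.R 28 0))
    0 4398046511104 32985348833280 35184372088832 15 16 = true := by decide +kernel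
theorem cf104_19 : chkFar
   (.R 34 0)
    0 4398046511104 30786325577728 32985348833280 17 17 = true := by decide +kernel
theorem cf104_20 : chkFar
   (.R 40 0)
    0 4398046511104 32985348833280 35184372088832 17 17 = true := by decide +kernel
theorem cf104 (H : FarH) : FarBox 0 4398046511104 17592186044416 35184372088832 15 17 :=
   (fT (fT (fM rfl (fT (fS (H _ _ _ _ _ _ _ cf104_0) (H _ _ _ _ _ _ _ cf104_1)) (fS (H _ _ _ _ _ _ _ cf104_2) (H _ _ _
   _ _ _ _ cf104_3))) (fT (H _ _ _ _ _ _ _ cf104_4) (H _ _ _ _ _ _ _ cf104_5))) (fM rfl (fT (fS (H _ _ _ _ _ _ _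
   cf104_6) (H _ _ _ _ _ _ _ cf104_7)) (fS (H _ _ _ _ _ _ _ cf104_8) (H _ _ _ _ _ _ _ cf104_9))) (fT (H _ _ _ _ _ _ _
   cf104_10) (H _ _ _ _ _ _ _ cf104_11)))) (fT (fM rfl (fT (fS (H _ _ _ _ _ _ _ cf104_12) (H _ _ _ _ _ _ _ cf104_13))
   (H _ _ _ _ _ _ _ cf104_14)) (fT (H _ _ _ _ _ _ _ cf104_15) (H _ _ _ _ _ _ _ cf104_16))) (fM rfl (fT (H _ _ _ _ _ _
   _ cf104_17) (H _ _ _ _ _ _ _ cf104_18)) (fT (H _ _ _ _ _ _ _ cf104_19) (H _ _ _ _ _ _ _ cf104_20)))))

theorem cf105_0 : chkFar
   .A
    0 4398046511104 0 17592186044416 18 23 = true := by decide +kernel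
theorem cf105_1 : chkFar
   (.sM (.sT .A (.R 34 0)) .A)
    0 4398046511104 17592186044416 21990232555520 18 19 = true := by decide +kernel
theorem cf105_2 : chkFar
   (.R 34 0)
    0 4398046511104 21990232555520 24189255811072 18 18 = true := by decide +kernel
theorem cf105_3 : chkFar
   (.R 34 0)
    0 4398046511104 24189255811072 26388279066624 18 18 = true := by decide +kernel
theorem cf105_4 : chkFar
   (.R 28 0)
    0 4398046511104 21990232555520 24189255811072 19 19 = true := by decide +kernel
theorem cf105_5 : chkFar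
   (.R 34 0)
    0 4398046511104 24189255811072 26388279066624 19 19 = true := by decide +kernel
theorem cf105_6 : chkFar
   .A
    0 4398046511104 17592186044416 26388279066624 20 20 = true := by decide +kernel
theorem cf105_7 : chkFar
   (.R 34 0)
    0 4398046511104 26388279066624 28587302322176 18 18 = true := by decide +kernel
theorem cf105_8 : chkFar
   (.R 34 0)
    0 4398046511104 28587302322176 30786325577728 18 18 = true := by decide +kernel
theorem cf105_9 : chkFar
   (.R 34 0)
    0 4398046511104 26388279066624 28587302322176 19 19 = true := by decide +kernel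
theorem cf105_10 : chkFar
   (.R 34 0)
    0 4398046511104 28587302322176 30786325577728 19 19 = true := by decide +kernel
theorem cf105_11 : chkFar
   (.R 34 0)
    0 4398046511104 30786325577728 32985348833280 18 18 = true := by decide +kernel
theorem cf105_12 : chkFar
   (.R 40 0)
    0 4398046511104 32985348833280 35184372088832 18 18 = true := by decide +kernel
theorem cf105_13 : chkFar
   (.R 34 0)
    0 4398046511104 30786325577728 32985348833280 19 19 = true := by decide +kernel
theorem cf105_14 : chkFar
   (.R 40 0)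
    0 4398046511104 32985348833280 35184372088832 19 19 = true := by decide +kernel
theorem cf105_15 : chkFar
   (.R 34 0)
    0 4398046511104 26388279066624 28587302322176 20 20 = true := by decide +kernel
theorem cf105_16 : chkFar
   (.R 34 0)
    0 4398046511104 28587302322176 30786325577728 20 20 = true := by decide +kernel
theorem cf105_17 : chkFar
   (.R 34 0)
    0 4398046511104 30786325577728 32985348833280 20 20 = true := by decide +kernel
theorem cf105_18 : chkFar
   (.R 34 0)
    0 4398046511104 32985348833280 35184372088832 20 20 = true := by decide +kernel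
theorem cf105_19 : chkFar
   .A
    0 4398046511104 17592186044416 26388279066624 21 23 = true := by decide +kernel
theorem cf105_20 : chkFar
   .A
    0 4398046511104 26388279066624 30786325577728 21 22 = true := by decide +kernel
theorem cf105_21 : chkFar
   (.R 34 0)
    0 4398046511104 30786325577728 32985348833280 21 21 = true := by decide +kernel
theorem cf105_22 : chkFar
   (.R 34 0)
    0 4398046511104 32985348833280 35184372088832 21 21 = true := by decide +kernel
theorem cf105_23 : chkFar
   .A
    0 4398046511104 30786325577728 35184372088832 22 22 = true := by decide +kernel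
theorem cf105_24 : chkFar
   .A
    0 4398046511104 26388279066624 35184372088832 23 23 = true := by decide +kernel
theorem cf105 (H : FarH) : FarBox 0 4398046511104 0 35184372088832 18 23 :=
   (fT (H _ _ _ _ _ _ _ cf105_0) (fM rfl (fT (fM rfl (fT (H _ _ _ _ _ _ _ cf105_1) (fM rfl (fT (H _ _ _ _ _ _ _
   cf105_2) (H _ _ _ _ _ _ _ cf105_3)) (fT (H _ _ _ _ _ _ _ cf105_4) (H _ _ _ _ _ _ _ cf105_5)))) (H _ _ _ _ _ _ _
   cf105_6)) (fM rfl (fT (fM rfl (fT (H _ _ _ _ _ _ _ cf105_7) (H _ _ _ _ _ _ _ cf105_8)) (fT (H _ _ _ _ _ _ _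
   cf105_9) (H _ _ _ _ _ _ _ cf105_10))) (fM rfl (fT (H _ _ _ _ _ _ _ cf105_11) (H _ _ _ _ _ _ _ cf105_12)) (fT (H _ _
   _ _ _ _ _ cf105_13) (H _ _ _ _ _ _ _ cf105_14)))) (fT (fT (H _ _ _ _ _ _ _ cf105_15) (H _ _ _ _ _ _ _ cf105_16))
   (fT (H _ _ _ _ _ _ _ cf105_17) (H _ _ _ _ _ _ _ cf105_18))))) (fT (H _ _ _ _ _ _ _ cf105_19) (fM rfl (fT (H _ _ _ _
   _ _ _ cf105_20) (fM rfl (fT (H _ _ _ _ _ _ _ cf105_21) (H _ _ _ _ _ _ _ cf105_22)) (H _ _ _ _ _ _ _ cf105_23))) (H
   _ _ _ _ _ _ _ cf105_24)))))

theorem cna0_0 : chkNear (miN 0) (liN 0) (psiB 0)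
   (.X 7 0)
    0 4294967296 0 4294967296 = true := by decide +kernel
theorem cna0_1 : chkNear (miN 0) (liN 0) (psiB 0)
   (.X 7 0)
    0 4294967296 4294967296 8589934592 = true := by decide +kernel
theorem cna0_2 : chkNear (miN 0) (liN 0) (psiB 0)
   (.X 7 0)
    4294967296 8589934592 0 4294967296 = true := by decide +kernel
theorem cna0_3 : chkNear (miN 0) (liN 0) (psiB 0)
   (.X 7 0)
    4294967296 8589934592 4294967296 8589934592 = true := by decide +kernel
theorem cna0_4 : chkNear (miN 0) (liN 0) (psiB 0)
   (.X 7 0)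
    0 4294967296 8589934592 12884901888 = true := by decide +kernel
theorem cna0_5 : chkNear (miN 0) (liN 0) (psiB 0)
   (.X 7 0)
    0 4294967296 12884901888 17179869184 = true := by decide +kernel
theorem cna0_6 : chkNear (miN 0) (liN 0) (psiB 0)
   (.X 7 0)
    4294967296 8589934592 8589934592 12884901888 = true := by decide +kernel
theorem cna0_7 : chkNear (miN 0) (liN 0) (psiB 0)
   (.X 7 0)
    4294967296 8589934592 12884901888 17179869184 = true := by decide +kernel
theorem cna0_8 : chkNear (miN 0) (liN 0) (psiB 0)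
   (.X 7 0)
    8589934592 12884901888 0 4294967296 = true := by decide +kernel
theorem cna0_9 : chkNear (miN 0) (liN 0) (psiB 0)
   (.X 7 0)
    8589934592 12884901888 4294967296 8589934592 = true := by decide +kernel
theorem cna0_10 : chkNear (miN 0) (liN 0) (psiB 0)
   (.X 7 0)
    12884901888 17179869184 0 4294967296 = true := by decide +kernel
theorem cna0_11 : chkNear (miN 0) (liN 0) (psiB 0)
   (.X 7 0)
    12884901888 17179869184 4294967296 8589934592 = true := by decide +kernel
theorem cna0_12 : chkNear (miN 0) (liN 0) (psiB 0)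
   (.X 7 0)
    8589934592 12884901888 8589934592 12884901888 = true := by decide +kernel
theorem cna0_13 : chkNear (miN 0) (liN 0) (psiB 0)
   (.X 7 0)
    8589934592 12884901888 12884901888 17179869184 = true := by decide +kernel
theorem cna0_14 : chkNear (miN 0) (liN 0) (psiB 0)
   (.X 7 0)
    12884901888 17179869184 8589934592 12884901888 = true := by decide +kernel
theorem cna0_15 : chkNear (miN 0) (liN 0) (psiB 0)
   (.X 7 0)
    12884901888 17179869184 12884901888 17179869184 = true := by decide +kernel
theorem cna0_16 : chkNear (miN 0) (liN 0) (psiB 0)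
   (.X 7 0)
    0 4294967296 17179869184 21474836480 = true := by decide +kernel
theorem cna0_17 : chkNear (miN 0) (liN 0) (psiB 0)
   (.X 7 0)
    0 4294967296 21474836480 25769803776 = true := by decide +kernel
theorem cna0_18 : chkNear (miN 0) (liN 0) (psiB 0)
   (.X 7 0)
    4294967296 8589934592 17179869184 21474836480 = true := by decide +kernel
theorem cna0_19 : chkNear (miN 0) (liN 0) (psiB 0)
   (.X 7 0)
    4294967296 8589934592 21474836480 25769803776 = true := by decide +kernel
theorem cna0_20 : chkNear (miN 0) (liN 0) (psiB 0)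
   (.X 7 0)
    0 4294967296 25769803776 30064771072 = true := by decide +kernel
theorem cna0_21 : chkNear (miN 0) (liN 0) (psiB 0)
   (.X 7 0)
    0 4294967296 30064771072 34359738368 = true := by decide +kernel
theorem cna0_22 : chkNear (miN 0) (liN 0) (psiB 0)
   (.X 7 0)
    4294967296 8589934592 25769803776 30064771072 = true := by decide +kernel
theorem cna0_23 : chkNear (miN 0) (liN 0) (psiB 0)
   (.X 7 0)
    4294967296 8589934592 30064771072 34359738368 = true := by decide +kernel
theorem cna0_24 : chkNear (miN 0) (liN 0) (psiB 0)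
   (.X 7 0)
    8589934592 12884901888 17179869184 21474836480 = true := by decide +kernel
theorem cna0_25 : chkNear (miN 0) (liN 0) (psiB 0)
   (.X 7 0)
    8589934592 12884901888 21474836480 25769803776 = true := by decide +kernel
theorem cna0_26 : chkNear (miN 0) (liN 0) (psiB 0)
   (.X 7 0)
    12884901888 17179869184 17179869184 21474836480 = true := by decide +kernel
theorem cna0_27 : chkNear (miN 0) (liN 0) (psiB 0)
   (.X 7 0)
    12884901888 17179869184 21474836480 25769803776 = true := by decide +kernel
theorem cna0_28 : chkNear (miN 0) (liN 0) (psiB 0)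
   (.X 7 0)
    8589934592 12884901888 25769803776 30064771072 = true := by decide +kernel
theorem cna0_29 : chkNear (miN 0) (liN 0) (psiB 0)
   (.X 7 0)
    8589934592 12884901888 30064771072 34359738368 = true := by decide +kernel
theorem cna0_30 : chkNear (miN 0) (liN 0) (psiB 0)
   (.X 7 0)
    12884901888 17179869184 25769803776 30064771072 = true := by decide +kernel
theorem cna0_31 : chkNear (miN 0) (liN 0) (psiB 0)
   (.X 7 0)
    12884901888 17179869184 30064771072 34359738368 = true := by decide +kernel
theorem cna0 (H : NearH) : NearBox 0 0 17179869184 0 34359738368 :=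
   (nT (nS (nT (nS (nT (H 0 _ _ _ _ _ cna0_0) (H 0 _ _ _ _ _ cna0_1)) (nT (H 0 _ _ _ _ _ cna0_2) (H 0 _ _ _ _ _
   cna0_3))) (nS (nT (H 0 _ _ _ _ _ cna0_4) (H 0 _ _ _ _ _ cna0_5)) (nT (H 0 _ _ _ _ _ cna0_6) (H 0 _ _ _ _ _
   cna0_7)))) (nT (nS (nT (H 0 _ _ _ _ _ cna0_8) (H 0 _ _ _ _ _ cna0_9)) (nT (H 0 _ _ _ _ _ cna0_10) (H 0 _ _ _ _ _
   cna0_11))) (nS (nT (H 0 _ _ _ _ _ cna0_12) (H 0 _ _ _ _ _ cna0_13)) (nT (H 0 _ _ _ _ _ cna0_14) (H 0 _ _ _ _ _
   cna0_15))))) (nS (nT (nS (nT (H 0 _ _ _ _ _ cna0_16) (H 0 _ _ _ _ _ cna0_17)) (nT (H 0 _ _ _ _ _ cna0_18) (H 0 _ _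
   _ _ _ cna0_19))) (nS (nT (H 0 _ _ _ _ _ cna0_20) (H 0 _ _ _ _ _ cna0_21)) (nT (H 0 _ _ _ _ _ cna0_22) (H 0 _ _ _ _
   _ cna0_23)))) (nT (nS (nT (H 0 _ _ _ _ _ cna0_24) (H 0 _ _ _ _ _ cna0_25)) (nT (H 0 _ _ _ _ _ cna0_26) (H 0 _ _ _ _
   _ cna0_27))) (nS (nT (H 0 _ _ _ _ _ cna0_28) (H 0 _ _ _ _ _ cna0_29)) (nT (H 0 _ _ _ _ _ cna0_30) (H 0 _ _ _ _ _
   cna0_31))))))


end Crest.Agent.R086.N
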