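import Crest.Agent.R086.N.Spl

/-! generated certificate -/

namespace Crest.Agent.R086.N

set_option maxRecDepth 100000
set_option Elab.async false

theorem cna1_0 : chkNear (miN 0) (liN 0) (psiB 0)
   (.X 7 0)
    17179869184 21474836480 0 4294967296 = true := by decide +kernel
theorem cna1_1 : chkNear (miN 0) (liN 0) (psiB 0)
   (.X 7 0)
    17179869184 21474836480 4294967296 8589934592 = true := by decide +kernel
theorem cna1_2 : chkNear (miN 0) (liN 0) (psiB 0)
   (.X 7 0)
    21474836480 25769803776 0 4294967296 = true := by decide +kernel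
theorem cna1_3 : chkNear (miN 0) (liN 0) (psiB 0)
   (.X 7 0)
    21474836480 25769803776 4294967296 8589934592 = true := by decide +kernel
theorem cna1_4 : chkNear (miN 0) (liN 0) (psiB 0)
   (.X 7 0)
    17179869184 21474836480 8589934592 12884901888 = true := by decide +kernel
theorem cna1_5 : chkNear (miN 0) (liN 0) (psiB 0)
   (.X 7 0)
    17179869184 21474836480 12884901888 17179869184 = true := by decide +kernel
theorem cna1_6 : chkNear (miN 0) (liN 0) (psiB 0)
   (.X 7 0)
    21474836480 25769803776 8589934592 12884901888 = true := by decide +kernel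
theorem cna1_7 : chkNear (miN 0) (liN 0) (psiB 0)
   (.X 7 0)
    21474836480 25769803776 12884901888 17179869184 = true := by decide +kernel
theorem cna1_8 : chkNear (miN 0) (liN 0) (psiB 0)
   (.X 7 0)
    25769803776 30064771072 0 4294967296 = true := by decide +kernel
theorem cna1_9 : chkNear (miN 0) (liN 0) (psiB 0)
   (.X 7 0)
    25769803776 30064771072 4294967296 8589934592 = true := by decide +kernel
theorem cna1_10 : chkNear (miN 0) (liN 0) (psiB 0)
   (.X 7 0)
    30064771072 34359738368 0 4294967296 = true := by decide +kernel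
theorem cna1_11 : chkNear (miN 0) (liN 0) (psiB 0)
   (.X 7 0)
    30064771072 34359738368 4294967296 8589934592 = true := by decide +kernel
theorem cna1_12 : chkNear (miN 0) (liN 0) (psiB 0)
   (.X 7 0)
    25769803776 30064771072 8589934592 12884901888 = true := by decide +kernel
theorem cna1_13 : chkNear (miN 0) (liN 0) (psiB 0)
   (.X 7 0)
    25769803776 30064771072 12884901888 17179869184 = true := by decide +kernel
theorem cna1_14 : chkNear (miN 0) (liN 0) (psiB 0)
   (.X 7 0)
    30064771072 34359738368 8589934592 12884901888 = true := by decide +kernel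
theorem cna1_15 : chkNear (miN 0) (liN 0) (psiB 0)
   (.X 7 0)
    30064771072 34359738368 12884901888 17179869184 = true := by decide +kernel
theorem cna1_16 : chkNear (miN 0) (liN 0) (psiB 0)
   (.X 7 0)
    17179869184 21474836480 17179869184 21474836480 = true := by decide +kernel
theorem cna1_17 : chkNear (miN 0) (liN 0) (psiB 0)
   (.X 7 0)
    17179869184 21474836480 21474836480 25769803776 = true := by decide +kernel
theorem cna1_18 : chkNear (miN 0) (liN 0) (psiB 0)
   (.X 7 0)
    21474836480 25769803776 17179869184 21474836480 = true := by decide +kernel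
theorem cna1_19 : chkNear (miN 0) (liN 0) (psiB 0)
   (.X 7 0)
    21474836480 25769803776 21474836480 25769803776 = true := by decide +kernel
theorem cna1_20 : chkNear (miN 0) (liN 0) (psiB 0)
   (.X 7 0)
    17179869184 21474836480 25769803776 30064771072 = true := by decide +kernel
theorem cna1_21 : chkNear (miN 0) (liN 0) (psiB 0)
   (.X 7 0)
    17179869184 21474836480 30064771072 34359738368 = true := by decide +kernel
theorem cna1_22 : chkNear (miN 0) (liN 0) (psiB 0)
   (.X 7 0)
    21474836480 25769803776 25769803776 30064771072 = true := by decide +kernel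
theorem cna1_23 : chkNear (miN 0) (liN 0) (psiB 0)
   (.X 7 0)
    21474836480 25769803776 30064771072 34359738368 = true := by decide +kernel
theorem cna1_24 : chkNear (miN 0) (liN 0) (psiB 0)
   (.X 7 0)
    25769803776 30064771072 17179869184 21474836480 = true := by decide +kernel
theorem cna1_25 : chkNear (miN 0) (liN 0) (psiB 0)
   (.X 7 0)
    25769803776 30064771072 21474836480 25769803776 = true := by decide +kernel
theorem cna1_26 : chkNear (miN 0) (liN 0) (psiB 0)
   (.X 7 0)
    30064771072 34359738368 17179869184 21474836480 = true := by decide +kernel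
theorem cna1_27 : chkNear (miN 0) (liN 0) (psiB 0)
   (.X 7 0)
    30064771072 34359738368 21474836480 25769803776 = true := by decide +kernel
theorem cna1_28 : chkNear (miN 0) (liN 0) (psiB 0)
   (.X 7 0)
    25769803776 30064771072 25769803776 30064771072 = true := by decide +kernel
theorem cna1_29 : chkNear (miN 0) (liN 0) (psiB 0)
   (.X 7 0)
    25769803776 30064771072 30064771072 34359738368 = true := by decide +kernel
theorem cna1_30 : chkNear (miN 0) (liN 0) (psiB 0)
   (.X 7 0)
    30064771072 34359738368 25769803776 30064771072 = true := by decide +kernel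
theorem cna1_31 : chkNear (miN 0) (liN 0) (psiB 0)
   (.X 7 0)
    30064771072 34359738368 30064771072 34359738368 = true := by decide +kernel
theorem cna1 (H : NearH) : NearBox 0 17179869184 34359738368 0 34359738368 :=
   (nT (nS (nT (nS (nT (H 0 _ _ _ _ _ cna1_0) (H 0 _ _ _ _ _ cna1_1)) (nT (H 0 _ _ _ _ _ cna1_2) (H 0 _ _ _ _ _
   cna1_3))) (nS (nT (H 0 _ _ _ _ _ cna1_4) (H 0 _ _ _ _ _ cna1_5)) (nT (H 0 _ _ _ _ _ cna1_6) (H 0 _ _ _ _ _
   cna1_7)))) (nT (nS (nT (H 0 _ _ _ _ _ cna1_8) (H 0 _ _ _ _ _ cna1_9)) (nT (H 0 _ _ _ _ _ cna1_10) (H 0 _ _ _ _ _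
   cna1_11))) (nS (nT (H 0 _ _ _ _ _ cna1_12) (H 0 _ _ _ _ _ cna1_13)) (nT (H 0 _ _ _ _ _ cna1_14) (H 0 _ _ _ _ _
   cna1_15))))) (nS (nT (nS (nT (H 0 _ _ _ _ _ cna1_16) (H 0 _ _ _ _ _ cna1_17)) (nT (H 0 _ _ _ _ _ cna1_18) (H 0 _ _
   _ _ _ cna1_19))) (nS (nT (H 0 _ _ _ _ _ cna1_20) (H 0 _ _ _ _ _ cna1_21)) (nT (H 0 _ _ _ _ _ cna1_22) (H 0 _ _ _ _
   _ cna1_23)))) (nT (nS (nT (H 0 _ _ _ _ _ cna1_24) (H 0 _ _ _ _ _ cna1_25)) (nT (H 0 _ _ _ _ _ cna1_26) (H 0 _ _ _ _
   _ cna1_27))) (nS (nT (H 0 _ _ _ _ _ cna1_28) (H 0 _ _ _ _ _ cna1_29)) (nT (H 0 _ _ _ _ _ cna1_30) (H 0 _ _ _ _ _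
   cna1_31))))))

theorem cna2_0 : chkNear (miN 0) (liN 0) (psiB 0)
   (.X 7 0)
    0 4294967296 34359738368 38654705664 = true := by decide +kernel
theorem cna2_1 : chkNear (miN 0) (liN 0) (psiB 0)
   (.X 7 0)
    0 4294967296 38654705664 42949672960 = true := by decide +kernel
theorem cna2_2 : chkNear (miN 0) (liN 0) (psiB 0)
   (.X 7 0)
    4294967296 8589934592 34359738368 38654705664 = true := by decide +kernel
theorem cna2_3 : chkNear (miN 0) (liN 0) (psiB 0)
   (.X 7 0)
    4294967296 8589934592 38654705664 42949672960 = true := by decide +kernel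
theorem cna2_4 : chkNear (miN 0) (liN 0) (psiB 0)
   (.X 7 0)
    0 4294967296 42949672960 47244640256 = true := by decide +kernel
theorem cna2_5 : chkNear (miN 0) (liN 0) (psiB 0)
   (.X 7 0)
    0 4294967296 47244640256 51539607552 = true := by decide +kernel
theorem cna2_6 : chkNear (miN 0) (liN 0) (psiB 0)
   (.X 7 0)
    4294967296 8589934592 42949672960 47244640256 = true := by decide +kernel
theorem cna2_7 : chkNear (miN 0) (liN 0) (psiB 0)
   (.X 7 0)
    4294967296 8589934592 47244640256 51539607552 = true := by decide +kernel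
theorem cna2_8 : chkNear (miN 0) (liN 0) (psiB 0)
   (.X 7 0)
    8589934592 12884901888 34359738368 38654705664 = true := by decide +kernel
theorem cna2_9 : chkNear (miN 0) (liN 0) (psiB 0)
   (.X 7 0)
    8589934592 12884901888 38654705664 42949672960 = true := by decide +kernel
theorem cna2_10 : chkNear (miN 0) (liN 0) (psiB 0)
   (.X 7 0)
    12884901888 17179869184 34359738368 38654705664 = true := by decide +kernel
theorem cna2_11 : chkNear (miN 0) (liN 0) (psiB 0)
   (.X 7 0)
    12884901888 17179869184 38654705664 42949672960 = true := by decide +kernel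
theorem cna2_12 : chkNear (miN 0) (liN 0) (psiB 0)
   (.X 7 0)
    8589934592 12884901888 42949672960 47244640256 = true := by decide +kernel
theorem cna2_13 : chkNear (miN 0) (liN 0) (psiB 0)
   (.X 7 0)
    8589934592 12884901888 47244640256 51539607552 = true := by decide +kernel
theorem cna2_14 : chkNear (miN 0) (liN 0) (psiB 0)
   (.X 7 0)
    12884901888 17179869184 42949672960 47244640256 = true := by decide +kernel
theorem cna2_15 : chkNear (miN 0) (liN 0) (psiB 0)
   (.X 7 0)
    12884901888 17179869184 47244640256 51539607552 = true := by decide +kernel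
theorem cna2_16 : chkNear (miN 0) (liN 0) (psiB 0)
   (.X 7 0)
    0 4294967296 51539607552 55834574848 = true := by decide +kernel
theorem cna2_17 : chkNear (miN 0) (liN 0) (psiB 0)
   (.X 7 0)
    0 4294967296 55834574848 60129542144 = true := by decide +kernel
theorem cna2_18 : chkNear (miN 0) (liN 0) (psiB 0)
   (.X 7 0)
    4294967296 8589934592 51539607552 55834574848 = true := by decide +kernel
theorem cna2_19 : chkNear (miN 0) (liN 0) (psiB 0)
   (.X 7 0)
    4294967296 8589934592 55834574848 60129542144 = true := by decide +kernel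
theorem cna2_20 : chkNear (miN 0) (liN 0) (psiB 0)
   (.X 7 0)
    0 4294967296 60129542144 64424509440 = true := by decide +kernel
theorem cna2_21 : chkNear (miN 0) (liN 0) (psiB 0)
   (.X 7 0)
    0 4294967296 64424509440 68719476736 = true := by decide +kernel
theorem cna2_22 : chkNear (miN 0) (liN 0) (psiB 0)
   (.X 7 0)
    4294967296 8589934592 60129542144 64424509440 = true := by decide +kernel
theorem cna2_23 : chkNear (miN 0) (liN 0) (psiB 0)
   (.X 7 0)
    4294967296 8589934592 64424509440 68719476736 = true := by decide +kernel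
theorem cna2_24 : chkNear (miN 0) (liN 0) (psiB 0)
   (.X 7 0)
    8589934592 12884901888 51539607552 55834574848 = true := by decide +kernel
theorem cna2_25 : chkNear (miN 0) (liN 0) (psiB 0)
   (.X 7 0)
    8589934592 12884901888 55834574848 60129542144 = true := by decide +kernel
theorem cna2_26 : chkNear (miN 0) (liN 0) (psiB 0)
   (.X 7 0)
    12884901888 17179869184 51539607552 55834574848 = true := by decide +kernel
theorem cna2_27 : chkNear (miN 0) (liN 0) (psiB 0)
   (.X 7 0)
    12884901888 17179869184 55834574848 60129542144 = true := by decide +kernel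
theorem cna2_28 : chkNear (miN 0) (liN 0) (psiB 0)
   (.X 7 0)
    8589934592 12884901888 60129542144 64424509440 = true := by decide +kernel
theorem cna2_29 : chkNear (miN 0) (liN 0) (psiB 0)
   (.X 7 0)
    8589934592 12884901888 64424509440 68719476736 = true := by decide +kernel
theorem cna2_30 : chkNear (miN 0) (liN 0) (psiB 0)
   (.X 7 0)
    12884901888 17179869184 60129542144 64424509440 = true := by decide +kernel
theorem cna2_31 : chkNear (miN 0) (liN 0) (psiB 0)
   (.X 7 0)
    12884901888 17179869184 64424509440 68719476736 = true := by decide +kernel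
theorem cna2 (H : NearH) : NearBox 0 0 17179869184 34359738368 68719476736 :=
   (nT (nS (nT (nS (nT (H 0 _ _ _ _ _ cna2_0) (H 0 _ _ _ _ _ cna2_1)) (nT (H 0 _ _ _ _ _ cna2_2) (H 0 _ _ _ _ _
   cna2_3))) (nS (nT (H 0 _ _ _ _ _ cna2_4) (H 0 _ _ _ _ _ cna2_5)) (nT (H 0 _ _ _ _ _ cna2_6) (H 0 _ _ _ _ _
   cna2_7)))) (nT (nS (nT (H 0 _ _ _ _ _ cna2_8) (H 0 _ _ _ _ _ cna2_9)) (nT (H 0 _ _ _ _ _ cna2_10) (H 0 _ _ _ _ _
   cna2_11))) (nS (nT (H 0 _ _ _ _ _ cna2_12) (H 0 _ _ _ _ _ cna2_13)) (nT (H 0 _ _ _ _ _ cna2_14) (H 0 _ _ _ _ _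
   cna2_15))))) (nS (nT (nS (nT (H 0 _ _ _ _ _ cna2_16) (H 0 _ _ _ _ _ cna2_17)) (nT (H 0 _ _ _ _ _ cna2_18) (H 0 _ _
   _ _ _ cna2_19))) (nS (nT (H 0 _ _ _ _ _ cna2_20) (H 0 _ _ _ _ _ cna2_21)) (nT (H 0 _ _ _ _ _ cna2_22) (H 0 _ _ _ _
   _ cna2_23)))) (nT (nS (nT (H 0 _ _ _ _ _ cna2_24) (H 0 _ _ _ _ _ cna2_25)) (nT (H 0 _ _ _ _ _ cna2_26) (H 0 _ _ _ _
   _ cna2_27))) (nS (nT (H 0 _ _ _ _ _ cna2_28) (H 0 _ _ _ _ _ cna2_29)) (nT (H 0 _ _ _ _ _ cna2_30) (H 0 _ _ _ _ _
   cna2_31))))))

theorem cna3_0 : chkNear (miN 0) (liN 0) (psiB 0)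
   (.X 7 0)
    17179869184 21474836480 34359738368 38654705664 = true := by decide +kernel
theorem cna3_1 : chkNear (miN 0) (liN 0) (psiB 0)
   (.X 7 0)
    17179869184 21474836480 38654705664 42949672960 = true := by decide +kernel
theorem cna3_2 : chkNear (miN 0) (liN 0) (psiB 0)
   (.X 7 0)
    21474836480 25769803776 34359738368 38654705664 = true := by decide +kernel
theorem cna3_3 : chkNear (miN 0) (liN 0) (psiB 0)
   (.X 7 0)
    21474836480 25769803776 38654705664 42949672960 = true := by decide +kernel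
theorem cna3_4 : chkNear (miN 0) (liN 0) (psiB 0)
   (.X 7 0)
    17179869184 21474836480 42949672960 47244640256 = true := by decide +kernel
theorem cna3_5 : chkNear (miN 0) (liN 0) (psiB 0)
   (.X 7 0)
    17179869184 21474836480 47244640256 51539607552 = true := by decide +kernel
theorem cna3_6 : chkNear (miN 0) (liN 0) (psiB 0)
   (.X 7 0)
    21474836480 25769803776 42949672960 47244640256 = true := by decide +kernel
theorem cna3_7 : chkNear (miN 0) (liN 0) (psiB 0)
   (.X 7 0)
    21474836480 25769803776 47244640256 51539607552 = true := by decide +kernel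
theorem cna3_8 : chkNear (miN 0) (liN 0) (psiB 0)
   (.X 7 0)
    25769803776 30064771072 34359738368 38654705664 = true := by decide +kernel
theorem cna3_9 : chkNear (miN 0) (liN 0) (psiB 0)
   (.X 7 0)
    25769803776 30064771072 38654705664 42949672960 = true := by decide +kernel
theorem cna3_10 : chkNear (miN 0) (liN 0) (psiB 0)
   (.X 7 0)
    30064771072 34359738368 34359738368 38654705664 = true := by decide +kernel
theorem cna3_11 : chkNear (miN 0) (liN 0) (psiB 0)
   (.X 7 0)
    30064771072 34359738368 38654705664 42949672960 = true := by decide +kernel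
theorem cna3_12 : chkNear (miN 0) (liN 0) (psiB 0)
   (.X 7 0)
    25769803776 30064771072 42949672960 47244640256 = true := by decide +kernel
theorem cna3_13 : chkNear (miN 0) (liN 0) (psiB 0)
   (.X 7 0)
    25769803776 30064771072 47244640256 51539607552 = true := by decide +kernel
theorem cna3_14 : chkNear (miN 0) (liN 0) (psiB 0)
   (.X 7 0)
    30064771072 34359738368 42949672960 47244640256 = true := by decide +kernel
theorem cna3_15 : chkNear (miN 0) (liN 0) (psiB 0)
   (.X 7 0)
    30064771072 34359738368 47244640256 51539607552 = true := by decide +kernel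
theorem cna3_16 : chkNear (miN 0) (liN 0) (psiB 0)
   (.X 7 0)
    17179869184 21474836480 51539607552 55834574848 = true := by decide +kernel
theorem cna3_17 : chkNear (miN 0) (liN 0) (psiB 0)
   (.X 7 0)
    17179869184 21474836480 55834574848 60129542144 = true := by decide +kernel
theorem cna3_18 : chkNear (miN 0) (liN 0) (psiB 0)
   (.X 7 0)
    21474836480 25769803776 51539607552 55834574848 = true := by decide +kernel
theorem cna3_19 : chkNear (miN 0) (liN 0) (psiB 0)
   (.X 7 0)
    21474836480 25769803776 55834574848 60129542144 = true := by decide +kernel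
theorem cna3_20 : chkNear (miN 0) (liN 0) (psiB 0)
   (.X 7 0)
    17179869184 21474836480 60129542144 64424509440 = true := by decide +kernel
theorem cna3_21 : chkNear (miN 0) (liN 0) (psiB 0)
   (.X 7 0)
    17179869184 21474836480 64424509440 68719476736 = true := by decide +kernel
theorem cna3_22 : chkNear (miN 0) (liN 0) (psiB 0)
   (.X 7 0)
    21474836480 25769803776 60129542144 64424509440 = true := by decide +kernel
theorem cna3_23 : chkNear (miN 0) (liN 0) (psiB 0)
   (.X 7 0)
    21474836480 25769803776 64424509440 68719476736 = true := by decide +kernel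
theorem cna3_24 : chkNear (miN 0) (liN 0) (psiB 0)
   (.X 7 0)
    25769803776 30064771072 51539607552 55834574848 = true := by decide +kernel
theorem cna3_25 : chkNear (miN 0) (liN 0) (psiB 0)
   (.X 7 0)
    25769803776 30064771072 55834574848 60129542144 = true := by decide +kernel
theorem cna3_26 : chkNear (miN 0) (liN 0) (psiB 0)
   (.X 7 0)
    30064771072 34359738368 51539607552 55834574848 = true := by decide +kernel
theorem cna3_27 : chkNear (miN 0) (liN 0) (psiB 0)
   (.X 7 0)
    30064771072 34359738368 55834574848 60129542144 = true := by decide +kernel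
theorem cna3_28 : chkNear (miN 0) (liN 0) (psiB 0)
   (.X 7 0)
    25769803776 30064771072 60129542144 64424509440 = true := by decide +kernel
theorem cna3_29 : chkNear (miN 0) (liN 0) (psiB 0)
   (.X 7 0)
    25769803776 30064771072 64424509440 68719476736 = true := by decide +kernel
theorem cna3_30 : chkNear (miN 0) (liN 0) (psiB 0)
   (.X 7 0)
    30064771072 34359738368 60129542144 64424509440 = true := by decide +kernel
theorem cna3_31 : chkNear (miN 0) (liN 0) (psiB 0)
   (.X 7 0)
    30064771072 34359738368 64424509440 68719476736 = true := by decide +kernel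
theorem cna3 (H : NearH) : NearBox 0 17179869184 34359738368 34359738368 68719476736 :=
   (nT (nS (nT (nS (nT (H 0 _ _ _ _ _ cna3_0) (H 0 _ _ _ _ _ cna3_1)) (nT (H 0 _ _ _ _ _ cna3_2) (H 0 _ _ _ _ _
   cna3_3))) (nS (nT (H 0 _ _ _ _ _ cna3_4) (H 0 _ _ _ _ _ cna3_5)) (nT (H 0 _ _ _ _ _ cna3_6) (H 0 _ _ _ _ _
   cna3_7)))) (nT (nS (nT (H 0 _ _ _ _ _ cna3_8) (H 0 _ _ _ _ _ cna3_9)) (nT (H 0 _ _ _ _ _ cna3_10) (H 0 _ _ _ _ _
   cna3_11))) (nS (nT (H 0 _ _ _ _ _ cna3_12) (H 0 _ _ _ _ _ cna3_13)) (nT (H 0 _ _ _ _ _ cna3_14) (H 0 _ _ _ _ _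
   cna3_15))))) (nS (nT (nS (nT (H 0 _ _ _ _ _ cna3_16) (H 0 _ _ _ _ _ cna3_17)) (nT (H 0 _ _ _ _ _ cna3_18) (H 0 _ _
   _ _ _ cna3_19))) (nS (nT (H 0 _ _ _ _ _ cna3_20) (H 0 _ _ _ _ _ cna3_21)) (nT (H 0 _ _ _ _ _ cna3_22) (H 0 _ _ _ _
   _ cna3_23)))) (nT (nS (nT (H 0 _ _ _ _ _ cna3_24) (H 0 _ _ _ _ _ cna3_25)) (nT (H 0 _ _ _ _ _ cna3_26) (H 0 _ _ _ _
   _ cna3_27))) (nS (nT (H 0 _ _ _ _ _ cna3_28) (H 0 _ _ _ _ _ cna3_29)) (nT (H 0 _ _ _ _ _ cna3_30) (H 0 _ _ _ _ _
   cna3_31))))))


end Crest.Agent.R086.N
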