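import Crest.Agent.R086.N.Spl

/-! generated certificate -/

namespace Crest.Agent.R086.N

set_option maxRecDepth 100000
set_option Elab.async false

theorem cna4_0 : chkNear (miN 0) (liN 0) (psiB 0)
   (.X 7 0)
    34359738368 38654705664 0 4294967296 = true := by decide +kernel
theorem cna4_1 : chkNear (miN 0) (liN 0) (psiB 0)
   (.X 7 0)
    34359738368 38654705664 4294967296 8589934592 = true := by decide +kernel
theorem cna4_2 : chkNear (miN 0) (liN 0) (psiB 0)
   (.X 7 0)
    38654705664 42949672960 0 4294967296 = true := by decide +kernel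
theorem cna4_3 : chkNear (miN 0) (liN 0) (psiB 0)
   (.X 7 0)
    38654705664 42949672960 4294967296 8589934592 = true := by decide +kernel
theorem cna4_4 : chkNear (miN 0) (liN 0) (psiB 0)
   (.X 7 0)
    34359738368 38654705664 8589934592 12884901888 = true := by decide +kernel
theorem cna4_5 : chkNear (miN 0) (liN 0) (psiB 0)
   (.X 7 0)
    34359738368 38654705664 12884901888 17179869184 = true := by decide +kernel
theorem cna4_6 : chkNear (miN 0) (liN 0) (psiB 0)
   (.X 7 0)
    38654705664 42949672960 8589934592 12884901888 = true := by decide +kernel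
theorem cna4_7 : chkNear (miN 0) (liN 0) (psiB 0)
   (.X 7 0)
    38654705664 42949672960 12884901888 17179869184 = true := by decide +kernel
theorem cna4_8 : chkNear (miN 0) (liN 0) (psiB 0)
   (.X 7 0)
    42949672960 47244640256 0 4294967296 = true := by decide +kernel
theorem cna4_9 : chkNear (miN 0) (liN 0) (psiB 0)
   (.X 7 0)
    42949672960 47244640256 4294967296 8589934592 = true := by decide +kernel
theorem cna4_10 : chkNear (miN 0) (liN 0) (psiB 0)
   (.X 6 0)
    47244640256 51539607552 0 4294967296 = true := by decide +kernel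
theorem cna4_11 : chkNear (miN 0) (liN 0) (psiB 0)
   (.X 6 0)
    47244640256 51539607552 4294967296 8589934592 = true := by decide +kernel
theorem cna4_12 : chkNear (miN 0) (liN 0) (psiB 0)
   (.X 7 0)
    42949672960 47244640256 8589934592 12884901888 = true := by decide +kernel
theorem cna4_13 : chkNear (miN 0) (liN 0) (psiB 0)
   (.X 7 0)
    42949672960 47244640256 12884901888 17179869184 = true := by decide +kernel
theorem cna4_14 : chkNear (miN 0) (liN 0) (psiB 0)
   (.X 6 0)
    47244640256 51539607552 8589934592 12884901888 = true := by decide +kernel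
theorem cna4_15 : chkNear (miN 0) (liN 0) (psiB 0)
   (.X 6 0)
    47244640256 51539607552 12884901888 17179869184 = true := by decide +kernel
theorem cna4_16 : chkNear (miN 0) (liN 0) (psiB 0)
   (.X 7 0)
    34359738368 38654705664 17179869184 21474836480 = true := by decide +kernel
theorem cna4_17 : chkNear (miN 0) (liN 0) (psiB 0)
   (.X 7 0)
    34359738368 38654705664 21474836480 25769803776 = true := by decide +kernel
theorem cna4_18 : chkNear (miN 0) (liN 0) (psiB 0)
   (.X 7 0)
    38654705664 42949672960 17179869184 21474836480 = true := by decide +kernel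
theorem cna4_19 : chkNear (miN 0) (liN 0) (psiB 0)
   (.X 7 0)
    38654705664 42949672960 21474836480 25769803776 = true := by decide +kernel
theorem cna4_20 : chkNear (miN 0) (liN 0) (psiB 0)
   (.X 7 0)
    34359738368 38654705664 25769803776 30064771072 = true := by decide +kernel
theorem cna4_21 : chkNear (miN 0) (liN 0) (psiB 0)
   (.X 7 0)
    34359738368 38654705664 30064771072 34359738368 = true := by decide +kernel
theorem cna4_22 : chkNear (miN 0) (liN 0) (psiB 0)
   (.X 7 0)
    38654705664 42949672960 25769803776 30064771072 = true := by decide +kernel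
theorem cna4_23 : chkNear (miN 0) (liN 0) (psiB 0)
   (.X 7 0)
    38654705664 42949672960 30064771072 34359738368 = true := by decide +kernel
theorem cna4_24 : chkNear (miN 0) (liN 0) (psiB 0)
   (.X 7 0)
    42949672960 47244640256 17179869184 21474836480 = true := by decide +kernel
theorem cna4_25 : chkNear (miN 0) (liN 0) (psiB 0)
   (.X 7 0)
    42949672960 47244640256 21474836480 25769803776 = true := by decide +kernel
theorem cna4_26 : chkNear (miN 0) (liN 0) (psiB 0)
   (.X 6 0)
    47244640256 51539607552 17179869184 21474836480 = true := by decide +kernel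
theorem cna4_27 : chkNear (miN 0) (liN 0) (psiB 0)
   (.X 6 0)
    47244640256 51539607552 21474836480 25769803776 = true := by decide +kernel
theorem cna4_28 : chkNear (miN 0) (liN 0) (psiB 0)
   (.X 7 0)
    42949672960 47244640256 25769803776 30064771072 = true := by decide +kernel
theorem cna4_29 : chkNear (miN 0) (liN 0) (psiB 0)
   (.X 7 0)
    42949672960 47244640256 30064771072 34359738368 = true := by decide +kernel
theorem cna4_30 : chkNear (miN 0) (liN 0) (psiB 0)
   (.X 6 0)
    47244640256 51539607552 25769803776 30064771072 = true := by decide +kernel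
theorem cna4_31 : chkNear (miN 0) (liN 0) (psiB 0)
   (.X 6 0)
    47244640256 51539607552 30064771072 34359738368 = true := by decide +kernel
theorem cna4 (H : NearH) : NearBox 0 34359738368 51539607552 0 34359738368 :=
   (nT (nS (nT (nS (nT (H 0 _ _ _ _ _ cna4_0) (H 0 _ _ _ _ _ cna4_1)) (nT (H 0 _ _ _ _ _ cna4_2) (H 0 _ _ _ _ _
   cna4_3))) (nS (nT (H 0 _ _ _ _ _ cna4_4) (H 0 _ _ _ _ _ cna4_5)) (nT (H 0 _ _ _ _ _ cna4_6) (H 0 _ _ _ _ _
   cna4_7)))) (nT (nS (nT (H 0 _ _ _ _ _ cna4_8) (H 0 _ _ _ _ _ cna4_9)) (nT (H 0 _ _ _ _ _ cna4_10) (H 0 _ _ _ _ _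
   cna4_11))) (nS (nT (H 0 _ _ _ _ _ cna4_12) (H 0 _ _ _ _ _ cna4_13)) (nT (H 0 _ _ _ _ _ cna4_14) (H 0 _ _ _ _ _
   cna4_15))))) (nS (nT (nS (nT (H 0 _ _ _ _ _ cna4_16) (H 0 _ _ _ _ _ cna4_17)) (nT (H 0 _ _ _ _ _ cna4_18) (H 0 _ _
   _ _ _ cna4_19))) (nS (nT (H 0 _ _ _ _ _ cna4_20) (H 0 _ _ _ _ _ cna4_21)) (nT (H 0 _ _ _ _ _ cna4_22) (H 0 _ _ _ _
   _ cna4_23)))) (nT (nS (nT (H 0 _ _ _ _ _ cna4_24) (H 0 _ _ _ _ _ cna4_25)) (nT (H 0 _ _ _ _ _ cna4_26) (H 0 _ _ _ _
   _ cna4_27))) (nS (nT (H 0 _ _ _ _ _ cna4_28) (H 0 _ _ _ _ _ cna4_29)) (nT (H 0 _ _ _ _ _ cna4_30) (H 0 _ _ _ _ _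
   cna4_31))))))

theorem cna5_0 : chkNear (miN 0) (liN 0) (psiB 0)
   (.X 6 0)
    51539607552 55834574848 0 4294967296 = true := by decide +kernel
theorem cna5_1 : chkNear (miN 0) (liN 0) (psiB 0)
   (.X 6 0)
    51539607552 55834574848 4294967296 8589934592 = true := by decide +kernel
theorem cna5_2 : chkNear (miN 0) (liN 0) (psiB 0)
   (.X 6 0)
    55834574848 60129542144 0 4294967296 = true := by decide +kernel
theorem cna5_3 : chkNear (miN 0) (liN 0) (psiB 0)
   (.X 6 0)
    55834574848 60129542144 4294967296 8589934592 = true := by decide +kernel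
theorem cna5_4 : chkNear (miN 0) (liN 0) (psiB 0)
   (.X 6 0)
    51539607552 55834574848 8589934592 12884901888 = true := by decide +kernel
theorem cna5_5 : chkNear (miN 0) (liN 0) (psiB 0)
   (.X 6 0)
    51539607552 55834574848 12884901888 17179869184 = true := by decide +kernel
theorem cna5_6 : chkNear (miN 0) (liN 0) (psiB 0)
   (.X 6 0)
    55834574848 60129542144 8589934592 12884901888 = true := by decide +kernel
theorem cna5_7 : chkNear (miN 0) (liN 0) (psiB 0)
   (.X 6 0)
    55834574848 60129542144 12884901888 17179869184 = true := by decide +kernel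
theorem cna5_8 : chkNear (miN 0) (liN 0) (psiB 0)
   (.X 6 0)
    60129542144 64424509440 0 4294967296 = true := by decide +kernel
theorem cna5_9 : chkNear (miN 0) (liN 0) (psiB 0)
   (.X 6 0)
    60129542144 64424509440 4294967296 8589934592 = true := by decide +kernel
theorem cna5_10 : chkNear (miN 0) (liN 0) (psiB 0)
   (.X 6 0)
    64424509440 68719476736 0 4294967296 = true := by decide +kernel
theorem cna5_11 : chkNear (miN 0) (liN 0) (psiB 0)
   (.X 6 0)
    64424509440 68719476736 4294967296 8589934592 = true := by decide +kernel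
theorem cna5_12 : chkNear (miN 0) (liN 0) (psiB 0)
   (.X 6 0)
    60129542144 64424509440 8589934592 12884901888 = true := by decide +kernel
theorem cna5_13 : chkNear (miN 0) (liN 0) (psiB 0)
   (.X 6 0)
    60129542144 64424509440 12884901888 17179869184 = true := by decide +kernel
theorem cna5_14 : chkNear (miN 0) (liN 0) (psiB 0)
   (.X 6 0)
    64424509440 68719476736 8589934592 12884901888 = true := by decide +kernel
theorem cna5_15 : chkNear (miN 0) (liN 0) (psiB 0)
   (.X 6 0)
    64424509440 68719476736 12884901888 17179869184 = true := by decide +kernel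
theorem cna5_16 : chkNear (miN 0) (liN 0) (psiB 0)
   (.X 6 0)
    51539607552 55834574848 17179869184 21474836480 = true := by decide +kernel
theorem cna5_17 : chkNear (miN 0) (liN 0) (psiB 0)
   (.X 6 0)
    51539607552 55834574848 21474836480 25769803776 = true := by decide +kernel
theorem cna5_18 : chkNear (miN 0) (liN 0) (psiB 0)
   (.X 6 0)
    55834574848 60129542144 17179869184 21474836480 = true := by decide +kernel
theorem cna5_19 : chkNear (miN 0) (liN 0) (psiB 0)
   (.X 6 0)
    55834574848 60129542144 21474836480 25769803776 = true := by decide +kernel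
theorem cna5_20 : chkNear (miN 0) (liN 0) (psiB 0)
   (.X 6 0)
    51539607552 55834574848 25769803776 30064771072 = true := by decide +kernel
theorem cna5_21 : chkNear (miN 0) (liN 0) (psiB 0)
   (.X 6 0)
    51539607552 55834574848 30064771072 34359738368 = true := by decide +kernel
theorem cna5_22 : chkNear (miN 0) (liN 0) (psiB 0)
   (.X 6 0)
    55834574848 60129542144 25769803776 30064771072 = true := by decide +kernel
theorem cna5_23 : chkNear (miN 0) (liN 0) (psiB 0)
   (.X 6 0)
    55834574848 60129542144 30064771072 34359738368 = true := by decide +kernel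
theorem cna5_24 : chkNear (miN 0) (liN 0) (psiB 0)
   (.X 6 0)
    60129542144 64424509440 17179869184 21474836480 = true := by decide +kernel
theorem cna5_25 : chkNear (miN 0) (liN 0) (psiB 0)
   (.X 6 0)
    60129542144 64424509440 21474836480 25769803776 = true := by decide +kernel
theorem cna5_26 : chkNear (miN 0) (liN 0) (psiB 0)
   (.X 6 0)
    64424509440 68719476736 17179869184 21474836480 = true := by decide +kernel
theorem cna5_27 : chkNear (miN 0) (liN 0) (psiB 0)
   (.X 6 0)
    64424509440 68719476736 21474836480 25769803776 = true := by decide +kernel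
theorem cna5_28 : chkNear (miN 0) (liN 0) (psiB 0)
   (.X 6 0)
    60129542144 64424509440 25769803776 30064771072 = true := by decide +kernel
theorem cna5_29 : chkNear (miN 0) (liN 0) (psiB 0)
   (.X 6 0)
    60129542144 64424509440 30064771072 34359738368 = true := by decide +kernel
theorem cna5_30 : chkNear (miN 0) (liN 0) (psiB 0)
   (.X 6 0)
    64424509440 68719476736 25769803776 30064771072 = true := by decide +kernel
theorem cna5_31 : chkNear (miN 0) (liN 0) (psiB 0)
   (.X 6 0)
    64424509440 68719476736 30064771072 34359738368 = true := by decide +kernel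
theorem cna5 (H : NearH) : NearBox 0 51539607552 68719476736 0 34359738368 :=
   (nT (nS (nT (nS (nT (H 0 _ _ _ _ _ cna5_0) (H 0 _ _ _ _ _ cna5_1)) (nT (H 0 _ _ _ _ _ cna5_2) (H 0 _ _ _ _ _
   cna5_3))) (nS (nT (H 0 _ _ _ _ _ cna5_4) (H 0 _ _ _ _ _ cna5_5)) (nT (H 0 _ _ _ _ _ cna5_6) (H 0 _ _ _ _ _
   cna5_7)))) (nT (nS (nT (H 0 _ _ _ _ _ cna5_8) (H 0 _ _ _ _ _ cna5_9)) (nT (H 0 _ _ _ _ _ cna5_10) (H 0 _ _ _ _ _
   cna5_11))) (nS (nT (H 0 _ _ _ _ _ cna5_12) (H 0 _ _ _ _ _ cna5_13)) (nT (H 0 _ _ _ _ _ cna5_14) (H 0 _ _ _ _ _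
   cna5_15))))) (nS (nT (nS (nT (H 0 _ _ _ _ _ cna5_16) (H 0 _ _ _ _ _ cna5_17)) (nT (H 0 _ _ _ _ _ cna5_18) (H 0 _ _
   _ _ _ cna5_19))) (nS (nT (H 0 _ _ _ _ _ cna5_20) (H 0 _ _ _ _ _ cna5_21)) (nT (H 0 _ _ _ _ _ cna5_22) (H 0 _ _ _ _
   _ cna5_23)))) (nT (nS (nT (H 0 _ _ _ _ _ cna5_24) (H 0 _ _ _ _ _ cna5_25)) (nT (H 0 _ _ _ _ _ cna5_26) (H 0 _ _ _ _
   _ cna5_27))) (nS (nT (H 0 _ _ _ _ _ cna5_28) (H 0 _ _ _ _ _ cna5_29)) (nT (H 0 _ _ _ _ _ cna5_30) (H 0 _ _ _ _ _
   cna5_31))))))

theorem cna6_0 : chkNear (miN 0) (liN 0) (psiB 0)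
   (.X 7 0)
    34359738368 38654705664 34359738368 38654705664 = true := by decide +kernel
theorem cna6_1 : chkNear (miN 0) (liN 0) (psiB 0)
   (.X 7 0)
    34359738368 38654705664 38654705664 42949672960 = true := by decide +kernel
theorem cna6_2 : chkNear (miN 0) (liN 0) (psiB 0)
   (.X 7 0)
    38654705664 42949672960 34359738368 38654705664 = true := by decide +kernel
theorem cna6_3 : chkNear (miN 0) (liN 0) (psiB 0)
   (.X 7 0)
    38654705664 42949672960 38654705664 42949672960 = true := by decide +kernel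
theorem cna6_4 : chkNear (miN 0) (liN 0) (psiB 0)
   (.X 7 0)
    34359738368 38654705664 42949672960 47244640256 = true := by decide +kernel
theorem cna6_5 : chkNear (miN 0) (liN 0) (psiB 0)
   (.X 7 0)
    34359738368 38654705664 47244640256 51539607552 = true := by decide +kernel
theorem cna6_6 : chkNear (miN 0) (liN 0) (psiB 0)
   (.X 7 0)
    38654705664 42949672960 42949672960 47244640256 = true := by decide +kernel
theorem cna6_7 : chkNear (miN 0) (liN 0) (psiB 0)
   (.X 7 0)
    38654705664 42949672960 47244640256 51539607552 = true := by decide +kernel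
theorem cna6_8 : chkNear (miN 0) (liN 0) (psiB 0)
   (.X 7 0)
    42949672960 47244640256 34359738368 38654705664 = true := by decide +kernel
theorem cna6_9 : chkNear (miN 0) (liN 0) (psiB 0)
   (.X 7 0)
    42949672960 47244640256 38654705664 42949672960 = true := by decide +kernel
theorem cna6_10 : chkNear (miN 0) (liN 0) (psiB 0)
   (.X 6 0)
    47244640256 51539607552 34359738368 38654705664 = true := by decide +kernel
theorem cna6_11 : chkNear (miN 0) (liN 0) (psiB 0)
   (.X 6 0)
    47244640256 51539607552 38654705664 42949672960 = true := by decide +kernel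
theorem cna6_12 : chkNear (miN 0) (liN 0) (psiB 0)
   (.X 7 0)
    42949672960 47244640256 42949672960 47244640256 = true := by decide +kernel
theorem cna6_13 : chkNear (miN 0) (liN 0) (psiB 0)
   (.X 7 0)
    42949672960 47244640256 47244640256 51539607552 = true := by decide +kernel
theorem cna6_14 : chkNear (miN 0) (liN 0) (psiB 0)
   (.X 6 0)
    47244640256 51539607552 42949672960 47244640256 = true := by decide +kernel
theorem cna6_15 : chkNear (miN 0) (liN 0) (psiB 0)
   (.X 6 0)
    47244640256 51539607552 47244640256 51539607552 = true := by decide +kernel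
theorem cna6_16 : chkNear (miN 0) (liN 0) (psiB 0)
   (.X 7 0)
    34359738368 38654705664 51539607552 55834574848 = true := by decide +kernel
theorem cna6_17 : chkNear (miN 0) (liN 0) (psiB 0)
   (.X 7 0)
    34359738368 38654705664 55834574848 60129542144 = true := by decide +kernel
theorem cna6_18 : chkNear (miN 0) (liN 0) (psiB 0)
   (.X 7 0)
    38654705664 42949672960 51539607552 55834574848 = true := by decide +kernel
theorem cna6_19 : chkNear (miN 0) (liN 0) (psiB 0)
   (.X 7 0)
    38654705664 42949672960 55834574848 60129542144 = true := by decide +kernel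
theorem cna6_20 : chkNear (miN 0) (liN 0) (psiB 0)
   (.X 7 0)
    34359738368 38654705664 60129542144 64424509440 = true := by decide +kernel
theorem cna6_21 : chkNear (miN 0) (liN 0) (psiB 0)
   (.X 7 0)
    34359738368 38654705664 64424509440 68719476736 = true := by decide +kernel
theorem cna6_22 : chkNear (miN 0) (liN 0) (psiB 0)
   (.X 7 0)
    38654705664 42949672960 60129542144 64424509440 = true := by decide +kernel
theorem cna6_23 : chkNear (miN 0) (liN 0) (psiB 0)
   (.X 7 0)
    38654705664 42949672960 64424509440 68719476736 = true := by decide +kernel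
theorem cna6_24 : chkNear (miN 0) (liN 0) (psiB 0)
   (.X 7 0)
    42949672960 47244640256 51539607552 55834574848 = true := by decide +kernel
theorem cna6_25 : chkNear (miN 0) (liN 0) (psiB 0)
   (.X 7 0)
    42949672960 47244640256 55834574848 60129542144 = true := by decide +kernel
theorem cna6_26 : chkNear (miN 0) (liN 0) (psiB 0)
   (.X 6 0)
    47244640256 51539607552 51539607552 55834574848 = true := by decide +kernel
theorem cna6_27 : chkNear (miN 0) (liN 0) (psiB 0)
   (.X 6 0)
    47244640256 51539607552 55834574848 60129542144 = true := by decide +kernel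
theorem cna6_28 : chkNear (miN 0) (liN 0) (psiB 0)
   (.X 7 0)
    42949672960 47244640256 60129542144 64424509440 = true := by decide +kernel
theorem cna6_29 : chkNear (miN 0) (liN 0) (psiB 0)
   (.X 7 0)
    42949672960 47244640256 64424509440 68719476736 = true := by decide +kernel
theorem cna6_30 : chkNear (miN 0) (liN 0) (psiB 0)
   (.X 6 0)
    47244640256 51539607552 60129542144 64424509440 = true := by decide +kernel
theorem cna6_31 : chkNear (miN 0) (liN 0) (psiB 0)
   (.X 6 0)
    47244640256 51539607552 64424509440 68719476736 = true := by decide +kernel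
theorem cna6 (H : NearH) : NearBox 0 34359738368 51539607552 34359738368 68719476736 :=
   (nT (nS (nT (nS (nT (H 0 _ _ _ _ _ cna6_0) (H 0 _ _ _ _ _ cna6_1)) (nT (H 0 _ _ _ _ _ cna6_2) (H 0 _ _ _ _ _
   cna6_3))) (nS (nT (H 0 _ _ _ _ _ cna6_4) (H 0 _ _ _ _ _ cna6_5)) (nT (H 0 _ _ _ _ _ cna6_6) (H 0 _ _ _ _ _
   cna6_7)))) (nT (nS (nT (H 0 _ _ _ _ _ cna6_8) (H 0 _ _ _ _ _ cna6_9)) (nT (H 0 _ _ _ _ _ cna6_10) (H 0 _ _ _ _ _
   cna6_11))) (nS (nT (H 0 _ _ _ _ _ cna6_12) (H 0 _ _ _ _ _ cna6_13)) (nT (H 0 _ _ _ _ _ cna6_14) (H 0 _ _ _ _ _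
   cna6_15))))) (nS (nT (nS (nT (H 0 _ _ _ _ _ cna6_16) (H 0 _ _ _ _ _ cna6_17)) (nT (H 0 _ _ _ _ _ cna6_18) (H 0 _ _
   _ _ _ cna6_19))) (nS (nT (H 0 _ _ _ _ _ cna6_20) (H 0 _ _ _ _ _ cna6_21)) (nT (H 0 _ _ _ _ _ cna6_22) (H 0 _ _ _ _
   _ cna6_23)))) (nT (nS (nT (H 0 _ _ _ _ _ cna6_24) (H 0 _ _ _ _ _ cna6_25)) (nT (H 0 _ _ _ _ _ cna6_26) (H 0 _ _ _ _
   _ cna6_27))) (nS (nT (H 0 _ _ _ _ _ cna6_28) (H 0 _ _ _ _ _ cna6_29)) (nT (H 0 _ _ _ _ _ cna6_30) (H 0 _ _ _ _ _
   cna6_31))))))


end Crest.Agent.R086.N
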