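import Crest.Agent.R086.N.Spl

/-! generated certificate -/

namespace Crest.Agent.R086.N

set_option maxRecDepth 100000
set_option Elab.async false

theorem cna7_0 : chkNear (miN 0) (liN 0) (psiB 0)
   (.X 6 0)
    51539607552 55834574848 34359738368 38654705664 = true := by decide +kernel
theorem cna7_1 : chkNear (miN 0) (liN 0) (psiB 0)
   (.X 6 0)
    51539607552 55834574848 38654705664 42949672960 = true := by decide +kernel
theorem cna7_2 : chkNear (miN 0) (liN 0) (psiB 0)
   (.X 6 0)
    55834574848 60129542144 34359738368 38654705664 = true := by decide +kernel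
theorem cna7_3 : chkNear (miN 0) (liN 0) (psiB 0)
   (.X 6 0)
    55834574848 60129542144 38654705664 42949672960 = true := by decide +kernel
theorem cna7_4 : chkNear (miN 0) (liN 0) (psiB 0)
   (.X 6 0)
    51539607552 55834574848 42949672960 47244640256 = true := by decide +kernel
theorem cna7_5 : chkNear (miN 0) (liN 0) (psiB 0)
   (.X 6 0)
    51539607552 55834574848 47244640256 51539607552 = true := by decide +kernel
theorem cna7_6 : chkNear (miN 0) (liN 0) (psiB 0)
   (.X 6 0)
    55834574848 60129542144 42949672960 47244640256 = true := by decide +kernel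
theorem cna7_7 : chkNear (miN 0) (liN 0) (psiB 0)
   (.X 6 0)
    55834574848 60129542144 47244640256 51539607552 = true := by decide +kernel
theorem cna7_8 : chkNear (miN 0) (liN 0) (psiB 0)
   (.X 6 0)
    60129542144 64424509440 34359738368 38654705664 = true := by decide +kernel
theorem cna7_9 : chkNear (miN 0) (liN 0) (psiB 0)
   (.X 6 0)
    60129542144 64424509440 38654705664 42949672960 = true := by decide +kernel
theorem cna7_10 : chkNear (miN 0) (liN 0) (psiB 0)
   (.X 6 0)
    64424509440 68719476736 34359738368 38654705664 = true := by decide +kernel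
theorem cna7_11 : chkNear (miN 0) (liN 0) (psiB 0)
   (.X 6 0)
    64424509440 68719476736 38654705664 42949672960 = true := by decide +kernel
theorem cna7_12 : chkNear (miN 0) (liN 0) (psiB 0)
   (.X 6 0)
    60129542144 64424509440 42949672960 47244640256 = true := by decide +kernel
theorem cna7_13 : chkNear (miN 0) (liN 0) (psiB 0)
   (.X 6 0)
    60129542144 64424509440 47244640256 51539607552 = true := by decide +kernel
theorem cna7_14 : chkNear (miN 0) (liN 0) (psiB 0)
   (.X 6 0)
    64424509440 68719476736 42949672960 47244640256 = true := by decide +kernel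
theorem cna7_15 : chkNear (miN 0) (liN 0) (psiB 0)
   (.X 6 0)
    64424509440 68719476736 47244640256 51539607552 = true := by decide +kernel
theorem cna7_16 : chkNear (miN 0) (liN 0) (psiB 0)
   (.X 6 0)
    51539607552 55834574848 51539607552 55834574848 = true := by decide +kernel
theorem cna7_17 : chkNear (miN 0) (liN 0) (psiB 0)
   (.X 6 0)
    51539607552 55834574848 55834574848 60129542144 = true := by decide +kernel
theorem cna7_18 : chkNear (miN 0) (liN 0) (psiB 0)
   (.X 6 0)
    55834574848 60129542144 51539607552 55834574848 = true := by decide +kernel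
theorem cna7_19 : chkNear (miN 0) (liN 0) (psiB 0)
   (.X 6 0)
    55834574848 60129542144 55834574848 60129542144 = true := by decide +kernel
theorem cna7_20 : chkNear (miN 0) (liN 0) (psiB 0)
   (.X 6 0)
    51539607552 55834574848 60129542144 64424509440 = true := by decide +kernel
theorem cna7_21 : chkNear (miN 0) (liN 0) (psiB 0)
   (.X 6 0)
    51539607552 55834574848 64424509440 68719476736 = true := by decide +kernel
theorem cna7_22 : chkNear (miN 0) (liN 0) (psiB 0)
   (.X 6 0)
    55834574848 60129542144 60129542144 64424509440 = true := by decide +kernel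
theorem cna7_23 : chkNear (miN 0) (liN 0) (psiB 0)
   (.X 6 0)
    55834574848 60129542144 64424509440 68719476736 = true := by decide +kernel
theorem cna7_24 : chkNear (miN 0) (liN 0) (psiB 0)
   (.X 6 0)
    60129542144 64424509440 51539607552 55834574848 = true := by decide +kernel
theorem cna7_25 : chkNear (miN 0) (liN 0) (psiB 0)
   (.X 6 0)
    60129542144 64424509440 55834574848 60129542144 = true := by decide +kernel
theorem cna7_26 : chkNear (miN 0) (liN 0) (psiB 0)
   (.X 6 0)
    64424509440 68719476736 51539607552 55834574848 = true := by decide +kernel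
theorem cna7_27 : chkNear (miN 0) (liN 0) (psiB 0)
   (.X 6 0)
    64424509440 68719476736 55834574848 60129542144 = true := by decide +kernel
theorem cna7_28 : chkNear (miN 0) (liN 0) (psiB 0)
   (.X 6 0)
    60129542144 64424509440 60129542144 64424509440 = true := by decide +kernel
theorem cna7_29 : chkNear (miN 0) (liN 0) (psiB 0)
   (.X 6 0)
    60129542144 64424509440 64424509440 68719476736 = true := by decide +kernel
theorem cna7_30 : chkNear (miN 0) (liN 0) (psiB 0)
   (.X 6 0)
    64424509440 68719476736 60129542144 64424509440 = true := by decide +kernel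
theorem cna7_31 : chkNear (miN 0) (liN 0) (psiB 0)
   (.X 6 0)
    64424509440 68719476736 64424509440 68719476736 = true := by decide +kernel
theorem cna7 (H : NearH) : NearBox 0 51539607552 68719476736 34359738368 68719476736 :=
   (nT (nS (nT (nS (nT (H 0 _ _ _ _ _ cna7_0) (H 0 _ _ _ _ _ cna7_1)) (nT (H 0 _ _ _ _ _ cna7_2) (H 0 _ _ _ _ _
   cna7_3))) (nS (nT (H 0 _ _ _ _ _ cna7_4) (H 0 _ _ _ _ _ cna7_5)) (nT (H 0 _ _ _ _ _ cna7_6) (H 0 _ _ _ _ _
   cna7_7)))) (nT (nS (nT (H 0 _ _ _ _ _ cna7_8) (H 0 _ _ _ _ _ cna7_9)) (nT (H 0 _ _ _ _ _ cna7_10) (H 0 _ _ _ _ _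
   cna7_11))) (nS (nT (H 0 _ _ _ _ _ cna7_12) (H 0 _ _ _ _ _ cna7_13)) (nT (H 0 _ _ _ _ _ cna7_14) (H 0 _ _ _ _ _
   cna7_15))))) (nS (nT (nS (nT (H 0 _ _ _ _ _ cna7_16) (H 0 _ _ _ _ _ cna7_17)) (nT (H 0 _ _ _ _ _ cna7_18) (H 0 _ _
   _ _ _ cna7_19))) (nS (nT (H 0 _ _ _ _ _ cna7_20) (H 0 _ _ _ _ _ cna7_21)) (nT (H 0 _ _ _ _ _ cna7_22) (H 0 _ _ _ _
   _ cna7_23)))) (nT (nS (nT (H 0 _ _ _ _ _ cna7_24) (H 0 _ _ _ _ _ cna7_25)) (nT (H 0 _ _ _ _ _ cna7_26) (H 0 _ _ _ _
   _ cna7_27))) (nS (nT (H 0 _ _ _ _ _ cna7_28) (H 0 _ _ _ _ _ cna7_29)) (nT (H 0 _ _ _ _ _ cna7_30) (H 0 _ _ _ _ _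
   cna7_31))))))

theorem cnb0_0 : chkNear (miN 1) (liN 1) (psiB 1)
   (.sT (.X 5 0) (.X 5 0))
    824633720832 893353197568 0 137438953472 = true := by decide +kernel
theorem cnb0_1 : chkNear (miN 1) (liN 1) (psiB 1)
   (.sT (.X 5 0) (.X 5 0))
    893353197568 962072674304 0 137438953472 = true := by decide +kernel
theorem cnb0_2 : chkNear (miN 1) (liN 1) (psiB 1)
   (.sT (.X 5 0) (.X 5 1))
    824633720832 893353197568 137438953472 274877906944 = true := by decide +kernel
theorem cnb0_3 : chkNear (miN 1) (liN 1) (psiB 1)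
   (.X 6 1)
    893353197568 962072674304 137438953472 274877906944 = true := by decide +kernel
theorem cnb0_4 : chkNear (miN 1) (liN 1) (psiB 1)
   (.sS (.X 5 1) (.X 5 0))
    962072674304 1099511627776 0 137438953472 = true := by decide +kernel
theorem cnb0_5 : chkNear (miN 1) (liN 1) (psiB 1)
   (.sS (.X 5 1) (.X 5 1))
    962072674304 1099511627776 137438953472 274877906944 = true := by decide +kernel
theorem cnb0_6 : chkNear (miN 1) (liN 1) (psiB 1)
   (.X 6 1)
    1099511627776 1236950581248 0 137438953472 = true := by decide +kernel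
theorem cnb0_7 : chkNear (miN 1) (liN 1) (psiB 1)
   (.X 5 1)
    1099511627776 1236950581248 137438953472 274877906944 = true := by decide +kernel
theorem cnb0_8 : chkNear (miN 1) (liN 1) (psiB 1)
   (.sT (.X 5 0) (.X 5 0))
    1236950581248 1374389534720 0 274877906944 = true := by decide +kernel
theorem cnb0 (H : NearH) : NearBox 1 824633720832 1374389534720 0 274877906944 :=
   (nS (nS (nT (nS (H 1 _ _ _ _ _ cnb0_0) (H 1 _ _ _ _ _ cnb0_1)) (nS (H 1 _ _ _ _ _ cnb0_2) (H 1 _ _ _ _ _ cnb0_3)))
   (nT (H 1 _ _ _ _ _ cnb0_4) (H 1 _ _ _ _ _ cnb0_5))) (nS (nT (H 1 _ _ _ _ _ cnb0_6) (H 1 _ _ _ _ _ cnb0_7)) (H 1 _ _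
   _ _ _ cnb0_8)))

theorem cnc0_0 : chkNear (miN 2) (liN 2) (psiB 2)
   (.X 6 1)
    274877906944 292057776128 0 17179869184 = true := by decide +kernel
theorem cnc0_1 : chkNear (miN 2) (liN 2) (psiB 2)
   (.X 6 1)
    274877906944 292057776128 17179869184 34359738368 = true := by decide +kernel
theorem cnc0_2 : chkNear (miN 2) (liN 2) (psiB 2)
   (.X 6 1)
    292057776128 309237645312 0 17179869184 = true := by decide +kernel
theorem cnc0_3 : chkNear (miN 2) (liN 2) (psiB 2)
   (.X 6 1)
    292057776128 309237645312 17179869184 34359738368 = true := by decide +kernel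
theorem cnc0_4 : chkNear (miN 2) (liN 2) (psiB 2)
   (.X 6 1)
    274877906944 292057776128 34359738368 51539607552 = true := by decide +kernel
theorem cnc0_5 : chkNear (miN 2) (liN 2) (psiB 2)
   (.X 6 1)
    274877906944 292057776128 51539607552 68719476736 = true := by decide +kernel
theorem cnc0_6 : chkNear (miN 2) (liN 2) (psiB 2)
   (.X 6 1)
    292057776128 309237645312 34359738368 51539607552 = true := by decide +kernel
theorem cnc0_7 : chkNear (miN 2) (liN 2) (psiB 2)
   (.X 5 1)
    292057776128 309237645312 51539607552 68719476736 = true := by decide +kernel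
theorem cnc0_8 : chkNear (miN 2) (liN 2) (psiB 2)
   (.sT (.X 5 1) (.X 5 1))
    309237645312 326417514496 0 34359738368 = true := by decide +kernel
theorem cnc0_9 : chkNear (miN 2) (liN 2) (psiB 2)
   (.X 6 1)
    326417514496 343597383680 0 34359738368 = true := by decide +kernel
theorem cnc0_10 : chkNear (miN 2) (liN 2) (psiB 2)
   (.sT (.X 5 1) (.X 5 1))
    309237645312 326417514496 34359738368 68719476736 = true := by decide +kernel
theorem cnc0_11 : chkNear (miN 2) (liN 2) (psiB 2)
   (.X 6 1)
    326417514496 343597383680 34359738368 68719476736 = true := by decide +kernel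
theorem cnc0_12 : chkNear (miN 2) (liN 2) (psiB 2)
   (.X 6 1)
    274877906944 292057776128 68719476736 85899345920 = true := by decide +kernel
theorem cnc0_13 : chkNear (miN 2) (liN 2) (psiB 2)
   (.X 6 1)
    274877906944 292057776128 85899345920 103079215104 = true := by decide +kernel
theorem cnc0_14 : chkNear (miN 2) (liN 2) (psiB 2)
   (.sT (.X 5 1) (.X 5 1))
    292057776128 309237645312 68719476736 103079215104 = true := by decide +kernel
theorem cnc0_15 : chkNear (miN 2) (liN 2) (psiB 2)
   (.X 6 0)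
    274877906944 292057776128 103079215104 120259084288 = true := by decide +kernel
theorem cnc0_16 : chkNear (miN 2) (liN 2) (psiB 2)
   (.X 6 0)
    274877906944 292057776128 120259084288 137438953472 = true := by decide +kernel
theorem cnc0_17 : chkNear (miN 2) (liN 2) (psiB 2)
   (.sT (.X 5 1) (.X 5 1))
    292057776128 309237645312 103079215104 137438953472 = true := by decide +kernel
theorem cnc0_18 : chkNear (miN 2) (liN 2) (psiB 2)
   (.X 8 1)
    309237645312 326417514496 68719476736 103079215104 = true := by decide +kernel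
theorem cnc0_19 : chkNear (miN 2) (liN 2) (psiB 2)
   (.X 6 1)
    326417514496 343597383680 68719476736 103079215104 = true := by decide +kernel
theorem cnc0_20 : chkNear (miN 2) (liN 2) (psiB 2)
   (.X 7 1)
    309237645312 326417514496 103079215104 137438953472 = true := by decide +kernel
theorem cnc0_21 : chkNear (miN 2) (liN 2) (psiB 2)
   (.X 6 1)
    326417514496 343597383680 103079215104 137438953472 = true := by decide +kernel
theorem cnc0_22 : chkNear (miN 2) (liN 2) (psiB 2)
   (.X 6 1)
    343597383680 360777252864 0 34359738368 = true := by decide +kernel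
theorem cnc0_23 : chkNear (miN 2) (liN 2) (psiB 2)
   (.X 6 1)
    360777252864 377957122048 0 34359738368 = true := by decide +kernel
theorem cnc0_24 : chkNear (miN 2) (liN 2) (psiB 2)
   (.X 6 1)
    343597383680 360777252864 34359738368 68719476736 = true := by decide +kernel
theorem cnc0_25 : chkNear (miN 2) (liN 2) (psiB 2)
   (.X 6 1)
    360777252864 377957122048 34359738368 68719476736 = true := by decide +kernel
theorem cnc0_26 : chkNear (miN 2) (liN 2) (psiB 2)
   (.X 6 1)
    377957122048 412316860416 0 34359738368 = true := by decide +kernel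
theorem cnc0_27 : chkNear (miN 2) (liN 2) (psiB 2)
   (.X 6 1)
    377957122048 412316860416 34359738368 68719476736 = true := by decide +kernel
theorem cnc0_28 : chkNear (miN 2) (liN 2) (psiB 2)
   (.X 6 1)
    343597383680 360777252864 68719476736 103079215104 = true := by decide +kernel
theorem cnc0_29 : chkNear (miN 2) (liN 2) (psiB 2)
   (.X 6 1)
    360777252864 377957122048 68719476736 103079215104 = true := by decide +kernel
theorem cnc0_30 : chkNear (miN 2) (liN 2) (psiB 2)
   (.X 6 1)
    343597383680 360777252864 103079215104 137438953472 = true := by decide +kernel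
theorem cnc0_31 : chkNear (miN 2) (liN 2) (psiB 2)
   (.X 5 1)
    360777252864 377957122048 103079215104 137438953472 = true := by decide +kernel
theorem cnc0_32 : chkNear (miN 2) (liN 2) (psiB 2)
   (.X 6 1)
    377957122048 412316860416 68719476736 103079215104 = true := by decide +kernel
theorem cnc0_33 : chkNear (miN 2) (liN 2) (psiB 2)
   (.X 6 1)
    377957122048 412316860416 103079215104 137438953472 = true := by decide +kernel
theorem cnc0 (H : NearH) : NearBox 2 274877906944 412316860416 0 137438953472 :=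
   (nS (nT (nS (nT (nS (nT (H 2 _ _ _ _ _ cnc0_0) (H 2 _ _ _ _ _ cnc0_1)) (nT (H 2 _ _ _ _ _ cnc0_2) (H 2 _ _ _ _ _
   cnc0_3))) (nS (nT (H 2 _ _ _ _ _ cnc0_4) (H 2 _ _ _ _ _ cnc0_5)) (nT (H 2 _ _ _ _ _ cnc0_6) (H 2 _ _ _ _ _
   cnc0_7)))) (nT (nS (H 2 _ _ _ _ _ cnc0_8) (H 2 _ _ _ _ _ cnc0_9)) (nS (H 2 _ _ _ _ _ cnc0_10) (H 2 _ _ _ _ _
   cnc0_11)))) (nS (nT (nS (nT (H 2 _ _ _ _ _ cnc0_12) (H 2 _ _ _ _ _ cnc0_13)) (H 2 _ _ _ _ _ cnc0_14)) (nS (nT (H 2
   _ _ _ _ _ cnc0_15) (H 2 _ _ _ _ _ cnc0_16)) (H 2 _ _ _ _ _ cnc0_17))) (nT (nS (H 2 _ _ _ _ _ cnc0_18) (H 2 _ _ _ _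
   _ cnc0_19)) (nS (H 2 _ _ _ _ _ cnc0_20) (H 2 _ _ _ _ _ cnc0_21))))) (nT (nS (nT (nS (H 2 _ _ _ _ _ cnc0_22) (H 2 _
   _ _ _ _ cnc0_23)) (nS (H 2 _ _ _ _ _ cnc0_24) (H 2 _ _ _ _ _ cnc0_25))) (nT (H 2 _ _ _ _ _ cnc0_26) (H 2 _ _ _ _ _
   cnc0_27))) (nS (nT (nS (H 2 _ _ _ _ _ cnc0_28) (H 2 _ _ _ _ _ cnc0_29)) (nS (H 2 _ _ _ _ _ cnc0_30) (H 2 _ _ _ _ _
   cnc0_31))) (nT (H 2 _ _ _ _ _ cnc0_32) (H 2 _ _ _ _ _ cnc0_33)))))

theorem cnc1_0 : chkNear (miN 2) (liN 2) (psiB 2)
   (.X 6 0)
    274877906944 292057776128 137438953472 154618822656 = true := by decide +kernel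
theorem cnc1_1 : chkNear (miN 2) (liN 2) (psiB 2)
   (.X 6 0)
    274877906944 292057776128 154618822656 171798691840 = true := by decide +kernel
theorem cnc1_2 : chkNear (miN 2) (liN 2) (psiB 2)
   (.sT (.X 5 1) (.X 5 1))
    292057776128 309237645312 137438953472 171798691840 = true := by decide +kernel
theorem cnc1_3 : chkNear (miN 2) (liN 2) (psiB 2)
   (.X 6 0)
    274877906944 292057776128 171798691840 188978561024 = true := by decide +kernel
theorem cnc1_4 : chkNear (miN 2) (liN 2) (psiB 2)
   (.X 5 1)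
    274877906944 292057776128 188978561024 206158430208 = true := by decide +kernel
theorem cnc1_5 : chkNear (miN 2) (liN 2) (psiB 2)
   (.sT (.X 5 1) (.X 5 1))
    292057776128 309237645312 171798691840 206158430208 = true := by decide +kernel
theorem cnc1_6 : chkNear (miN 2) (liN 2) (psiB 2)
   (.X 7 1)
    309237645312 326417514496 137438953472 171798691840 = true := by decide +kernel
theorem cnc1_7 : chkNear (miN 2) (liN 2) (psiB 2)
   (.X 6 1)
    326417514496 343597383680 137438953472 171798691840 = true := by decide +kernel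
theorem cnc1_8 : chkNear (miN 2) (liN 2) (psiB 2)
   (.X 7 1)
    309237645312 326417514496 171798691840 206158430208 = true := by decide +kernel
theorem cnc1_9 : chkNear (miN 2) (liN 2) (psiB 2)
   (.X 6 1)
    326417514496 343597383680 171798691840 206158430208 = true := by decide +kernel
theorem cnc1_10 : chkNear (miN 2) (liN 2) (psiB 2)
   (.sT (.X 5 1) (.X 5 1))
    274877906944 292057776128 206158430208 240518168576 = true := by decide +kernel
theorem cnc1_11 : chkNear (miN 2) (liN 2) (psiB 2)
   (.X 8 1)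
    292057776128 309237645312 206158430208 240518168576 = true := by decide +kernel
theorem cnc1_12 : chkNear (miN 2) (liN 2) (psiB 2)
   (.sT (.X 5 1) (.X 5 1))
    274877906944 292057776128 240518168576 274877906944 = true := by decide +kernel
theorem cnc1_13 : chkNear (miN 2) (liN 2) (psiB 2)
   (.X 7 1)
    292057776128 309237645312 240518168576 274877906944 = true := by decide +kernel
theorem cnc1_14 : chkNear (miN 2) (liN 2) (psiB 2)
   (.X 6 1)
    309237645312 326417514496 206158430208 240518168576 = true := by decide +kernel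
theorem cnc1_15 : chkNear (miN 2) (liN 2) (psiB 2)
   (.X 6 1)
    326417514496 343597383680 206158430208 240518168576 = true := by decide +kernel
theorem cnc1_16 : chkNear (miN 2) (liN 2) (psiB 2)
   (.X 6 1)
    309237645312 326417514496 240518168576 274877906944 = true := by decide +kernel
theorem cnc1_17 : chkNear (miN 2) (liN 2) (psiB 2)
   (.X 6 1)
    326417514496 343597383680 240518168576 274877906944 = true := by decide +kernel
theorem cnc1_18 : chkNear (miN 2) (liN 2) (psiB 2)
   (.X 6 1)
    343597383680 360777252864 137438953472 171798691840 = true := by decide +kernel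
theorem cnc1_19 : chkNear (miN 2) (liN 2) (psiB 2)
   (.X 5 1)
    360777252864 377957122048 137438953472 171798691840 = true := by decide +kernel
theorem cnc1_20 : chkNear (miN 2) (liN 2) (psiB 2)
   (.X 6 1)
    343597383680 360777252864 171798691840 206158430208 = true := by decide +kernel
theorem cnc1_21 : chkNear (miN 2) (liN 2) (psiB 2)
   (.X 5 1)
    360777252864 377957122048 171798691840 206158430208 = true := by decide +kernel
theorem cnc1_22 : chkNear (miN 2) (liN 2) (psiB 2)
   (.X 6 1)
    377957122048 412316860416 137438953472 171798691840 = true := by decide +kernel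
theorem cnc1_23 : chkNear (miN 2) (liN 2) (psiB 2)
   (.X 6 1)
    377957122048 412316860416 171798691840 206158430208 = true := by decide +kernel
theorem cnc1_24 : chkNear (miN 2) (liN 2) (psiB 2)
   (.X 6 1)
    343597383680 360777252864 206158430208 240518168576 = true := by decide +kernel
theorem cnc1_25 : chkNear (miN 2) (liN 2) (psiB 2)
   (.X 5 1)
    360777252864 377957122048 206158430208 240518168576 = true := by decide +kernel
theorem cnc1_26 : chkNear (miN 2) (liN 2) (psiB 2)
   (.X 6 1)
    343597383680 360777252864 240518168576 274877906944 = true := by decide +kernel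
theorem cnc1_27 : chkNear (miN 2) (liN 2) (psiB 2)
   (.X 5 1)
    360777252864 377957122048 240518168576 274877906944 = true := by decide +kernel
theorem cnc1_28 : chkNear (miN 2) (liN 2) (psiB 2)
   (.X 6 1)
    377957122048 412316860416 206158430208 240518168576 = true := by decide +kernel
theorem cnc1_29 : chkNear (miN 2) (liN 2) (psiB 2)
   (.X 6 1)
    377957122048 412316860416 240518168576 274877906944 = true := by decide +kernel
theorem cnc1 (H : NearH) : NearBox 2 274877906944 412316860416 137438953472 274877906944 :=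
   (nS (nT (nS (nT (nS (nT (H 2 _ _ _ _ _ cnc1_0) (H 2 _ _ _ _ _ cnc1_1)) (H 2 _ _ _ _ _ cnc1_2)) (nS (nT (H 2 _ _ _ _
   _ cnc1_3) (H 2 _ _ _ _ _ cnc1_4)) (H 2 _ _ _ _ _ cnc1_5))) (nT (nS (H 2 _ _ _ _ _ cnc1_6) (H 2 _ _ _ _ _ cnc1_7))
   (nS (H 2 _ _ _ _ _ cnc1_8) (H 2 _ _ _ _ _ cnc1_9)))) (nS (nT (nS (H 2 _ _ _ _ _ cnc1_10) (H 2 _ _ _ _ _ cnc1_11))
   (nS (H 2 _ _ _ _ _ cnc1_12) (H 2 _ _ _ _ _ cnc1_13))) (nT (nS (H 2 _ _ _ _ _ cnc1_14) (H 2 _ _ _ _ _ cnc1_15)) (nS
   (H 2 _ _ _ _ _ cnc1_16) (H 2 _ _ _ _ _ cnc1_17))))) (nT (nS (nT (nS (H 2 _ _ _ _ _ cnc1_18) (H 2 _ _ _ _ _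
   cnc1_19)) (nS (H 2 _ _ _ _ _ cnc1_20) (H 2 _ _ _ _ _ cnc1_21))) (nT (H 2 _ _ _ _ _ cnc1_22) (H 2 _ _ _ _ _
   cnc1_23))) (nS (nT (nS (H 2 _ _ _ _ _ cnc1_24) (H 2 _ _ _ _ _ cnc1_25)) (nS (H 2 _ _ _ _ _ cnc1_26) (H 2 _ _ _ _ _
   cnc1_27))) (nT (H 2 _ _ _ _ _ cnc1_28) (H 2 _ _ _ _ _ cnc1_29)))))


end Crest.Agent.R086.N
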