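import Crest.Agent.R086.N.Spl

/-! generated certificate -/

namespace Crest.Agent.R086.N

set_option maxRecDepth 100000
set_option Elab.async false

theorem cnc2_0 : chkNear (miN 2) (liN 2) (psiB 2)
   (.sT (.X 5 1) (.X 5 1))
    412316860416 446676598784 0 68719476736 = true := by decide +kernel
theorem cnc2_1 : chkNear (miN 2) (liN 2) (psiB 2)
   (.sT (.X 5 1) (.X 5 1))
    446676598784 481036337152 0 68719476736 = true := by decide +kernel
theorem cnc2_2 : chkNear (miN 2) (liN 2) (psiB 2)
   (.sT (.X 5 1) (.X 5 1))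
    412316860416 446676598784 68719476736 137438953472 = true := by decide +kernel
theorem cnc2_3 : chkNear (miN 2) (liN 2) (psiB 2)
   (.sT (.X 5 1) (.X 5 1))
    446676598784 481036337152 68719476736 137438953472 = true := by decide +kernel
theorem cnc2_4 : chkNear (miN 2) (liN 2) (psiB 2)
   (.sT (.X 5 1) (.X 5 1))
    481036337152 515396075520 0 68719476736 = true := by decide +kernel
theorem cnc2_5 : chkNear (miN 2) (liN 2) (psiB 2)
   (.X 6 1)
    515396075520 549755813888 0 68719476736 = true := by decide +kernel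
theorem cnc2_6 : chkNear (miN 2) (liN 2) (psiB 2)
   (.sT (.X 5 1) (.X 5 1))
    481036337152 515396075520 68719476736 137438953472 = true := by decide +kernel
theorem cnc2_7 : chkNear (miN 2) (liN 2) (psiB 2)
   (.X 6 1)
    515396075520 549755813888 68719476736 137438953472 = true := by decide +kernel
theorem cnc2_8 : chkNear (miN 2) (liN 2) (psiB 2)
   (.sT (.X 5 1) (.X 5 1))
    412316860416 446676598784 137438953472 206158430208 = true := by decide +kernel
theorem cnc2_9 : chkNear (miN 2) (liN 2) (psiB 2)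
   (.sT (.X 5 1) (.X 5 1))
    446676598784 481036337152 137438953472 206158430208 = true := by decide +kernel
theorem cnc2_10 : chkNear (miN 2) (liN 2) (psiB 2)
   (.sT (.X 5 1) (.X 5 1))
    412316860416 446676598784 206158430208 274877906944 = true := by decide +kernel
theorem cnc2_11 : chkNear (miN 2) (liN 2) (psiB 2)
   (.sT (.X 5 1) (.X 5 1))
    446676598784 481036337152 206158430208 274877906944 = true := by decide +kernel
theorem cnc2_12 : chkNear (miN 2) (liN 2) (psiB 2)
   (.sT (.X 5 1) (.X 5 1))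
    481036337152 515396075520 137438953472 206158430208 = true := by decide +kernel
theorem cnc2_13 : chkNear (miN 2) (liN 2) (psiB 2)
   (.X 7 1)
    515396075520 549755813888 137438953472 206158430208 = true := by decide +kernel
theorem cnc2_14 : chkNear (miN 2) (liN 2) (psiB 2)
   (.sT (.X 5 1) (.X 5 1))
    481036337152 515396075520 206158430208 274877906944 = true := by decide +kernel
theorem cnc2_15 : chkNear (miN 2) (liN 2) (psiB 2)
   (.X 10 1)
    515396075520 549755813888 206158430208 274877906944 = true := by decide +kernel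
theorem cnc2 (H : NearH) : NearBox 2 412316860416 549755813888 0 274877906944 :=
   (nT (nS (nT (nS (H 2 _ _ _ _ _ cnc2_0) (H 2 _ _ _ _ _ cnc2_1)) (nS (H 2 _ _ _ _ _ cnc2_2) (H 2 _ _ _ _ _ cnc2_3)))
   (nT (nS (H 2 _ _ _ _ _ cnc2_4) (H 2 _ _ _ _ _ cnc2_5)) (nS (H 2 _ _ _ _ _ cnc2_6) (H 2 _ _ _ _ _ cnc2_7)))) (nS (nT
   (nS (H 2 _ _ _ _ _ cnc2_8) (H 2 _ _ _ _ _ cnc2_9)) (nS (H 2 _ _ _ _ _ cnc2_10) (H 2 _ _ _ _ _ cnc2_11))) (nT (nS (H
   2 _ _ _ _ _ cnc2_12) (H 2 _ _ _ _ _ cnc2_13)) (nS (H 2 _ _ _ _ _ cnc2_14) (H 2 _ _ _ _ _ cnc2_15)))))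

theorem cnc3_0 : chkNear (miN 2) (liN 2) (psiB 2)
   (.sS (.X 5 1) (.X 5 1))
    549755813888 618475290624 0 68719476736 = true := by decide +kernel
theorem cnc3_1 : chkNear (miN 2) (liN 2) (psiB 2)
   (.sS (.X 5 1) (.X 5 1))
    549755813888 618475290624 68719476736 137438953472 = true := by decide +kernel
theorem cnc3_2 : chkNear (miN 2) (liN 2) (psiB 2)
   (.X 6 1)
    618475290624 687194767360 0 68719476736 = true := by decide +kernel
theorem cnc3_3 : chkNear (miN 2) (liN 2) (psiB 2)
   (.X 6 1)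
    618475290624 687194767360 68719476736 137438953472 = true := by decide +kernel
theorem cnc3_4 : chkNear (miN 2) (liN 2) (psiB 2)
   (.X 6 1)
    549755813888 584115552256 137438953472 206158430208 = true := by decide +kernel
theorem cnc3_5 : chkNear (miN 2) (liN 2) (psiB 2)
   (.X 5 1)
    584115552256 618475290624 137438953472 206158430208 = true := by decide +kernel
theorem cnc3_6 : chkNear (miN 2) (liN 2) (psiB 2)
   (.X 6 1)
    549755813888 584115552256 206158430208 274877906944 = true := by decide +kernel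
theorem cnc3_7 : chkNear (miN 2) (liN 2) (psiB 2)
   (.X 5 1)
    584115552256 618475290624 206158430208 274877906944 = true := by decide +kernel
theorem cnc3_8 : chkNear (miN 2) (liN 2) (psiB 2)
   (.X 6 1)
    618475290624 687194767360 137438953472 206158430208 = true := by decide +kernel
theorem cnc3_9 : chkNear (miN 2) (liN 2) (psiB 2)
   (.X 7 1)
    618475290624 687194767360 206158430208 274877906944 = true := by decide +kernel
theorem cnc3_10 : chkNear (miN 2) (liN 2) (psiB 2)
   (.sT (.X 5 1) (.X 5 1))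
    687194767360 755914244096 0 137438953472 = true := by decide +kernel
theorem cnc3_11 : chkNear (miN 2) (liN 2) (psiB 2)
   (.sT (.X 5 1) (.X 5 1))
    755914244096 824633720832 0 137438953472 = true := by decide +kernel
theorem cnc3_12 : chkNear (miN 2) (liN 2) (psiB 2)
   (.sT (.X 5 1) (.X 5 1))
    687194767360 755914244096 137438953472 274877906944 = true := by decide +kernel
theorem cnc3_13 : chkNear (miN 2) (liN 2) (psiB 2)
   (.sT (.X 5 1) (.X 5 1))
    755914244096 824633720832 137438953472 274877906944 = true := by decide +kernel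
theorem cnc3 (H : NearH) : NearBox 2 549755813888 824633720832 0 274877906944 :=
   (nS (nT (nS (nT (H 2 _ _ _ _ _ cnc3_0) (H 2 _ _ _ _ _ cnc3_1)) (nT (H 2 _ _ _ _ _ cnc3_2) (H 2 _ _ _ _ _ cnc3_3)))
   (nS (nT (nS (H 2 _ _ _ _ _ cnc3_4) (H 2 _ _ _ _ _ cnc3_5)) (nS (H 2 _ _ _ _ _ cnc3_6) (H 2 _ _ _ _ _ cnc3_7))) (nT
   (H 2 _ _ _ _ _ cnc3_8) (H 2 _ _ _ _ _ cnc3_9)))) (nT (nS (H 2 _ _ _ _ _ cnc3_10) (H 2 _ _ _ _ _ cnc3_11)) (nS (H 2
   _ _ _ _ _ cnc3_12) (H 2 _ _ _ _ _ cnc3_13))))


end Crest.Agent.R086.N
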