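import Crest.Agent.R086.N.Spl

/-! generated certificate -/

namespace Crest.Agent.R086.N

set_option maxRecDepth 100000
set_option Elab.async false

theorem cf13_0 : chkFar
   (.sS (.sT (.D 6 0 0) (.D 6 0 0)) (.sT (.D 6 0 0) (.D 6 0 0)))
    274877906944 343597383680 274877906944 309237645312 1 1 = true := by decide +kernel
theorem cf13_1 : chkFar
   (.sS (.sT (.D 6 0 0) (.D 6 0 0)) (.sT (.D 6 0 0) (.D 6 0 0)))
    274877906944 343597383680 309237645312 343597383680 1 1 = true := by decide +kernel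
theorem cf13_2 : chkFar
   (.sS (.sT (.D 6 0 0) (.D 6 0 0)) (.sT (.D 6 0 0) (.D 6 0 0)))
    343597383680 412316860416 274877906944 309237645312 1 1 = true := by decide +kernel
theorem cf13_3 : chkFar
   (.sS (.D 7 0 0) (.D 6 0 0))
    343597383680 412316860416 309237645312 343597383680 1 1 = true := by decide +kernel
theorem cf13_4 : chkFar
   (.sT (.sS (.D 7 0 0) (.D 6 0 0)) (.sS (.D 6 0 0) (.D 6 0 0)))
    274877906944 343597383680 343597383680 412316860416 1 1 = true := by decide +kernel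
theorem cf13_5 : chkFar
   (.sT (.sS (.D 6 0 0) (.D 6 0 0)) (.sS (.D 6 0 0) (.D 6 0 0)))
    343597383680 412316860416 343597383680 412316860416 1 1 = true := by decide +kernel
theorem cf13_6 : chkFar
   (.sS (.sT (.D 6 0 0) (.D 6 0 0)) (.D 7 0 0))
    412316860416 481036337152 274877906944 309237645312 1 1 = true := by decide +kernel
theorem cf13_7 : chkFar
   (.sS (.D 6 0 0) (.D 6 0 0))
    412316860416 481036337152 309237645312 343597383680 1 1 = true := by decide +kernel
theorem cf13_8 : chkFar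
   (.sT (.sS (.D 6 0 0) (.D 6 0 0)) (.sS (.D 6 0 0) (.D 6 0 0)))
    481036337152 549755813888 274877906944 343597383680 1 1 = true := by decide +kernel
theorem cf13_9 : chkFar
   (.sT (.sS (.D 6 0 0) (.D 6 0 0)) (.sS (.D 6 0 0) (.D 5 0 0)))
    412316860416 481036337152 343597383680 412316860416 1 1 = true := by decide +kernel
theorem cf13_10 : chkFar
   (.sT (.sS (.D 5 0 0) (.D 5 0 0)) (.sS (.D 5 0 0) (.D 5 0 0)))
    481036337152 549755813888 343597383680 412316860416 1 1 = true := by decide +kernel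
theorem cf13_11 : chkFar
   (.sT (.sS (.D 6 0 0) (.D 6 0 0)) (.sS (.D 6 0 0) (.D 6 0 0)))
    274877906944 343597383680 412316860416 481036337152 1 1 = true := by decide +kernel
theorem cf13_12 : chkFar
   (.sT (.sS (.D 6 0 0) (.D 6 0 0)) (.sS (.D 6 0 0) (.D 6 0 0)))
    343597383680 412316860416 412316860416 481036337152 1 1 = true := by decide +kernel
theorem cf13_13 : chkFar
   (.sT (.sS (.D 6 0 0) (.D 6 0 0)) (.sS (.D 6 0 0) (.D 6 0 0)))
    274877906944 343597383680 481036337152 549755813888 1 1 = true := by decide +kernel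
theorem cf13_14 : chkFar
   (.sT (.sS (.D 6 0 0) (.D 5 0 0)) (.sS (.D 6 0 0) (.D 5 0 0)))
    343597383680 412316860416 481036337152 549755813888 1 1 = true := by decide +kernel
theorem cf13_15 : chkFar
   (.sT (.sS (.D 6 0 0) (.D 5 0 0)) (.sS (.D 5 0 0) (.D 5 0 0)))
    412316860416 481036337152 412316860416 481036337152 1 1 = true := by decide +kernel
theorem cf13_16 : chkFar
   (.sT (.sS (.D 5 0 0) (.D 5 0 0)) (.D 6 0 0))
    481036337152 549755813888 412316860416 481036337152 1 1 = true := by decide +kernel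
theorem cf13_17 : chkFar
   (.sS (.sT (.D 7 0 0) (.D 6 0 0)) (.sT (.D 6 0 0) (.D 6 0 0)))
    412316860416 549755813888 481036337152 549755813888 1 1 = true := by decide +kernel
theorem cf13 (H : FarH) : FarBox 274877906944 549755813888 274877906944 549755813888 1 1 :=
   (fT (fS (fT (fS (fT (H _ _ _ _ _ _ _ cf13_0) (H _ _ _ _ _ _ _ cf13_1)) (fT (H _ _ _ _ _ _ _ cf13_2) (H _ _ _ _ _ _
   _ cf13_3))) (fS (H _ _ _ _ _ _ _ cf13_4) (H _ _ _ _ _ _ _ cf13_5))) (fT (fS (fT (H _ _ _ _ _ _ _ cf13_6) (H _ _ _ _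
   _ _ _ cf13_7)) (H _ _ _ _ _ _ _ cf13_8)) (fS (H _ _ _ _ _ _ _ cf13_9) (H _ _ _ _ _ _ _ cf13_10)))) (fS (fT (fS (H _
   _ _ _ _ _ _ cf13_11) (H _ _ _ _ _ _ _ cf13_12)) (fS (H _ _ _ _ _ _ _ cf13_13) (H _ _ _ _ _ _ _ cf13_14))) (fT (fS
   (H _ _ _ _ _ _ _ cf13_15) (H _ _ _ _ _ _ _ cf13_16)) (H _ _ _ _ _ _ _ cf13_17))))

theorem cf14_0 : chkFar
   .skip
    549755813888 824633720832 0 274877906944 1 1 = true := by decide +kernel
theorem cf14_1 : chkFar
   (.sS (.sT (.D 5 0 0) (.D 5 0 0)) (.D 5 0 0))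
    824633720832 962072674304 0 68719476736 1 1 = true := by decide +kernel
theorem cf14_2 : chkFar
   (.sS (.sT (.D 5 0 0) (.D 5 0 0)) (.D 5 0 0))
    824633720832 962072674304 68719476736 137438953472 1 1 = true := by decide +kernel
theorem cf14_3 : chkFar
   (.sT (.D 5 0 0) (.D 5 0 0))
    962072674304 1099511627776 0 137438953472 1 1 = true := by decide +kernel
theorem cf14_4 : chkFar
   (.sS (.sT (.D 5 0 0) (.D 5 0 0)) (.D 5 0 0))
    824633720832 962072674304 137438953472 206158430208 1 1 = true := by decide +kernel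
theorem cf14_5 : chkFar
   (.sS (.D 6 0 0) (.D 5 0 0))
    824633720832 962072674304 206158430208 274877906944 1 1 = true := by decide +kernel
theorem cf14_6 : chkFar
   (.sT (.D 5 0 0) (.D 5 0 0))
    962072674304 1099511627776 137438953472 274877906944 1 1 = true := by decide +kernel
theorem cf14_7 : chkFar
   (.sT (.sS (.D 6 0 0) (.D 5 0 0)) (.sS (.D 5 0 0) (.D 5 0 0)))
    549755813888 618475290624 274877906944 343597383680 1 1 = true := by decide +kernel
theorem cf14_8 : chkFar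
   (.sT (.sS (.D 5 0 0) (.D 5 0 0)) (.sS (.D 5 0 0) (.D 5 0 0)))
    618475290624 687194767360 274877906944 343597383680 1 1 = true := by decide +kernel
theorem cf14_9 : chkFar
   (.sT (.sS (.D 5 0 0) (.D 5 0 0)) (.sS (.D 5 0 0) (.D 5 0 0)))
    549755813888 618475290624 343597383680 412316860416 1 1 = true := by decide +kernel
theorem cf14_10 : chkFar
   (.sT (.D 6 1 0) (.D 6 0 0))
    618475290624 687194767360 343597383680 412316860416 1 1 = true := by decide +kernel
theorem cf14_11 : chkFar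
   (.sS (.sT (.D 6 1 0) (.D 6 0 0)) (.D 7 1 0))
    687194767360 824633720832 274877906944 343597383680 1 1 = true := by decide +kernel
theorem cf14_12 : chkFar
   (.sS (.sT (.D 5 0 0) (.D 5 0 0)) (.D 6 0 0))
    687194767360 824633720832 343597383680 412316860416 1 1 = true := by decide +kernel
theorem cf14_13 : chkFar
   (.sS (.sT (.D 6 0 0) (.D 5 0 0)) (.sT (.D 5 0 0) (.D 5 0 0)))
    549755813888 687194767360 412316860416 481036337152 1 1 = true := by decide +kernel
theorem cf14_14 : chkFar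
   (.sS (.D 7 0 0) (.D 6 0 0))
    549755813888 687194767360 481036337152 549755813888 1 1 = true := by decide +kernel
theorem cf14_15 : chkFar
   (.sT (.sS (.D 6 0 0) (.D 5 0 0)) (.sS (.D 5 0 0) (.D 5 0 0)))
    687194767360 824633720832 412316860416 549755813888 1 1 = true := by decide +kernel
theorem cf14_16 : chkFar
   (.sT (.sS (.D 5 0 0) (.D 5 0 0)) (.sS (.D 5 0 0) (.D 5 0 0)))
    824633720832 962072674304 274877906944 412316860416 1 1 = true := by decide +kernel
theorem cf14_17 : chkFar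
   (.sT (.D 5 0 0) (.D 5 0 0))
    962072674304 1099511627776 274877906944 412316860416 1 1 = true := by decide +kernel
theorem cf14_18 : chkFar
   (.sS (.sT (.sS (.D 5 0 0) (.D 5 0 0)) (.D 6 1 0)) (.D 6 0 0))
    824633720832 1099511627776 412316860416 549755813888 1 1 = true := by decide +kernel
theorem cf14 (H : FarH) : FarBox 549755813888 1099511627776 0 549755813888 1 1 :=
   (fT (fS (H _ _ _ _ _ _ _ cf14_0) (fT (fS (fT (H _ _ _ _ _ _ _ cf14_1) (H _ _ _ _ _ _ _ cf14_2)) (H _ _ _ _ _ _ _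
   cf14_3)) (fS (fT (H _ _ _ _ _ _ _ cf14_4) (H _ _ _ _ _ _ _ cf14_5)) (H _ _ _ _ _ _ _ cf14_6)))) (fS (fT (fS (fT (fS
   (H _ _ _ _ _ _ _ cf14_7) (H _ _ _ _ _ _ _ cf14_8)) (fS (H _ _ _ _ _ _ _ cf14_9) (H _ _ _ _ _ _ _ cf14_10))) (fT (H
   _ _ _ _ _ _ _ cf14_11) (H _ _ _ _ _ _ _ cf14_12))) (fS (fT (H _ _ _ _ _ _ _ cf14_13) (H _ _ _ _ _ _ _ cf14_14)) (H
   _ _ _ _ _ _ _ cf14_15))) (fT (fS (H _ _ _ _ _ _ _ cf14_16) (H _ _ _ _ _ _ _ cf14_17)) (H _ _ _ _ _ _ _ cf14_18))))

theorem cf15_0 : chkFar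
   (.sS (.D 10 0 0) (.D 7 0 0))
    0 68719476736 549755813888 584115552256 1 1 = true := by decide +kernel
theorem cf15_1 : chkFar
   (.sS (.D 7 0 0) (.D 7 0 0))
    0 68719476736 584115552256 618475290624 1 1 = true := by decide +kernel
theorem cf15_2 : chkFar
   (.sT (.sS (.D 7 0 0) (.D 6 0 0)) (.sS (.D 7 0 0) (.D 6 0 0)))
    68719476736 137438953472 549755813888 618475290624 1 1 = true := by decide +kernel
theorem cf15_3 : chkFar
   (.sS (.D 7 0 0) (.D 7 0 0))
    0 68719476736 618475290624 652835028992 1 1 = true := by decide +kernel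
theorem cf15_4 : chkFar
   (.sS (.D 7 0 0) (.D 7 0 0))
    0 68719476736 652835028992 687194767360 1 1 = true := by decide +kernel
theorem cf15_5 : chkFar
   (.sT (.sS (.D 6 0 0) (.D 6 0 0)) (.sS (.D 6 0 0) (.D 6 0 0)))
    68719476736 137438953472 618475290624 687194767360 1 1 = true := by decide +kernel
theorem cf15_6 : chkFar
   (.sT (.sS (.D 6 0 0) (.D 6 0 0)) (.sS (.D 6 0 0) (.D 6 0 0)))
    137438953472 206158430208 549755813888 618475290624 1 1 = true := by decide +kernel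
theorem cf15_7 : chkFar
   (.sT (.sS (.D 6 0 0) (.D 6 0 0)) (.sS (.D 6 0 0) (.D 6 0 0)))
    206158430208 274877906944 549755813888 618475290624 1 1 = true := by decide +kernel
theorem cf15_8 : chkFar
   (.sT (.sS (.D 6 0 0) (.D 6 0 0)) (.sS (.D 6 0 0) (.D 6 0 0)))
    137438953472 206158430208 618475290624 687194767360 1 1 = true := by decide +kernel
theorem cf15_9 : chkFar
   (.sT (.sS (.D 6 0 0) (.D 6 0 0)) (.sS (.D 6 0 0) (.D 6 0 0)))
    206158430208 274877906944 618475290624 687194767360 1 1 = true := by decide +kernel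
theorem cf15_10 : chkFar
   (.sS (.D 7 0 0) (.D 7 0 0))
    0 68719476736 687194767360 721554505728 1 1 = true := by decide +kernel
theorem cf15_11 : chkFar
   (.sS (.D 7 0 0) (.D 7 0 0))
    0 68719476736 721554505728 755914244096 1 1 = true := by decide +kernel
theorem cf15_12 : chkFar
   (.sT (.sS (.D 6 0 0) (.D 6 0 0)) (.sS (.D 6 0 0) (.D 6 0 0)))
    68719476736 137438953472 687194767360 755914244096 1 1 = true := by decide +kernel
theorem cf15_13 : chkFar
   (.sS (.D 7 0 0) (.D 7 0 0))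
    0 68719476736 755914244096 790273982464 1 1 = true := by decide +kernel
theorem cf15_14 : chkFar
   (.sS (.D 7 0 0) (.D 6 0 0))
    0 68719476736 790273982464 824633720832 1 1 = true := by decide +kernel
theorem cf15_15 : chkFar
   (.sT (.sS (.D 6 0 0) (.D 6 0 0)) (.sS (.D 6 0 0) (.D 6 0 0)))
    68719476736 137438953472 755914244096 824633720832 1 1 = true := by decide +kernel
theorem cf15_16 : chkFar
   (.sT (.sS (.D 6 0 0) (.D 6 0 0)) (.sS (.D 6 0 0) (.D 6 0 0)))
    137438953472 206158430208 687194767360 755914244096 1 1 = true := by decide +kernel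
theorem cf15_17 : chkFar
   (.sT (.sS (.D 6 0 0) (.D 6 0 0)) (.sS (.D 6 0 0) (.D 6 0 0)))
    206158430208 274877906944 687194767360 755914244096 1 1 = true := by decide +kernel
theorem cf15_18 : chkFar
   (.sT (.sS (.D 6 0 0) (.D 6 0 0)) (.sS (.D 6 0 0) (.D 6 0 0)))
    137438953472 206158430208 755914244096 824633720832 1 1 = true := by decide +kernel
theorem cf15_19 : chkFar
   (.sT (.D 10 0 0) (.D 7 0 0))
    206158430208 274877906944 755914244096 824633720832 1 1 = true := by decide +kernel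
theorem cf15_20 : chkFar
   (.sT (.sS (.D 6 0 0) (.D 6 0 0)) (.sS (.D 6 0 0) (.D 6 0 0)))
    274877906944 343597383680 549755813888 618475290624 1 1 = true := by decide +kernel
theorem cf15_21 : chkFar
   (.sT (.D 7 0 0) (.D 6 0 0))
    343597383680 412316860416 549755813888 618475290624 1 1 = true := by decide +kernel
theorem cf15_22 : chkFar
   (.sT (.sS (.D 6 0 0) (.D 6 0 0)) (.D 7 0 0))
    274877906944 343597383680 618475290624 687194767360 1 1 = true := by decide +kernel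
theorem cf15_23 : chkFar
   (.sT (.D 6 0 0) (.D 6 0 0))
    343597383680 412316860416 618475290624 687194767360 1 1 = true := by decide +kernel
theorem cf15_24 : chkFar
   (.sS (.sT (.D 6 0 0) (.D 6 0 0)) (.D 10 0 0))
    412316860416 549755813888 549755813888 618475290624 1 1 = true := by decide +kernel
theorem cf15_25 : chkFar
   (.sS (.sT (.D 6 0 0) (.D 6 0 0)) (.D 6 0 0))
    412316860416 549755813888 618475290624 687194767360 1 1 = true := by decide +kernel
theorem cf15_26 : chkFar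
   (.sS (.sT (.D 7 0 0) (.D 6 0 0)) (.sT (.D 6 0 0) (.D 6 0 0)))
    274877906944 412316860416 687194767360 755914244096 1 1 = true := by decide +kernel
theorem cf15_27 : chkFar
   (.sS (.sT (.D 6 0 0) (.D 6 0 0)) (.sT (.D 6 0 0) (.D 6 0 0)))
    274877906944 412316860416 755914244096 824633720832 1 1 = true := by decide +kernel
theorem cf15_28 : chkFar
   (.sT (.sS (.D 6 0 0) (.D 6 0 0)) (.sS (.D 6 0 0) (.D 6 0 0)))
    412316860416 549755813888 687194767360 824633720832 1 1 = true := by decide +kernel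
theorem cf15 (H : FarH) : FarBox 0 549755813888 549755813888 824633720832 1 1 :=
   (fS (fT (fS (fT (fS (fT (H _ _ _ _ _ _ _ cf15_0) (H _ _ _ _ _ _ _ cf15_1)) (H _ _ _ _ _ _ _ cf15_2)) (fS (fT (H _ _
   _ _ _ _ _ cf15_3) (H _ _ _ _ _ _ _ cf15_4)) (H _ _ _ _ _ _ _ cf15_5))) (fT (fS (H _ _ _ _ _ _ _ cf15_6) (H _ _ _ _
   _ _ _ cf15_7)) (fS (H _ _ _ _ _ _ _ cf15_8) (H _ _ _ _ _ _ _ cf15_9)))) (fS (fT (fS (fT (H _ _ _ _ _ _ _ cf15_10)
   (H _ _ _ _ _ _ _ cf15_11)) (H _ _ _ _ _ _ _ cf15_12)) (fS (fT (H _ _ _ _ _ _ _ cf15_13) (H _ _ _ _ _ _ _ cf15_14))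
   (H _ _ _ _ _ _ _ cf15_15))) (fT (fS (H _ _ _ _ _ _ _ cf15_16) (H _ _ _ _ _ _ _ cf15_17)) (fS (H _ _ _ _ _ _ _
   cf15_18) (H _ _ _ _ _ _ _ cf15_19))))) (fT (fS (fT (fS (H _ _ _ _ _ _ _ cf15_20) (H _ _ _ _ _ _ _ cf15_21)) (fS (H
   _ _ _ _ _ _ _ cf15_22) (H _ _ _ _ _ _ _ cf15_23))) (fT (H _ _ _ _ _ _ _ cf15_24) (H _ _ _ _ _ _ _ cf15_25))) (fS
   (fT (H _ _ _ _ _ _ _ cf15_26) (H _ _ _ _ _ _ _ cf15_27)) (H _ _ _ _ _ _ _ cf15_28))))

theorem cf16_0 : chkFar
   (.sT (.sS (.D 7 0 0) (.D 6 0 0)) (.sS (.D 7 0 0) (.D 6 0 0)))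
    0 68719476736 824633720832 893353197568 1 1 = true := by decide +kernel
theorem cf16_1 : chkFar
   (.sT (.sS (.D 6 0 0) (.D 6 0 0)) (.sS (.D 6 0 0) (.D 6 0 0)))
    68719476736 137438953472 824633720832 893353197568 1 1 = true := by decide +kernel
theorem cf16_2 : chkFar
   (.sT (.sS (.D 7 0 0) (.D 6 0 0)) (.sS (.D 7 0 0) (.D 6 0 0)))
    0 68719476736 893353197568 962072674304 1 1 = true := by decide +kernel
theorem cf16_3 : chkFar
   (.sT (.sS (.D 6 0 0) (.D 6 0 0)) (.sS (.D 6 0 0) (.D 6 0 0)))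
    68719476736 137438953472 893353197568 962072674304 1 1 = true := by decide +kernel
theorem cf16_4 : chkFar
   (.sT (.sS (.D 6 0 0) (.D 6 0 0)) (.sS (.D 6 0 0) (.D 6 0 0)))
    137438953472 206158430208 824633720832 893353197568 1 1 = true := by decide +kernel
theorem cf16_5 : chkFar
   (.sT (.D 7 0 0) (.D 7 0 0))
    206158430208 274877906944 824633720832 893353197568 1 1 = true := by decide +kernel
theorem cf16_6 : chkFar
   (.sT (.sS (.D 6 0 0) (.D 6 0 0)) (.sS (.D 6 0 0) (.D 6 0 0)))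
    137438953472 206158430208 893353197568 962072674304 1 1 = true := by decide +kernel
theorem cf16_7 : chkFar
   (.sT (.D 7 0 0) (.D 7 0 0))
    206158430208 274877906944 893353197568 962072674304 1 1 = true := by decide +kernel
theorem cf16_8 : chkFar
   (.sT (.sS (.D 7 0 0) (.D 6 0 0)) (.sS (.D 7 0 0) (.D 6 0 0)))
    0 68719476736 962072674304 1030792151040 1 1 = true := by decide +kernel
theorem cf16_9 : chkFar
   (.sT (.sS (.D 6 0 0) (.D 6 0 0)) (.sS (.D 6 0 0) (.D 6 0 0)))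
    68719476736 137438953472 962072674304 1030792151040 1 1 = true := by decide +kernel
theorem cf16_10 : chkFar
   (.sT (.sS (.D 7 0 0) (.D 6 0 0)) (.sS (.D 7 0 0) (.D 6 0 0)))
    0 68719476736 1030792151040 1099511627776 1 1 = true := by decide +kernel
theorem cf16_11 : chkFar
   (.sT (.sS (.D 6 0 0) (.D 6 0 0)) (.sS (.D 6 0 0) (.D 6 0 0)))
    68719476736 137438953472 1030792151040 1099511627776 1 1 = true := by decide +kernel
theorem cf16_12 : chkFar
   (.sT (.D 10 0 0) (.D 8 0 0))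
    137438953472 206158430208 962072674304 1030792151040 1 1 = true := by decide +kernel
theorem cf16_13 : chkFar
   (.sT (.D 6 0 0) (.D 6 0 0))
    206158430208 274877906944 962072674304 1030792151040 1 1 = true := by decide +kernel
theorem cf16_14 : chkFar
   (.sS (.sT (.D 7 0 0) (.D 7 0 0)) (.sT (.D 6 0 0) (.D 6 0 0)))
    137438953472 274877906944 1030792151040 1099511627776 1 1 = true := by decide +kernel
theorem cf16_15 : chkFar
   (.sS (.sT (.D 6 0 0) (.D 6 0 0)) (.D 7 0 0))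
    274877906944 412316860416 824633720832 893353197568 1 1 = true := by decide +kernel
theorem cf16_16 : chkFar
   (.sS (.sT (.D 6 0 0) (.D 6 0 0)) (.D 6 0 0))
    274877906944 412316860416 893353197568 962072674304 1 1 = true := by decide +kernel
theorem cf16_17 : chkFar
   (.sT (.sS (.D 6 0 0) (.D 6 0 0)) (.sS (.D 6 0 0) (.D 6 0 0)))
    412316860416 549755813888 824633720832 962072674304 1 1 = true := by decide +kernel
theorem cf16_18 : chkFar
   (.sT (.sS (.D 7 0 0) (.D 6 0 0)) (.sS (.D 7 0 0) (.D 6 0 0)))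
    274877906944 412316860416 962072674304 1099511627776 1 1 = true := by decide +kernel
theorem cf16_19 : chkFar
   (.sT (.sS (.D 6 0 0) (.D 6 0 0)) (.sS (.D 6 0 0) (.D 6 0 0)))
    412316860416 549755813888 962072674304 1099511627776 1 1 = true := by decide +kernel
theorem cf16 (H : FarH) : FarBox 0 549755813888 824633720832 1099511627776 1 1 :=
   (fS (fT (fS (fT (fS (H _ _ _ _ _ _ _ cf16_0) (H _ _ _ _ _ _ _ cf16_1)) (fS (H _ _ _ _ _ _ _ cf16_2) (H _ _ _ _ _ _
   _ cf16_3))) (fT (fS (H _ _ _ _ _ _ _ cf16_4) (H _ _ _ _ _ _ _ cf16_5)) (fS (H _ _ _ _ _ _ _ cf16_6) (H _ _ _ _ _ _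
   _ cf16_7)))) (fS (fT (fS (H _ _ _ _ _ _ _ cf16_8) (H _ _ _ _ _ _ _ cf16_9)) (fS (H _ _ _ _ _ _ _ cf16_10) (H _ _ _
   _ _ _ _ cf16_11))) (fT (fS (H _ _ _ _ _ _ _ cf16_12) (H _ _ _ _ _ _ _ cf16_13)) (H _ _ _ _ _ _ _ cf16_14)))) (fT
   (fS (fT (H _ _ _ _ _ _ _ cf16_15) (H _ _ _ _ _ _ _ cf16_16)) (H _ _ _ _ _ _ _ cf16_17)) (fS (H _ _ _ _ _ _ _
   cf16_18) (H _ _ _ _ _ _ _ cf16_19))))


end Crest.Agent.R086.N
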