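import Crest.Agent.R086.N.Spl

/-! generated certificate -/

namespace Crest.Agent.R086.N

set_option maxRecDepth 100000
set_option Elab.async false

theorem cf17_0 : chkFar
   (.sT (.sS (.D 6 0 0) (.D 5 0 0)) (.sS (.D 6 0 0) (.D 5 0 0)))
    549755813888 687194767360 549755813888 687194767360 1 1 = true := by decide +kernel
theorem cf17_1 : chkFar
   (.sT (.sS (.D 5 0 0) (.D 5 0 0)) (.sS (.D 5 0 0) (.D 5 0 0)))
    687194767360 824633720832 549755813888 687194767360 1 1 = true := by decide +kernel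
theorem cf17_2 : chkFar
   (.sT (.sS (.D 5 0 0) (.D 5 0 0)) (.sS (.D 5 0 0) (.D 5 0 0)))
    549755813888 687194767360 687194767360 824633720832 1 1 = true := by decide +kernel
theorem cf17_3 : chkFar
   (.sT (.D 6 0 0) (.D 6 0 0))
    687194767360 824633720832 687194767360 824633720832 1 1 = true := by decide +kernel
theorem cf17_4 : chkFar
   (.sS (.sT (.D 5 0 0) (.D 5 0 0)) (.D 5 0 0))
    824633720832 1099511627776 549755813888 687194767360 1 1 = true := by decide +kernel
theorem cf17_5 : chkFar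
   (.sS (.D 6 1 0) (.D 5 0 0))
    824633720832 1099511627776 687194767360 824633720832 1 1 = true := by decide +kernel
theorem cf17_6 : chkFar
   (.sT (.sS (.D 5 0 0) (.D 5 0 0)) (.D 7 0 0))
    549755813888 687194767360 824633720832 962072674304 1 1 = true := by decide +kernel
theorem cf17_7 : chkFar
   (.sT (.D 6 0 0) (.D 6 0 0))
    687194767360 824633720832 824633720832 962072674304 1 1 = true := by decide +kernel
theorem cf17_8 : chkFar
   (.sS (.sT (.D 6 0 0) (.D 6 0 0)) (.D 7 0 0))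
    549755813888 824633720832 962072674304 1099511627776 1 1 = true := by decide +kernel
theorem cf17_9 : chkFar
   (.sT (.sS (.D 6 0 0) (.D 5 0 0)) (.sS (.D 5 1 0) (.D 5 0 0)))
    824633720832 1099511627776 824633720832 1099511627776 1 1 = true := by decide +kernel
theorem cf17 (H : FarH) : FarBox 549755813888 1099511627776 549755813888 1099511627776 1 1 :=
   (fT (fS (fT (fS (H _ _ _ _ _ _ _ cf17_0) (H _ _ _ _ _ _ _ cf17_1)) (fS (H _ _ _ _ _ _ _ cf17_2) (H _ _ _ _ _ _ _
   cf17_3))) (fT (H _ _ _ _ _ _ _ cf17_4) (H _ _ _ _ _ _ _ cf17_5))) (fS (fT (fS (H _ _ _ _ _ _ _ cf17_6) (H _ _ _ _ _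
   _ _ cf17_7)) (H _ _ _ _ _ _ _ cf17_8)) (H _ _ _ _ _ _ _ cf17_9)))

theorem cf18_0 : chkFar
   (.sS .skip (.sT (.D 5 0 0) (.D 5 0 0)))
    1099511627776 1649267441664 0 274877906944 0 0 = true := by decide +kernel
theorem cf18_1 : chkFar
   (.sT (.sS (.sT (.D 4 1 0) (.D 4 1 0)) (.D 4 1 0)) (.sS (.D 4 1 0) (.D 4 1 0)))
    1099511627776 1374389534720 274877906944 549755813888 0 0 = true := by decide +kernel
theorem cf18_2 : chkFar
   (.sT (.D 6 0 0) (.sS (.D 4 0 0) (.D 4 0 0)))
    1374389534720 1649267441664 274877906944 549755813888 0 0 = true := by decide +kernel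
theorem cf18_3 : chkFar
   (.sT (.D 4 0 0) (.D 5 0 0))
    1649267441664 2199023255552 0 549755813888 0 0 = true := by decide +kernel
theorem cf18_4 : chkFar
   (.sT (.sS (.D 4 1 0) (.D 4 1 0)) (.sS (.D 4 1 0) (.D 4 1 0)))
    1099511627776 1374389534720 549755813888 824633720832 0 0 = true := by decide +kernel
theorem cf18_5 : chkFar
   (.sT (.D 5 1 0) (.D 5 1 0))
    1374389534720 1649267441664 549755813888 824633720832 0 0 = true := by decide +kernel
theorem cf18_6 : chkFar
   (.sT (.sS (.D 5 1 0) (.D 4 1 0)) (.sS (.D 5 1 0) (.D 4 1 0)))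
    1099511627776 1374389534720 824633720832 1099511627776 0 0 = true := by decide +kernel
theorem cf18_7 : chkFar
   (.sT (.D 4 1 0) (.D 4 1 0))
    1374389534720 1649267441664 824633720832 1099511627776 0 0 = true := by decide +kernel
theorem cf18_8 : chkFar
   (.sT (.D 8 0 0) (.sS (.D 4 0 0) (.D 4 0 0)))
    1649267441664 2199023255552 549755813888 1099511627776 0 0 = true := by decide +kernel
theorem cf18_9 : chkFar
   (.sS (.sT (.sS (.D 5 0 0) (.D 4 0 0)) (.sS (.D 5 0 0) (.D 4 0 0))) (.D 4 0 0))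
    1099511627776 1649267441664 0 274877906944 1 1 = true := by decide +kernel
theorem cf18_10 : chkFar
   (.sS (.sT (.sS (.D 5 0 0) (.D 4 0 0)) (.sS (.D 5 0 0) (.D 4 0 0))) (.D 4 0 0))
    1099511627776 1649267441664 274877906944 549755813888 1 1 = true := by decide +kernel
theorem cf18_11 : chkFar
   (.D 7 0 0)
    1649267441664 2199023255552 0 549755813888 1 1 = true := by decide +kernel
theorem cf18_12 : chkFar
   (.sS (.sT (.D 10 0 0) (.D 6 0 0)) (.D 5 0 0))
    1099511627776 1649267441664 549755813888 824633720832 1 1 = true := by decide +kernel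
theorem cf18_13 : chkFar
   (.sS (.sT (.D 5 0 0) (.D 5 0 0)) (.D 5 0 0))
    1099511627776 1649267441664 824633720832 1099511627776 1 1 = true := by decide +kernel
theorem cf18_14 : chkFar
   (.D 7 0 0)
    1649267441664 2199023255552 549755813888 1099511627776 1 1 = true := by decide +kernel
theorem cf18 (H : FarH) : FarBox 1099511627776 2199023255552 0 1099511627776 0 1 :=
   (fM rfl (fT (fS (fT (H _ _ _ _ _ _ _ cf18_0) (fS (H _ _ _ _ _ _ _ cf18_1) (H _ _ _ _ _ _ _ cf18_2))) (H _ _ _ _ _ _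
   _ cf18_3)) (fS (fT (fS (H _ _ _ _ _ _ _ cf18_4) (H _ _ _ _ _ _ _ cf18_5)) (fS (H _ _ _ _ _ _ _ cf18_6) (H _ _ _ _ _
   _ _ cf18_7))) (H _ _ _ _ _ _ _ cf18_8))) (fT (fS (fT (H _ _ _ _ _ _ _ cf18_9) (H _ _ _ _ _ _ _ cf18_10)) (H _ _ _ _
   _ _ _ cf18_11)) (fS (fT (H _ _ _ _ _ _ _ cf18_12) (H _ _ _ _ _ _ _ cf18_13)) (H _ _ _ _ _ _ _ cf18_14))))

theorem cf19_0 : chkFar
   (.sS (.sT (.D 7 0 0) (.D 7 0 0)) (.D 10 0 0))
    0 68719476736 1099511627776 1133871366144 0 0 = true := by decide +kernel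
theorem cf19_1 : chkFar
   (.sT (.D 7 0 0) (.D 7 0 0))
    0 34359738368 1133871366144 1168231104512 0 0 = true := by decide +kernel
theorem cf19_2 : chkFar
   (.sT (.D 7 0 0) (.D 7 0 0))
    34359738368 68719476736 1133871366144 1168231104512 0 0 = true := by decide +kernel
theorem cf19_3 : chkFar
   (.sS (.D 7 0 0) (.D 7 0 0))
    68719476736 137438953472 1099511627776 1133871366144 0 0 = true := by decide +kernel
theorem cf19_4 : chkFar
   (.sS (.D 8 0 0) (.D 7 0 0))
    68719476736 137438953472 1133871366144 1168231104512 0 0 = true := by decide +kernel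
theorem cf19_5 : chkFar
   (.sT (.D 7 0 0) (.D 8 0 0))
    0 34359738368 1168231104512 1202590842880 0 0 = true := by decide +kernel
theorem cf19_6 : chkFar
   (.sT (.D 7 0 0) (.D 7 0 0))
    34359738368 68719476736 1168231104512 1202590842880 0 0 = true := by decide +kernel
theorem cf19_7 : chkFar
   (.sT (.D 8 0 0) (.D 8 0 0))
    0 34359738368 1202590842880 1236950581248 0 0 = true := by decide +kernel
theorem cf19_8 : chkFar
   (.sT (.D 7 0 0) (.D 7 0 0))
    34359738368 68719476736 1202590842880 1236950581248 0 0 = true := by decide +kernel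
theorem cf19_9 : chkFar
   (.sS (.D 8 0 0) (.D 7 0 0))
    68719476736 137438953472 1168231104512 1202590842880 0 0 = true := by decide +kernel
theorem cf19_10 : chkFar
   (.sS (.D 10 0 0) (.D 7 0 0))
    68719476736 137438953472 1202590842880 1236950581248 0 0 = true := by decide +kernel
theorem cf19_11 : chkFar
   (.sT (.sS (.D 7 0 0) (.D 6 0 0)) (.sS (.D 7 0 0) (.D 6 0 0)))
    137438953472 206158430208 1099511627776 1168231104512 0 0 = true := by decide +kernel
theorem cf19_12 : chkFar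
   (.sT (.sS (.D 6 0 0) (.D 6 0 0)) (.sS (.D 6 0 0) (.D 6 0 0)))
    206158430208 274877906944 1099511627776 1168231104512 0 0 = true := by decide +kernel
theorem cf19_13 : chkFar
   (.sS (.D 7 0 0) (.D 7 0 0))
    137438953472 206158430208 1168231104512 1202590842880 0 0 = true := by decide +kernel
theorem cf19_14 : chkFar
   (.sS (.D 7 0 0) (.D 7 0 0))
    137438953472 206158430208 1202590842880 1236950581248 0 0 = true := by decide +kernel
theorem cf19_15 : chkFar
   (.sT (.sS (.D 6 0 0) (.D 6 0 0)) (.sS (.D 6 0 0) (.D 6 0 0)))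
    206158430208 274877906944 1168231104512 1236950581248 0 0 = true := by decide +kernel
theorem cf19_16 : chkFar
   (.sT (.D 7 1 0) (.D 7 1 0))
    0 34359738368 1236950581248 1271310319616 0 0 = true := by decide +kernel
theorem cf19_17 : chkFar
   (.sT (.D 7 0 0) (.D 7 0 0))
    34359738368 68719476736 1236950581248 1271310319616 0 0 = true := by decide +kernel
theorem cf19_18 : chkFar
   (.sT (.D 7 1 0) (.D 7 1 0))
    0 34359738368 1271310319616 1305670057984 0 0 = true := by decide +kernel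
theorem cf19_19 : chkFar
   (.sT (.D 7 0 0) (.D 7 0 0))
    34359738368 68719476736 1271310319616 1305670057984 0 0 = true := by decide +kernel
theorem cf19_20 : chkFar
   (.sS (.D 10 0 0) (.D 7 0 0))
    68719476736 137438953472 1236950581248 1271310319616 0 0 = true := by decide +kernel
theorem cf19_21 : chkFar
   (.sS (.D 10 0 0) (.D 7 0 0))
    68719476736 137438953472 1271310319616 1305670057984 0 0 = true := by decide +kernel
theorem cf19_22 : chkFar
   (.sS (.D 10 1 0) (.D 10 1 0))
    0 68719476736 1305670057984 1340029796352 0 0 = true := by decide +kernel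
theorem cf19_23 : chkFar
   (.sS (.D 8 1 0) (.D 8 1 0))
    0 68719476736 1340029796352 1374389534720 0 0 = true := by decide +kernel
theorem cf19_24 : chkFar
   (.sS (.D 10 0 0) (.D 8 0 0))
    68719476736 137438953472 1305670057984 1340029796352 0 0 = true := by decide +kernel
theorem cf19_25 : chkFar
   (.sS (.D 10 0 0) (.D 8 0 0))
    68719476736 137438953472 1340029796352 1374389534720 0 0 = true := by decide +kernel
theorem cf19_26 : chkFar
   (.sS (.D 7 0 0) (.D 7 0 0))
    137438953472 206158430208 1236950581248 1271310319616 0 0 = true := by decide +kernel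
theorem cf19_27 : chkFar
   (.sS (.D 7 0 0) (.D 7 0 0))
    137438953472 206158430208 1271310319616 1305670057984 0 0 = true := by decide +kernel
theorem cf19_28 : chkFar
   (.sT (.sS (.D 6 0 0) (.D 6 0 0)) (.sS (.D 7 0 0) (.D 6 0 0)))
    206158430208 274877906944 1236950581248 1305670057984 0 0 = true := by decide +kernel
theorem cf19_29 : chkFar
   (.sS (.D 7 0 0) (.D 7 0 0))
    137438953472 206158430208 1305670057984 1340029796352 0 0 = true := by decide +kernel
theorem cf19_30 : chkFar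
   (.sS (.D 7 0 0) (.D 7 0 0))
    137438953472 206158430208 1340029796352 1374389534720 0 0 = true := by decide +kernel
theorem cf19_31 : chkFar
   (.sT (.sS (.D 7 0 0) (.D 6 0 0)) (.sS (.D 7 0 0) (.D 6 0 0)))
    206158430208 274877906944 1305670057984 1374389534720 0 0 = true := by decide +kernel
theorem cf19 (H : FarH) : FarBox 0 274877906944 1099511627776 1374389534720 0 0 :=
   (fT (fS (fT (fS (fT (H _ _ _ _ _ _ _ cf19_0) (fS (H _ _ _ _ _ _ _ cf19_1) (H _ _ _ _ _ _ _ cf19_2))) (fT (H _ _ _ _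
   _ _ _ cf19_3) (H _ _ _ _ _ _ _ cf19_4))) (fS (fT (fS (H _ _ _ _ _ _ _ cf19_5) (H _ _ _ _ _ _ _ cf19_6)) (fS (H _ _
   _ _ _ _ _ cf19_7) (H _ _ _ _ _ _ _ cf19_8))) (fT (H _ _ _ _ _ _ _ cf19_9) (H _ _ _ _ _ _ _ cf19_10)))) (fT (fS (H _
   _ _ _ _ _ _ cf19_11) (H _ _ _ _ _ _ _ cf19_12)) (fS (fT (H _ _ _ _ _ _ _ cf19_13) (H _ _ _ _ _ _ _ cf19_14)) (H _ _
   _ _ _ _ _ cf19_15)))) (fS (fT (fS (fT (fS (H _ _ _ _ _ _ _ cf19_16) (H _ _ _ _ _ _ _ cf19_17)) (fS (H _ _ _ _ _ _ _
   cf19_18) (H _ _ _ _ _ _ _ cf19_19))) (fT (H _ _ _ _ _ _ _ cf19_20) (H _ _ _ _ _ _ _ cf19_21))) (fS (fT (H _ _ _ _ _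
   _ _ cf19_22) (H _ _ _ _ _ _ _ cf19_23)) (fT (H _ _ _ _ _ _ _ cf19_24) (H _ _ _ _ _ _ _ cf19_25)))) (fT (fS (fT (H _
   _ _ _ _ _ _ cf19_26) (H _ _ _ _ _ _ _ cf19_27)) (H _ _ _ _ _ _ _ cf19_28)) (fS (fT (H _ _ _ _ _ _ _ cf19_29) (H _ _
   _ _ _ _ _ cf19_30)) (H _ _ _ _ _ _ _ cf19_31)))))

theorem cf20_0 : chkFar
   (.sT (.D 8 0 0) (.D 8 0 0))
    274877906944 343597383680 1099511627776 1168231104512 0 0 = true := by decide +kernel
theorem cf20_1 : chkFar
   (.sT (.D 7 0 0) (.D 7 0 0))
    343597383680 412316860416 1099511627776 1168231104512 0 0 = true := by decide +kernel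
theorem cf20_2 : chkFar
   (.sT (.D 8 0 0) (.D 8 0 0))
    274877906944 343597383680 1168231104512 1236950581248 0 0 = true := by decide +kernel
theorem cf20_3 : chkFar
   (.sT (.D 7 0 0) (.D 7 0 0))
    343597383680 412316860416 1168231104512 1236950581248 0 0 = true := by decide +kernel
theorem cf20_4 : chkFar
   (.sS (.sT (.D 6 0 0) (.D 6 0 0)) (.D 7 0 0))
    412316860416 549755813888 1099511627776 1168231104512 0 0 = true := by decide +kernel
theorem cf20_5 : chkFar
   (.sS (.sT (.D 6 0 0) (.D 6 0 0)) (.D 7 0 0))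
    412316860416 549755813888 1168231104512 1236950581248 0 0 = true := by decide +kernel
theorem cf20_6 : chkFar
   (.sT (.D 8 0 0) (.D 8 0 0))
    274877906944 343597383680 1236950581248 1305670057984 0 0 = true := by decide +kernel
theorem cf20_7 : chkFar
   (.sT (.D 7 0 0) (.D 7 0 0))
    343597383680 412316860416 1236950581248 1305670057984 0 0 = true := by decide +kernel
theorem cf20_8 : chkFar
   (.sT (.D 8 0 0) (.D 8 0 0))
    274877906944 343597383680 1305670057984 1374389534720 0 0 = true := by decide +kernel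
theorem cf20_9 : chkFar
   (.sT (.D 7 0 0) (.D 7 0 0))
    343597383680 412316860416 1305670057984 1374389534720 0 0 = true := by decide +kernel
theorem cf20_10 : chkFar
   (.sS (.D 8 0 0) (.D 7 0 0))
    412316860416 549755813888 1236950581248 1305670057984 0 0 = true := by decide +kernel
theorem cf20_11 : chkFar
   (.sS (.D 7 0 0) (.D 7 0 0))
    412316860416 549755813888 1305670057984 1374389534720 0 0 = true := by decide +kernel
theorem cf20 (H : FarH) : FarBox 274877906944 549755813888 1099511627776 1374389534720 0 0 :=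
   (fT (fS (fT (fS (H _ _ _ _ _ _ _ cf20_0) (H _ _ _ _ _ _ _ cf20_1)) (fS (H _ _ _ _ _ _ _ cf20_2) (H _ _ _ _ _ _ _
   cf20_3))) (fT (H _ _ _ _ _ _ _ cf20_4) (H _ _ _ _ _ _ _ cf20_5))) (fS (fT (fS (H _ _ _ _ _ _ _ cf20_6) (H _ _ _ _ _
   _ _ cf20_7)) (fS (H _ _ _ _ _ _ _ cf20_8) (H _ _ _ _ _ _ _ cf20_9))) (fT (H _ _ _ _ _ _ _ cf20_10) (H _ _ _ _ _ _ _
   cf20_11))))

theorem cf21_0 : chkFar
   (.sS (.D 8 1 0) (.D 8 1 0))
    0 68719476736 1374389534720 1408749273088 0 0 = true := by decide +kernel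
theorem cf21_1 : chkFar
   (.sS (.D 8 1 0) (.D 7 1 0))
    0 68719476736 1408749273088 1443109011456 0 0 = true := by decide +kernel
theorem cf21_2 : chkFar
   (.sS (.D 10 0 0) (.D 8 0 0))
    68719476736 137438953472 1374389534720 1408749273088 0 0 = true := by decide +kernel
theorem cf21_3 : chkFar
   (.sS (.D 7 1 0) (.D 8 0 0))
    68719476736 137438953472 1408749273088 1443109011456 0 0 = true := by decide +kernel
theorem cf21_4 : chkFar
   (.sS (.D 7 1 0) (.D 7 1 0))
    0 68719476736 1443109011456 1477468749824 0 0 = true := by decide +kernel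
theorem cf21_5 : chkFar
   (.sS (.D 7 1 0) (.D 7 1 0))
    0 68719476736 1477468749824 1511828488192 0 0 = true := by decide +kernel
theorem cf21_6 : chkFar
   (.sS (.D 7 1 0) (.D 7 0 0))
    68719476736 137438953472 1443109011456 1477468749824 0 0 = true := by decide +kernel
theorem cf21_7 : chkFar
   (.sS (.D 7 1 0) (.D 7 0 0))
    68719476736 137438953472 1477468749824 1511828488192 0 0 = true := by decide +kernel
theorem cf21_8 : chkFar
   (.sS (.D 7 0 0) (.D 7 0 0))
    137438953472 206158430208 1374389534720 1408749273088 0 0 = true := by decide +kernel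
theorem cf21_9 : chkFar
   (.sS (.D 7 0 0) (.D 7 0 0))
    137438953472 206158430208 1408749273088 1443109011456 0 0 = true := by decide +kernel
theorem cf21_10 : chkFar
   (.sS (.D 7 0 0) (.D 6 0 0))
    206158430208 274877906944 1374389534720 1408749273088 0 0 = true := by decide +kernel
theorem cf21_11 : chkFar
   (.sS (.D 7 0 0) (.D 7 0 0))
    206158430208 274877906944 1408749273088 1443109011456 0 0 = true := by decide +kernel
theorem cf21_12 : chkFar
   (.sS (.D 7 0 0) (.D 7 0 0))
    137438953472 206158430208 1443109011456 1477468749824 0 0 = true := by decide +kernel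
theorem cf21_13 : chkFar
   (.sS (.D 7 0 0) (.D 7 0 0))
    137438953472 206158430208 1477468749824 1511828488192 0 0 = true := by decide +kernel
theorem cf21_14 : chkFar
   (.sT (.sS (.D 7 0 0) (.D 7 0 0)) (.D 10 0 0))
    206158430208 274877906944 1443109011456 1511828488192 0 0 = true := by decide +kernel
theorem cf21_15 : chkFar
   (.sS (.D 7 1 0) (.D 7 1 0))
    0 68719476736 1511828488192 1546188226560 0 0 = true := by decide +kernel
theorem cf21_16 : chkFar
   (.sS (.D 7 1 0) (.D 7 1 0))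
    0 68719476736 1546188226560 1580547964928 0 0 = true := by decide +kernel
theorem cf21_17 : chkFar
   (.sS (.D 7 1 0) (.D 7 0 0))
    68719476736 137438953472 1511828488192 1546188226560 0 0 = true := by decide +kernel
theorem cf21_18 : chkFar
   (.sS (.D 7 1 0) (.D 7 0 0))
    68719476736 137438953472 1546188226560 1580547964928 0 0 = true := by decide +kernel
theorem cf21_19 : chkFar
   (.sS (.D 7 1 0) (.D 7 1 0))
    0 68719476736 1580547964928 1614907703296 0 0 = true := by decide +kernel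
theorem cf21_20 : chkFar
   (.sS (.D 7 1 0) (.D 7 1 0))
    0 68719476736 1614907703296 1649267441664 0 0 = true := by decide +kernel
theorem cf21_21 : chkFar
   (.sT (.sS (.D 7 1 0) (.D 7 0 0)) (.D 12 1 0))
    68719476736 137438953472 1580547964928 1649267441664 0 0 = true := by decide +kernel
theorem cf21_22 : chkFar
   (.sS (.D 7 0 0) (.D 7 0 0))
    137438953472 206158430208 1511828488192 1546188226560 0 0 = true := by decide +kernel
theorem cf21_23 : chkFar
   (.sS (.D 7 0 0) (.D 7 0 0))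
    137438953472 206158430208 1546188226560 1580547964928 0 0 = true := by decide +kernel
theorem cf21_24 : chkFar
   (.sT (.D 8 0 0) (.D 8 0 0))
    206158430208 274877906944 1511828488192 1580547964928 0 0 = true := by decide +kernel
theorem cf21_25 : chkFar
   (.sT (.D 10 1 0) (.D 8 1 0))
    137438953472 206158430208 1580547964928 1649267441664 0 0 = true := by decide +kernel
theorem cf21_26 : chkFar
   (.sT (.D 8 0 0) (.D 7 1 0))
    206158430208 274877906944 1580547964928 1649267441664 0 0 = true := by decide +kernel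
theorem cf21_27 : chkFar
   (.sT (.D 7 0 0) (.D 7 0 0))
    274877906944 343597383680 1374389534720 1443109011456 0 0 = true := by decide +kernel
theorem cf21_28 : chkFar
   (.sT (.D 7 0 0) (.D 7 0 0))
    343597383680 412316860416 1374389534720 1443109011456 0 0 = true := by decide +kernel
theorem cf21_29 : chkFar
   (.sS (.sT (.D 7 0 0) (.D 7 0 0)) (.D 8 0 0))
    274877906944 412316860416 1443109011456 1511828488192 0 0 = true := by decide +kernel
theorem cf21_30 : chkFar
   (.sS (.D 7 0 0) (.D 7 0 0))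
    412316860416 549755813888 1374389534720 1443109011456 0 0 = true := by decide +kernel
theorem cf21_31 : chkFar
   (.sS (.D 7 0 0) (.D 6 0 0))
    412316860416 549755813888 1443109011456 1511828488192 0 0 = true := by decide +kernel
theorem cf21_32 : chkFar
   (.sS (.sT (.D 7 0 0) (.D 7 0 0)) (.D 8 0 0))
    274877906944 412316860416 1511828488192 1580547964928 0 0 = true := by decide +kernel
theorem cf21_33 : chkFar
   (.sS (.D 10 0 0) (.D 7 0 0))
    274877906944 412316860416 1580547964928 1649267441664 0 0 = true := by decide +kernel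
theorem cf21_34 : chkFar
   (.sT (.sS (.D 7 0 0) (.D 6 0 0)) (.sS (.D 7 0 0) (.D 6 0 0)))
    412316860416 549755813888 1511828488192 1649267441664 0 0 = true := by decide +kernel
theorem cf21 (H : FarH) : FarBox 0 549755813888 1374389534720 1649267441664 0 0 :=
   (fS (fT (fS (fT (fS (fT (H _ _ _ _ _ _ _ cf21_0) (H _ _ _ _ _ _ _ cf21_1)) (fT (H _ _ _ _ _ _ _ cf21_2) (H _ _ _ _
   _ _ _ cf21_3))) (fS (fT (H _ _ _ _ _ _ _ cf21_4) (H _ _ _ _ _ _ _ cf21_5)) (fT (H _ _ _ _ _ _ _ cf21_6) (H _ _ _ _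
   _ _ _ cf21_7)))) (fT (fS (fT (H _ _ _ _ _ _ _ cf21_8) (H _ _ _ _ _ _ _ cf21_9)) (fT (H _ _ _ _ _ _ _ cf21_10) (H _
   _ _ _ _ _ _ cf21_11))) (fS (fT (H _ _ _ _ _ _ _ cf21_12) (H _ _ _ _ _ _ _ cf21_13)) (H _ _ _ _ _ _ _ cf21_14))))
   (fS (fT (fS (fT (H _ _ _ _ _ _ _ cf21_15) (H _ _ _ _ _ _ _ cf21_16)) (fT (H _ _ _ _ _ _ _ cf21_17) (H _ _ _ _ _ _ _
   cf21_18))) (fS (fT (H _ _ _ _ _ _ _ cf21_19) (H _ _ _ _ _ _ _ cf21_20)) (H _ _ _ _ _ _ _ cf21_21))) (fT (fS (fT (H
   _ _ _ _ _ _ _ cf21_22) (H _ _ _ _ _ _ _ cf21_23)) (H _ _ _ _ _ _ _ cf21_24)) (fS (H _ _ _ _ _ _ _ cf21_25) (H _ _ _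
   _ _ _ _ cf21_26))))) (fT (fS (fT (fS (H _ _ _ _ _ _ _ cf21_27) (H _ _ _ _ _ _ _ cf21_28)) (H _ _ _ _ _ _ _
   cf21_29)) (fT (H _ _ _ _ _ _ _ cf21_30) (H _ _ _ _ _ _ _ cf21_31))) (fS (fT (H _ _ _ _ _ _ _ cf21_32) (H _ _ _ _ _
   _ _ cf21_33)) (H _ _ _ _ _ _ _ cf21_34))))


end Crest.Agent.R086.N
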