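import Crest.Agent.R086.N.Spl

/-! generated certificate -/

namespace Crest.Agent.R086.N

set_option maxRecDepth 100000
set_option Elab.async false

theorem cf22_0 : chkFar
   (.sT (.sS (.D 6 0 0) (.D 6 0 0)) (.sS (.D 6 0 0) (.D 6 0 0)))
    549755813888 687194767360 1099511627776 1236950581248 0 0 = true := by decide +kernel
theorem cf22_1 : chkFar
   (.sT (.sS (.D 6 0 0) (.D 5 0 0)) (.sS (.D 6 0 0) (.D 5 0 0)))
    687194767360 824633720832 1099511627776 1236950581248 0 0 = true := by decide +kernel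
theorem cf22_2 : chkFar
   (.sT (.sS (.D 6 0 0) (.D 6 0 0)) (.sS (.D 6 0 0) (.D 6 0 0)))
    549755813888 687194767360 1236950581248 1374389534720 0 0 = true := by decide +kernel
theorem cf22_3 : chkFar
   (.sT (.sS (.D 6 0 0) (.D 5 0 0)) (.D 8 0 0))
    687194767360 824633720832 1236950581248 1374389534720 0 0 = true := by decide +kernel
theorem cf22_4 : chkFar
   (.sS (.sT (.D 6 1 0) (.D 6 1 0)) (.D 6 1 0))
    824633720832 1099511627776 1099511627776 1236950581248 0 0 = true := by decide +kernel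
theorem cf22_5 : chkFar
   (.sS (.sT (.D 6 1 0) (.D 6 0 0)) (.D 6 1 0))
    824633720832 1099511627776 1236950581248 1374389534720 0 0 = true := by decide +kernel
theorem cf22_6 : chkFar
   (.sT (.sS (.D 6 0 0) (.D 6 0 0)) (.sS (.D 6 0 0) (.D 6 0 0)))
    549755813888 687194767360 1374389534720 1511828488192 0 0 = true := by decide +kernel
theorem cf22_7 : chkFar
   (.sT (.D 7 0 0) (.D 7 0 0))
    687194767360 824633720832 1374389534720 1511828488192 0 0 = true := by decide +kernel
theorem cf22_8 : chkFar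
   (.sT (.sS (.D 6 0 0) (.D 6 0 0)) (.D 8 0 0))
    549755813888 687194767360 1511828488192 1649267441664 0 0 = true := by decide +kernel
theorem cf22_9 : chkFar
   (.sT (.D 7 0 0) (.D 6 1 0))
    687194767360 824633720832 1511828488192 1649267441664 0 0 = true := by decide +kernel
theorem cf22_10 : chkFar
   (.sT (.sS (.D 7 1 0) (.D 6 1 0)) (.sS (.D 6 1 0) (.D 6 0 0)))
    824633720832 1099511627776 1374389534720 1649267441664 0 0 = true := by decide +kernel
theorem cf22 (H : FarH) : FarBox 549755813888 1099511627776 1099511627776 1649267441664 0 0 :=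
   (fT (fS (fT (fS (H _ _ _ _ _ _ _ cf22_0) (H _ _ _ _ _ _ _ cf22_1)) (fS (H _ _ _ _ _ _ _ cf22_2) (H _ _ _ _ _ _ _
   cf22_3))) (fT (H _ _ _ _ _ _ _ cf22_4) (H _ _ _ _ _ _ _ cf22_5))) (fS (fT (fS (H _ _ _ _ _ _ _ cf22_6) (H _ _ _ _ _
   _ _ cf22_7)) (fS (H _ _ _ _ _ _ _ cf22_8) (H _ _ _ _ _ _ _ cf22_9))) (H _ _ _ _ _ _ _ cf22_10)))

theorem cf23_0 : chkFar
   (.sT (.sS (.D 7 1 0) (.D 7 1 0)) (.D 12 1 0))
    0 68719476736 1649267441664 1717986918400 0 0 = true := by decide +kernel
theorem cf23_1 : chkFar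
   (.sT (.D 10 1 0) (.D 8 1 0))
    68719476736 137438953472 1649267441664 1717986918400 0 0 = true := by decide +kernel
theorem cf23_2 : chkFar
   (.sT (.D 10 1 0) (.D 10 1 0))
    0 68719476736 1717986918400 1786706395136 0 0 = true := by decide +kernel
theorem cf23_3 : chkFar
   (.sT (.D 8 1 0) (.D 8 1 0))
    68719476736 137438953472 1717986918400 1786706395136 0 0 = true := by decide +kernel
theorem cf23_4 : chkFar
   (.sT (.D 8 1 0) (.D 8 0 0))
    137438953472 206158430208 1649267441664 1717986918400 0 0 = true := by decide +kernel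
theorem cf23_5 : chkFar
   (.sT (.D 7 1 0) (.D 7 1 0))
    206158430208 274877906944 1649267441664 1717986918400 0 0 = true := by decide +kernel
theorem cf23_6 : chkFar
   (.sS (.sT (.D 7 1 0) (.D 7 1 0)) (.D 8 1 0))
    137438953472 274877906944 1717986918400 1786706395136 0 0 = true := by decide +kernel
theorem cf23_7 : chkFar
   (.sT (.D 8 1 0) (.D 8 1 0))
    0 68719476736 1786706395136 1855425871872 0 0 = true := by decide +kernel
theorem cf23_8 : chkFar
   (.sT (.D 8 1 0) (.D 8 1 0))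
    68719476736 137438953472 1786706395136 1855425871872 0 0 = true := by decide +kernel
theorem cf23_9 : chkFar
   (.sS (.sT (.D 8 1 0) (.D 8 1 0)) (.D 10 1 0))
    0 137438953472 1855425871872 1924145348608 0 0 = true := by decide +kernel
theorem cf23_10 : chkFar
   (.sS (.D 10 1 0) (.D 8 0 0))
    137438953472 274877906944 1786706395136 1855425871872 0 0 = true := by decide +kernel
theorem cf23_11 : chkFar
   (.sS (.D 8 1 0) (.D 7 1 0))
    137438953472 274877906944 1855425871872 1924145348608 0 0 = true := by decide +kernel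
theorem cf23_12 : chkFar
   (.sS (.D 8 0 0) (.D 7 0 0))
    274877906944 412316860416 1649267441664 1717986918400 0 0 = true := by decide +kernel
theorem cf23_13 : chkFar
   (.sS (.D 7 1 0) (.D 7 0 0))
    274877906944 412316860416 1717986918400 1786706395136 0 0 = true := by decide +kernel
theorem cf23_14 : chkFar
   (.sT (.sS (.D 7 0 0) (.D 6 0 0)) (.sS (.D 7 0 0) (.D 6 1 0)))
    412316860416 549755813888 1649267441664 1786706395136 0 0 = true := by decide +kernel
theorem cf23_15 : chkFar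
   (.sS (.D 7 1 0) (.D 7 0 0))
    274877906944 412316860416 1786706395136 1855425871872 0 0 = true := by decide +kernel
theorem cf23_16 : chkFar
   (.sS (.D 7 1 0) (.D 7 0 0))
    274877906944 412316860416 1855425871872 1924145348608 0 0 = true := by decide +kernel
theorem cf23_17 : chkFar
   (.sT (.sS (.D 7 0 0) (.D 6 1 0)) (.D 8 1 0))
    412316860416 549755813888 1786706395136 1924145348608 0 0 = true := by decide +kernel
theorem cf23_18 : chkFar
   (.sS (.D 10 1 0) (.D 8 1 0))
    0 137438953472 1924145348608 1992864825344 0 0 = true := by decide +kernel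
theorem cf23_19 : chkFar
   (.sS (.D 10 0 0) (.D 8 1 0))
    0 137438953472 1992864825344 2061584302080 0 0 = true := by decide +kernel
theorem cf23_20 : chkFar
   (.sS (.D 8 0 0) (.D 7 1 0))
    137438953472 274877906944 1924145348608 1992864825344 0 0 = true := by decide +kernel
theorem cf23_21 : chkFar
   (.sS (.D 8 0 0) (.D 7 1 0))
    137438953472 274877906944 1992864825344 2061584302080 0 0 = true := by decide +kernel
theorem cf23_22 : chkFar
   (.sS (.D 8 1 0) (.D 8 0 0))
    0 137438953472 2061584302080 2130303778816 0 0 = true := by decide +kernel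
theorem cf23_23 : chkFar
   (.sS (.D 8 1 0) (.D 8 0 0))
    0 137438953472 2130303778816 2199023255552 0 0 = true := by decide +kernel
theorem cf23_24 : chkFar
   (.sS (.D 7 1 0) (.D 7 1 0))
    137438953472 274877906944 2061584302080 2130303778816 0 0 = true := by decide +kernel
theorem cf23_25 : chkFar
   (.sS (.D 7 1 0) (.D 7 1 0))
    137438953472 274877906944 2130303778816 2199023255552 0 0 = true := by decide +kernel
theorem cf23_26 : chkFar
   (.sT (.sS (.D 7 0 0) (.D 7 0 0)) (.D 10 1 0))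
    274877906944 412316860416 1924145348608 2061584302080 0 0 = true := by decide +kernel
theorem cf23_27 : chkFar
   (.sT (.D 8 0 0) (.D 7 1 0))
    412316860416 549755813888 1924145348608 2061584302080 0 0 = true := by decide +kernel
theorem cf23_28 : chkFar
   (.sT (.D 10 1 0) (.D 8 1 0))
    274877906944 412316860416 2061584302080 2199023255552 0 0 = true := by decide +kernel
theorem cf23_29 : chkFar
   (.D 10 1 0)
    412316860416 549755813888 2061584302080 2199023255552 0 0 = true := by decide +kernel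
theorem cf23_30 : chkFar
   (.sS (.sT (.D 8 0 0) (.D 7 0 0)) (.D 8 1 0))
    549755813888 824633720832 1649267441664 1786706395136 0 0 = true := by decide +kernel
theorem cf23_31 : chkFar
   (.sS (.sT (.D 7 0 0) (.D 7 0 0)) (.D 7 1 0))
    549755813888 824633720832 1786706395136 1924145348608 0 0 = true := by decide +kernel
theorem cf23_32 : chkFar
   (.sT (.sS (.D 6 1 0) (.D 6 0 0)) (.sS (.D 6 1 0) (.D 6 0 0)))
    824633720832 1099511627776 1649267441664 1924145348608 0 0 = true := by decide +kernel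
theorem cf23_33 : chkFar
   (.sS (.D 8 1 0) (.D 7 0 0))
    549755813888 824633720832 1924145348608 2061584302080 0 0 = true := by decide +kernel
theorem cf23_34 : chkFar
   (.sS (.D 7 1 0) (.D 7 0 0))
    549755813888 824633720832 2061584302080 2199023255552 0 0 = true := by decide +kernel
theorem cf23_35 : chkFar
   (.sT (.D 10 1 0) (.D 8 1 0))
    824633720832 1099511627776 1924145348608 2199023255552 0 0 = true := by decide +kernel
theorem cf23 (H : FarH) : FarBox 0 1099511627776 1649267441664 2199023255552 0 0 :=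
   (fS (fT (fS (fT (fS (fT (fS (H _ _ _ _ _ _ _ cf23_0) (H _ _ _ _ _ _ _ cf23_1)) (fS (H _ _ _ _ _ _ _ cf23_2) (H _ _
   _ _ _ _ _ cf23_3))) (fT (fS (H _ _ _ _ _ _ _ cf23_4) (H _ _ _ _ _ _ _ cf23_5)) (H _ _ _ _ _ _ _ cf23_6))) (fS (fT
   (fS (H _ _ _ _ _ _ _ cf23_7) (H _ _ _ _ _ _ _ cf23_8)) (H _ _ _ _ _ _ _ cf23_9)) (fT (H _ _ _ _ _ _ _ cf23_10) (H _
   _ _ _ _ _ _ cf23_11)))) (fT (fS (fT (H _ _ _ _ _ _ _ cf23_12) (H _ _ _ _ _ _ _ cf23_13)) (H _ _ _ _ _ _ _ cf23_14))
   (fS (fT (H _ _ _ _ _ _ _ cf23_15) (H _ _ _ _ _ _ _ cf23_16)) (H _ _ _ _ _ _ _ cf23_17)))) (fS (fT (fS (fT (H _ _ _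
   _ _ _ _ cf23_18) (H _ _ _ _ _ _ _ cf23_19)) (fT (H _ _ _ _ _ _ _ cf23_20) (H _ _ _ _ _ _ _ cf23_21))) (fS (fT (H _
   _ _ _ _ _ _ cf23_22) (H _ _ _ _ _ _ _ cf23_23)) (fT (H _ _ _ _ _ _ _ cf23_24) (H _ _ _ _ _ _ _ cf23_25)))) (fT (fS
   (H _ _ _ _ _ _ _ cf23_26) (H _ _ _ _ _ _ _ cf23_27)) (fS (H _ _ _ _ _ _ _ cf23_28) (H _ _ _ _ _ _ _ cf23_29)))))
   (fT (fS (fT (H _ _ _ _ _ _ _ cf23_30) (H _ _ _ _ _ _ _ cf23_31)) (H _ _ _ _ _ _ _ cf23_32)) (fS (fT (H _ _ _ _ _ _
   _ cf23_33) (H _ _ _ _ _ _ _ cf23_34)) (H _ _ _ _ _ _ _ cf23_35))))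

theorem cf24_0 : chkFar
   (.sS (.D 7 0 0) (.D 7 0 0))
    0 68719476736 1099511627776 1133871366144 1 1 = true := by decide +kernel
theorem cf24_1 : chkFar
   (.sS (.D 7 0 0) (.D 7 0 0))
    0 68719476736 1133871366144 1168231104512 1 1 = true := by decide +kernel
theorem cf24_2 : chkFar
   (.sT (.sS (.D 6 0 0) (.D 6 0 0)) (.sS (.D 6 0 0) (.D 6 0 0)))
    68719476736 137438953472 1099511627776 1168231104512 1 1 = true := by decide +kernel
theorem cf24_3 : chkFar
   (.sS (.D 7 0 0) (.D 7 0 0))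
    0 68719476736 1168231104512 1202590842880 1 1 = true := by decide +kernel
theorem cf24_4 : chkFar
   (.sS (.D 7 0 0) (.D 7 0 0))
    0 68719476736 1202590842880 1236950581248 1 1 = true := by decide +kernel
theorem cf24_5 : chkFar
   (.sT (.sS (.D 6 0 0) (.D 6 0 0)) (.D 8 0 0))
    68719476736 137438953472 1168231104512 1236950581248 1 1 = true := by decide +kernel
theorem cf24_6 : chkFar
   (.sS (.sT (.D 7 0 0) (.D 7 0 0)) (.sT (.D 6 0 0) (.D 6 0 0)))
    137438953472 274877906944 1099511627776 1168231104512 1 1 = true := by decide +kernel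
theorem cf24_7 : chkFar
   (.sS (.sT (.D 7 0 0) (.D 7 0 0)) (.D 8 0 0))
    137438953472 274877906944 1168231104512 1236950581248 1 1 = true := by decide +kernel
theorem cf24_8 : chkFar
   (.sS (.D 7 0 0) (.D 7 0 0))
    0 68719476736 1236950581248 1271310319616 1 1 = true := by decide +kernel
theorem cf24_9 : chkFar
   (.sS (.D 7 0 0) (.D 7 0 0))
    0 68719476736 1271310319616 1305670057984 1 1 = true := by decide +kernel
theorem cf24_10 : chkFar
   (.sT (.D 8 0 0) (.D 7 0 0))
    68719476736 137438953472 1236950581248 1305670057984 1 1 = true := by decide +kernel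
theorem cf24_11 : chkFar
   (.sS (.D 7 0 0) (.D 7 0 0))
    0 68719476736 1305670057984 1340029796352 1 1 = true := by decide +kernel
theorem cf24_12 : chkFar
   (.sS (.D 7 0 0) (.D 7 0 0))
    0 68719476736 1340029796352 1374389534720 1 1 = true := by decide +kernel
theorem cf24_13 : chkFar
   (.sT (.D 7 0 0) (.D 7 0 0))
    68719476736 137438953472 1305670057984 1374389534720 1 1 = true := by decide +kernel
theorem cf24_14 : chkFar
   (.sS (.sT (.D 7 0 0) (.D 7 0 0)) (.D 7 0 0))
    137438953472 274877906944 1236950581248 1305670057984 1 1 = true := by decide +kernel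
theorem cf24_15 : chkFar
   (.sS (.D 10 0 0) (.D 7 0 0))
    137438953472 274877906944 1305670057984 1374389534720 1 1 = true := by decide +kernel
theorem cf24_16 : chkFar
   (.sT (.sS (.D 7 0 0) (.D 6 0 0)) (.sS (.D 7 0 0) (.D 6 0 0)))
    274877906944 412316860416 1099511627776 1236950581248 1 1 = true := by decide +kernel
theorem cf24_17 : chkFar
   (.sT (.sS (.D 6 0 0) (.D 6 0 0)) (.sS (.D 6 0 0) (.D 6 0 0)))
    412316860416 549755813888 1099511627776 1236950581248 1 1 = true := by decide +kernel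
theorem cf24_18 : chkFar
   (.sT (.sS (.D 6 0 0) (.D 6 0 0)) (.sS (.D 6 0 0) (.D 6 0 0)))
    274877906944 412316860416 1236950581248 1374389534720 1 1 = true := by decide +kernel
theorem cf24_19 : chkFar
   (.sT (.D 8 0 0) (.D 7 0 0))
    412316860416 549755813888 1236950581248 1374389534720 1 1 = true := by decide +kernel
theorem cf24_20 : chkFar
   (.sT (.D 10 0 0) (.D 8 0 0))
    0 68719476736 1374389534720 1443109011456 1 1 = true := by decide +kernel
theorem cf24_21 : chkFar
   (.sT (.D 7 0 0) (.D 7 0 0))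
    68719476736 137438953472 1374389534720 1443109011456 1 1 = true := by decide +kernel
theorem cf24_22 : chkFar
   (.sT (.D 8 0 0) (.D 7 0 0))
    0 68719476736 1443109011456 1511828488192 1 1 = true := by decide +kernel
theorem cf24_23 : chkFar
   (.D 17 0 0)
    68719476736 137438953472 1443109011456 1511828488192 1 1 = true := by decide +kernel
theorem cf24_24 : chkFar
   (.sS (.D 8 0 0) (.D 7 0 0))
    137438953472 274877906944 1374389534720 1443109011456 1 1 = true := by decide +kernel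
theorem cf24_25 : chkFar
   (.sS (.D 7 0 0) (.D 7 0 0))
    137438953472 274877906944 1443109011456 1511828488192 1 1 = true := by decide +kernel
theorem cf24_26 : chkFar
   (.sS (.D 8 1 0) (.D 8 0 0))
    0 137438953472 1511828488192 1580547964928 1 1 = true := by decide +kernel
theorem cf24_27 : chkFar
   (.sS (.D 10 0 0) (.D 8 0 0))
    0 137438953472 1580547964928 1649267441664 1 1 = true := by decide +kernel
theorem cf24_28 : chkFar
   (.sT (.sS (.D 7 0 0) (.D 6 1 0)) (.sS (.D 7 0 0) (.D 6 1 0)))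
    137438953472 274877906944 1511828488192 1649267441664 1 1 = true := by decide +kernel
theorem cf24_29 : chkFar
   (.sT (.sS (.D 6 0 0) (.D 6 0 0)) (.sS (.D 6 0 0) (.D 6 0 0)))
    274877906944 412316860416 1374389534720 1511828488192 1 1 = true := by decide +kernel
theorem cf24_30 : chkFar
   (.sT (.D 7 0 0) (.D 6 1 0))
    412316860416 549755813888 1374389534720 1511828488192 1 1 = true := by decide +kernel
theorem cf24_31 : chkFar
   (.sS (.sT (.D 8 1 0) (.D 7 1 0)) (.D 8 1 0))
    274877906944 549755813888 1511828488192 1649267441664 1 1 = true := by decide +kernel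
theorem cf24 (H : FarH) : FarBox 0 549755813888 1099511627776 1649267441664 1 1 :=
   (fT (fS (fT (fS (fT (fS (fT (H _ _ _ _ _ _ _ cf24_0) (H _ _ _ _ _ _ _ cf24_1)) (H _ _ _ _ _ _ _ cf24_2)) (fS (fT (H
   _ _ _ _ _ _ _ cf24_3) (H _ _ _ _ _ _ _ cf24_4)) (H _ _ _ _ _ _ _ cf24_5))) (fT (H _ _ _ _ _ _ _ cf24_6) (H _ _ _ _
   _ _ _ cf24_7))) (fS (fT (fS (fT (H _ _ _ _ _ _ _ cf24_8) (H _ _ _ _ _ _ _ cf24_9)) (H _ _ _ _ _ _ _ cf24_10)) (fS
   (fT (H _ _ _ _ _ _ _ cf24_11) (H _ _ _ _ _ _ _ cf24_12)) (H _ _ _ _ _ _ _ cf24_13))) (fT (H _ _ _ _ _ _ _ cf24_14)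
   (H _ _ _ _ _ _ _ cf24_15)))) (fT (fS (H _ _ _ _ _ _ _ cf24_16) (H _ _ _ _ _ _ _ cf24_17)) (fS (H _ _ _ _ _ _ _
   cf24_18) (H _ _ _ _ _ _ _ cf24_19)))) (fS (fT (fS (fT (fS (H _ _ _ _ _ _ _ cf24_20) (H _ _ _ _ _ _ _ cf24_21)) (fS
   (H _ _ _ _ _ _ _ cf24_22) (H _ _ _ _ _ _ _ cf24_23))) (fT (H _ _ _ _ _ _ _ cf24_24) (H _ _ _ _ _ _ _ cf24_25))) (fS
   (fT (H _ _ _ _ _ _ _ cf24_26) (H _ _ _ _ _ _ _ cf24_27)) (H _ _ _ _ _ _ _ cf24_28))) (fT (fS (H _ _ _ _ _ _ _
   cf24_29) (H _ _ _ _ _ _ _ cf24_30)) (H _ _ _ _ _ _ _ cf24_31))))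

theorem cf25_0 : chkFar
   (.sS (.sT (.D 6 0 0) (.D 6 0 0)) (.D 6 0 0))
    549755813888 824633720832 1099511627776 1236950581248 1 1 = true := by decide +kernel
theorem cf25_1 : chkFar
   (.sS (.D 7 1 0) (.D 6 0 0))
    549755813888 824633720832 1236950581248 1374389534720 1 1 = true := by decide +kernel
theorem cf25_2 : chkFar
   (.sT (.sS (.D 5 1 0) (.D 5 0 0)) (.D 8 1 0))
    824633720832 1099511627776 1099511627776 1374389534720 1 1 = true := by decide +kernel
theorem cf25_3 : chkFar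
   (.sT (.sS (.D 6 1 0) (.D 6 0 0)) (.sS (.D 6 1 0) (.D 6 0 0)))
    549755813888 824633720832 1374389534720 1649267441664 1 1 = true := by decide +kernel
theorem cf25_4 : chkFar
   (.sT (.D 6 1 0) (.D 6 1 0))
    824633720832 1099511627776 1374389534720 1649267441664 1 1 = true := by decide +kernel
theorem cf25 (H : FarH) : FarBox 549755813888 1099511627776 1099511627776 1649267441664 1 1 :=
   (fT (fS (fT (H _ _ _ _ _ _ _ cf25_0) (H _ _ _ _ _ _ _ cf25_1)) (H _ _ _ _ _ _ _ cf25_2)) (fS (H _ _ _ _ _ _ _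
   cf25_3) (H _ _ _ _ _ _ _ cf25_4)))


end Crest.Agent.R086.N
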