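import Crest.Agent.R086.N.Spl

/-! generated certificate -/

namespace Crest.Agent.R086.N

set_option maxRecDepth 100000
set_option Elab.async false

theorem cf26_0 : chkFar
   (.sS (.D 7 1 0) (.D 7 0 0))
    0 137438953472 1649267441664 1717986918400 1 1 = true := by decide +kernel
theorem cf26_1 : chkFar
   (.sS (.D 7 1 0) (.D 7 0 0))
    0 137438953472 1717986918400 1786706395136 1 1 = true := by decide +kernel
theorem cf26_2 : chkFar
   (.sT (.sS (.D 7 0 0) (.D 6 1 0)) (.D 10 1 0))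
    137438953472 274877906944 1649267441664 1786706395136 1 1 = true := by decide +kernel
theorem cf26_3 : chkFar
   (.sS (.D 7 1 0) (.D 7 0 0))
    0 137438953472 1786706395136 1855425871872 1 1 = true := by decide +kernel
theorem cf26_4 : chkFar
   (.sS (.D 7 1 0) (.D 7 0 0))
    0 137438953472 1855425871872 1924145348608 1 1 = true := by decide +kernel
theorem cf26_5 : chkFar
   (.sT (.D 8 1 0) (.D 8 1 0))
    137438953472 274877906944 1786706395136 1924145348608 1 1 = true := by decide +kernel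
theorem cf26_6 : chkFar
   (.sS (.sT (.D 7 1 0) (.D 7 1 0)) (.D 7 1 0))
    274877906944 549755813888 1649267441664 1786706395136 1 1 = true := by decide +kernel
theorem cf26_7 : chkFar
   (.sS (.D 10 1 0) (.D 7 1 0))
    274877906944 549755813888 1786706395136 1924145348608 1 1 = true := by decide +kernel
theorem cf26_8 : chkFar
   (.sT (.sS (.D 7 1 0) (.D 7 0 0)) (.D 10 1 0))
    0 137438953472 1924145348608 2061584302080 1 1 = true := by decide +kernel
theorem cf26_9 : chkFar
   (.sT (.D 7 1 0) (.D 7 1 0))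
    137438953472 274877906944 1924145348608 2061584302080 1 1 = true := by decide +kernel
theorem cf26_10 : chkFar
   (.sS (.sT (.D 8 1 0) (.D 8 1 0)) (.D 10 1 0))
    0 274877906944 2061584302080 2199023255552 1 1 = true := by decide +kernel
theorem cf26_11 : chkFar
   (.sS (.D 8 1 0) (.D 7 0 0))
    274877906944 549755813888 1924145348608 2061584302080 1 1 = true := by decide +kernel
theorem cf26_12 : chkFar
   (.sS (.D 7 1 0) (.D 7 0 0))
    274877906944 549755813888 2061584302080 2199023255552 1 1 = true := by decide +kernel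
theorem cf26_13 : chkFar
   (.sT (.sS (.D 6 1 0) (.D 6 0 0)) (.sS (.D 6 1 0) (.D 6 0 0)))
    549755813888 824633720832 1649267441664 1924145348608 1 1 = true := by decide +kernel
theorem cf26_14 : chkFar
   (.D 10 1 0)
    824633720832 1099511627776 1649267441664 1924145348608 1 1 = true := by decide +kernel
theorem cf26_15 : chkFar
   (.sS (.sT (.D 8 1 0) (.D 7 1 0)) (.D 7 1 0))
    549755813888 1099511627776 1924145348608 2199023255552 1 1 = true := by decide +kernel
theorem cf26 (H : FarH) : FarBox 0 1099511627776 1649267441664 2199023255552 1 1 :=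
   (fS (fT (fS (fT (fS (fT (H _ _ _ _ _ _ _ cf26_0) (H _ _ _ _ _ _ _ cf26_1)) (H _ _ _ _ _ _ _ cf26_2)) (fS (fT (H _ _
   _ _ _ _ _ cf26_3) (H _ _ _ _ _ _ _ cf26_4)) (H _ _ _ _ _ _ _ cf26_5))) (fT (H _ _ _ _ _ _ _ cf26_6) (H _ _ _ _ _ _
   _ cf26_7))) (fS (fT (fS (H _ _ _ _ _ _ _ cf26_8) (H _ _ _ _ _ _ _ cf26_9)) (H _ _ _ _ _ _ _ cf26_10)) (fT (H _ _ _
   _ _ _ _ cf26_11) (H _ _ _ _ _ _ _ cf26_12)))) (fT (fS (H _ _ _ _ _ _ _ cf26_13) (H _ _ _ _ _ _ _ cf26_14)) (H _ _ _
   _ _ _ _ cf26_15)))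

theorem cf27_0 : chkFar
   (.sS (.sT (.sS (.D 5 1 0) (.D 4 1 0)) (.D 7 1 0)) (.D 6 1 0))
    1099511627776 1649267441664 1099511627776 1374389534720 0 0 = true := by decide +kernel
theorem cf27_1 : chkFar
   (.sS (.sT (.D 6 1 0) (.D 6 1 0)) (.D 5 1 0))
    1099511627776 1649267441664 1374389534720 1649267441664 0 0 = true := by decide +kernel
theorem cf27_2 : chkFar
   (.sT (.sS (.D 4 1 0) (.D 4 0 0)) (.D 6 1 0))
    1649267441664 2199023255552 1099511627776 1649267441664 0 0 = true := by decide +kernel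
theorem cf27_3 : chkFar
   (.sS (.sT (.D 6 1 0) (.D 6 1 0)) (.D 5 1 0))
    1099511627776 1649267441664 1649267441664 1924145348608 0 0 = true := by decide +kernel
theorem cf27_4 : chkFar
   (.sS (.D 7 1 0) (.D 6 1 0))
    1099511627776 1649267441664 1924145348608 2199023255552 0 0 = true := by decide +kernel
theorem cf27_5 : chkFar
   (.sT (.D 6 1 0) (.D 6 1 0))
    1649267441664 2199023255552 1649267441664 2199023255552 0 0 = true := by decide +kernel
theorem cf27_6 : chkFar
   (.sT (.sS (.D 6 1 0) (.D 5 0 0)) (.sS (.D 6 1 0) (.D 5 0 0)))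
    1099511627776 1649267441664 1099511627776 1649267441664 1 1 = true := by decide +kernel
theorem cf27_7 : chkFar
   (.D 8 1 0)
    1649267441664 2199023255552 1099511627776 1649267441664 1 1 = true := by decide +kernel
theorem cf27_8 : chkFar
   (.sS (.sT (.sS (.D 6 1 0) (.D 4 2 0)) (.D 10 1 0)) (.D 6 1 0))
    1099511627776 2199023255552 1649267441664 2199023255552 1 1 = true := by decide +kernel
theorem cf27 (H : FarH) : FarBox 1099511627776 2199023255552 1099511627776 2199023255552 0 1 :=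
   (fM rfl (fT (fS (fT (H _ _ _ _ _ _ _ cf27_0) (H _ _ _ _ _ _ _ cf27_1)) (H _ _ _ _ _ _ _ cf27_2)) (fS (fT (H _ _ _ _
   _ _ _ cf27_3) (H _ _ _ _ _ _ _ cf27_4)) (H _ _ _ _ _ _ _ cf27_5))) (fT (fS (H _ _ _ _ _ _ _ cf27_6) (H _ _ _ _ _ _
   _ cf27_7)) (H _ _ _ _ _ _ _ cf27_8)))

theorem cf28_0 : chkFar
   (.sS (.sT (.D 7 0 0) (.D 7 0 0)) (.sT (.D 6 0 0) (.D 6 0 0)))
    0 137438953472 0 68719476736 2 2 = true := by decide +kernel
theorem cf28_1 : chkFar
   (.sT (.D 7 0 0) (.D 7 0 0))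
    0 68719476736 68719476736 137438953472 2 2 = true := by decide +kernel
theorem cf28_2 : chkFar
   (.sT (.D 7 0 0) (.D 7 0 0))
    68719476736 137438953472 68719476736 137438953472 2 2 = true := by decide +kernel
theorem cf28_3 : chkFar
   (.sS (.D 7 0 0) (.D 6 0 0))
    137438953472 274877906944 0 68719476736 2 2 = true := by decide +kernel
theorem cf28_4 : chkFar
   (.sS (.sT (.D 6 0 0) (.D 6 0 0)) (.D 7 0 0))
    137438953472 274877906944 68719476736 137438953472 2 2 = true := by decide +kernel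
theorem cf28_5 : chkFar
   (.sT (.D 12 0 0) (.sS (.D 6 0 1) (.D 6 0 0)))
    0 68719476736 137438953472 206158430208 2 2 = true := by decide +kernel
theorem cf28_6 : chkFar
   (.sT (.D 7 0 0) (.sS (.D 6 0 0) (.D 6 0 0)))
    68719476736 137438953472 137438953472 206158430208 2 2 = true := by decide +kernel
theorem cf28_7 : chkFar
   (.sT (.sS (.D 6 0 1) (.D 6 0 1)) (.sS (.D 6 0 1) (.D 6 0 1)))
    0 68719476736 206158430208 274877906944 2 2 = true := by decide +kernel
theorem cf28_8 : chkFar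
   (.sT (.D 8 0 1) (.D 7 0 1))
    68719476736 137438953472 206158430208 274877906944 2 2 = true := by decide +kernel
theorem cf28_9 : chkFar
   (.sS (.sT (.D 7 0 0) (.D 7 0 0)) (.sT (.D 6 0 0) (.D 6 0 0)))
    137438953472 274877906944 137438953472 206158430208 2 2 = true := by decide +kernel
theorem cf28_10 : chkFar
   (.sS (.sT (.D 7 0 1) (.D 7 0 1)) (.sT (.D 6 0 1) (.D 6 0 1)))
    137438953472 274877906944 206158430208 274877906944 2 2 = true := by decide +kernel
theorem cf28_11 : chkFar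
   (.sT (.sS (.D 6 0 0) (.D 6 0 0)) (.sS (.D 6 0 0) (.D 6 0 0)))
    274877906944 412316860416 0 137438953472 2 2 = true := by decide +kernel
theorem cf28_12 : chkFar
   (.sT (.D 6 0 0) (.D 7 0 0))
    412316860416 549755813888 0 137438953472 2 2 = true := by decide +kernel
theorem cf28_13 : chkFar
   (.sT (.sS (.D 7 0 0) (.D 6 0 0)) (.sS (.D 7 0 1) (.D 6 0 0)))
    274877906944 412316860416 137438953472 274877906944 2 2 = true := by decide +kernel
theorem cf28_14 : chkFar
   (.sT (.sS (.D 6 0 0) (.D 6 0 0)) (.sS (.D 6 0 0) (.D 6 0 0)))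
    412316860416 549755813888 137438953472 274877906944 2 2 = true := by decide +kernel
theorem cf28_15 : chkFar
   (.sT (.sS (.D 6 0 1) (.D 6 0 1)) (.sS (.D 6 0 1) (.D 6 0 1)))
    0 68719476736 274877906944 343597383680 2 2 = true := by decide +kernel
theorem cf28_16 : chkFar
   (.sT (.D 7 0 1) (.D 7 0 1))
    68719476736 137438953472 274877906944 343597383680 2 2 = true := by decide +kernel
theorem cf28_17 : chkFar
   (.sT (.sS (.D 6 0 1) (.D 6 0 1)) (.sS (.D 6 0 1) (.D 6 0 1)))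
    0 68719476736 343597383680 412316860416 2 2 = true := by decide +kernel
theorem cf28_18 : chkFar
   (.sT (.D 7 0 1) (.D 7 0 1))
    68719476736 137438953472 343597383680 412316860416 2 2 = true := by decide +kernel
theorem cf28_19 : chkFar
   (.sS (.sT (.D 7 0 1) (.D 6 0 1)) (.D 8 0 1))
    137438953472 274877906944 274877906944 343597383680 2 2 = true := by decide +kernel
theorem cf28_20 : chkFar
   (.sS (.sT (.D 6 0 1) (.D 6 0 1)) (.D 7 0 1))
    137438953472 274877906944 343597383680 412316860416 2 2 = true := by decide +kernel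
theorem cf28_21 : chkFar
   (.sT (.sS (.D 6 0 1) (.D 6 0 1)) (.sS (.D 6 0 1) (.D 6 0 1)))
    0 68719476736 412316860416 481036337152 2 2 = true := by decide +kernel
theorem cf28_22 : chkFar
   (.sT (.D 7 0 1) (.D 7 0 1))
    68719476736 137438953472 412316860416 481036337152 2 2 = true := by decide +kernel
theorem cf28_23 : chkFar
   (.sT (.D 10 0 1) (.D 8 0 1))
    0 68719476736 481036337152 549755813888 2 2 = true := by decide +kernel
theorem cf28_24 : chkFar
   (.sT (.D 7 0 1) (.D 7 0 1))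
    68719476736 137438953472 481036337152 549755813888 2 2 = true := by decide +kernel
theorem cf28_25 : chkFar
   (.sS (.sT (.D 6 0 1) (.D 6 0 1)) (.D 7 0 1))
    137438953472 274877906944 412316860416 481036337152 2 2 = true := by decide +kernel
theorem cf28_26 : chkFar
   (.sS (.sT (.D 7 0 1) (.D 7 0 1)) (.D 7 0 1))
    137438953472 274877906944 481036337152 549755813888 2 2 = true := by decide +kernel
theorem cf28_27 : chkFar
   (.sT (.sS (.D 6 0 1) (.D 6 0 1)) (.sS (.D 6 0 1) (.D 6 0 1)))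
    274877906944 412316860416 274877906944 412316860416 2 2 = true := by decide +kernel
theorem cf28_28 : chkFar
   (.sT (.sS (.D 6 0 0) (.D 6 0 0)) (.sS (.D 6 0 0) (.D 6 0 0)))
    412316860416 549755813888 274877906944 412316860416 2 2 = true := by decide +kernel
theorem cf28_29 : chkFar
   (.sT (.sS (.D 6 0 1) (.D 6 0 1)) (.sS (.D 6 0 1) (.D 6 0 1)))
    274877906944 412316860416 412316860416 549755813888 2 2 = true := by decide +kernel
theorem cf28_30 : chkFar
   (.sT (.sS (.D 6 0 0) (.D 6 0 0)) (.sS (.D 6 0 1) (.D 6 0 0)))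
    412316860416 549755813888 412316860416 549755813888 2 2 = true := by decide +kernel
theorem cf28 (H : FarH) : FarBox 0 549755813888 0 549755813888 2 2 :=
   (fT (fS (fT (fS (fT (H _ _ _ _ _ _ _ cf28_0) (fS (H _ _ _ _ _ _ _ cf28_1) (H _ _ _ _ _ _ _ cf28_2))) (fT (H _ _ _ _
   _ _ _ cf28_3) (H _ _ _ _ _ _ _ cf28_4))) (fS (fT (fS (H _ _ _ _ _ _ _ cf28_5) (H _ _ _ _ _ _ _ cf28_6)) (fS (H _ _
   _ _ _ _ _ cf28_7) (H _ _ _ _ _ _ _ cf28_8))) (fT (H _ _ _ _ _ _ _ cf28_9) (H _ _ _ _ _ _ _ cf28_10)))) (fT (fS (H _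
   _ _ _ _ _ _ cf28_11) (H _ _ _ _ _ _ _ cf28_12)) (fS (H _ _ _ _ _ _ _ cf28_13) (H _ _ _ _ _ _ _ cf28_14)))) (fS (fT
   (fS (fT (fS (H _ _ _ _ _ _ _ cf28_15) (H _ _ _ _ _ _ _ cf28_16)) (fS (H _ _ _ _ _ _ _ cf28_17) (H _ _ _ _ _ _ _
   cf28_18))) (fT (H _ _ _ _ _ _ _ cf28_19) (H _ _ _ _ _ _ _ cf28_20))) (fS (fT (fS (H _ _ _ _ _ _ _ cf28_21) (H _ _ _
   _ _ _ _ cf28_22)) (fS (H _ _ _ _ _ _ _ cf28_23) (H _ _ _ _ _ _ _ cf28_24))) (fT (H _ _ _ _ _ _ _ cf28_25) (H _ _ _
   _ _ _ _ cf28_26)))) (fT (fS (H _ _ _ _ _ _ _ cf28_27) (H _ _ _ _ _ _ _ cf28_28)) (fS (H _ _ _ _ _ _ _ cf28_29) (H _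
   _ _ _ _ _ _ cf28_30)))))

theorem cf29_0 : chkFar
   (.sS (.D 6 0 0) (.D 6 0 0))
    549755813888 824633720832 0 137438953472 2 2 = true := by decide +kernel
theorem cf29_1 : chkFar
   (.sS (.sT (.D 6 0 0) (.D 6 0 0)) (.D 6 0 0))
    549755813888 824633720832 137438953472 274877906944 2 2 = true := by decide +kernel
theorem cf29_2 : chkFar
   (.sT (.D 5 0 0) (.D 5 0 0))
    824633720832 1099511627776 0 274877906944 2 2 = true := by decide +kernel
theorem cf29_3 : chkFar
   (.sS (.sT (.D 6 0 0) (.D 6 0 0)) (.D 6 0 0))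
    549755813888 824633720832 274877906944 412316860416 2 2 = true := by decide +kernel
theorem cf29_4 : chkFar
   (.sS (.sT (.D 6 0 0) (.D 6 0 0)) (.D 6 0 0))
    549755813888 824633720832 412316860416 549755813888 2 2 = true := by decide +kernel
theorem cf29_5 : chkFar
   (.sT (.D 5 0 0) (.D 5 0 0))
    824633720832 1099511627776 274877906944 549755813888 2 2 = true := by decide +kernel
theorem cf29 (H : FarH) : FarBox 549755813888 1099511627776 0 549755813888 2 2 :=
   (fT (fS (fT (H _ _ _ _ _ _ _ cf29_0) (H _ _ _ _ _ _ _ cf29_1)) (H _ _ _ _ _ _ _ cf29_2)) (fS (fT (H _ _ _ _ _ _ _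
   cf29_3) (H _ _ _ _ _ _ _ cf29_4)) (H _ _ _ _ _ _ _ cf29_5)))

theorem cf30_0 : chkFar
   (.sT (.D 8 0 1) (.D 8 0 1))
    0 68719476736 549755813888 618475290624 2 2 = true := by decide +kernel
theorem cf30_1 : chkFar
   (.sT (.D 7 0 1) (.D 7 0 1))
    68719476736 137438953472 549755813888 618475290624 2 2 = true := by decide +kernel
theorem cf30_2 : chkFar
   (.sT (.D 8 0 1) (.D 8 0 1))
    0 68719476736 618475290624 687194767360 2 2 = true := by decide +kernel
theorem cf30_3 : chkFar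
   (.sT (.D 7 0 1) (.D 7 0 1))
    68719476736 137438953472 618475290624 687194767360 2 2 = true := by decide +kernel
theorem cf30_4 : chkFar
   (.sS (.sT (.D 7 0 1) (.D 7 0 1)) (.D 7 0 1))
    137438953472 274877906944 549755813888 618475290624 2 2 = true := by decide +kernel
theorem cf30_5 : chkFar
   (.sS (.sT (.D 7 0 1) (.D 7 0 1)) (.D 7 0 1))
    137438953472 274877906944 618475290624 687194767360 2 2 = true := by decide +kernel
theorem cf30_6 : chkFar
   (.sT (.D 8 0 1) (.D 10 0 1))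
    0 68719476736 687194767360 755914244096 2 2 = true := by decide +kernel
theorem cf30_7 : chkFar
   (.sT (.D 7 0 1) (.D 7 0 1))
    68719476736 137438953472 687194767360 755914244096 2 2 = true := by decide +kernel
theorem cf30_8 : chkFar
   (.sS (.D 7 0 1) (.D 7 0 1))
    0 68719476736 755914244096 790273982464 2 2 = true := by decide +kernel
theorem cf30_9 : chkFar
   (.sS (.D 7 0 1) (.D 7 0 1))
    0 68719476736 790273982464 824633720832 2 2 = true := by decide +kernel
theorem cf30_10 : chkFar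
   (.sT (.D 7 0 1) (.D 8 0 1))
    68719476736 137438953472 755914244096 824633720832 2 2 = true := by decide +kernel
theorem cf30_11 : chkFar
   (.sS (.sT (.D 7 0 1) (.D 7 0 1)) (.D 7 0 1))
    137438953472 274877906944 687194767360 755914244096 2 2 = true := by decide +kernel
theorem cf30_12 : chkFar
   (.sS (.sT (.D 7 0 1) (.D 7 0 1)) (.D 7 0 1))
    137438953472 274877906944 755914244096 824633720832 2 2 = true := by decide +kernel
theorem cf30_13 : chkFar
   (.sT (.sS (.D 6 0 1) (.D 6 0 1)) (.sS (.D 7 0 1) (.D 6 0 1)))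
    274877906944 412316860416 549755813888 687194767360 2 2 = true := by decide +kernel
theorem cf30_14 : chkFar
   (.sT (.sS (.D 6 0 1) (.D 6 0 0)) (.sS (.D 6 0 1) (.D 6 0 0)))
    412316860416 549755813888 549755813888 687194767360 2 2 = true := by decide +kernel
theorem cf30_15 : chkFar
   (.sT (.sS (.D 7 0 1) (.D 6 0 1)) (.sS (.D 7 0 1) (.D 6 0 1)))
    274877906944 412316860416 687194767360 824633720832 2 2 = true := by decide +kernel
theorem cf30_16 : chkFar
   (.sT (.sS (.D 6 0 1) (.D 6 0 0)) (.sS (.D 6 0 0) (.D 6 0 0)))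
    412316860416 549755813888 687194767360 824633720832 2 2 = true := by decide +kernel
theorem cf30 (H : FarH) : FarBox 0 549755813888 549755813888 824633720832 2 2 :=
   (fS (fT (fS (fT (fS (H _ _ _ _ _ _ _ cf30_0) (H _ _ _ _ _ _ _ cf30_1)) (fS (H _ _ _ _ _ _ _ cf30_2) (H _ _ _ _ _ _
   _ cf30_3))) (fT (H _ _ _ _ _ _ _ cf30_4) (H _ _ _ _ _ _ _ cf30_5))) (fS (fT (fS (H _ _ _ _ _ _ _ cf30_6) (H _ _ _ _
   _ _ _ cf30_7)) (fS (fT (H _ _ _ _ _ _ _ cf30_8) (H _ _ _ _ _ _ _ cf30_9)) (H _ _ _ _ _ _ _ cf30_10))) (fT (H _ _ _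
   _ _ _ _ cf30_11) (H _ _ _ _ _ _ _ cf30_12)))) (fT (fS (H _ _ _ _ _ _ _ cf30_13) (H _ _ _ _ _ _ _ cf30_14)) (fS (H _
   _ _ _ _ _ _ cf30_15) (H _ _ _ _ _ _ _ cf30_16))))


end Crest.Agent.R086.N
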