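import Crest.Agent.R086.N.Spl

/-! generated certificate -/

namespace Crest.Agent.R086.N

set_option maxRecDepth 100000
set_option Elab.async false

theorem cf31_0 : chkFar
   (.sS (.D 7 0 1) (.D 7 0 1))
    0 68719476736 824633720832 858993459200 2 2 = true := by decide +kernel
theorem cf31_1 : chkFar
   (.sS (.D 7 0 1) (.D 7 0 1))
    0 68719476736 858993459200 893353197568 2 2 = true := by decide +kernel
theorem cf31_2 : chkFar
   (.sT (.sS (.D 7 0 1) (.D 6 0 1)) (.sS (.D 7 0 1) (.D 6 0 1)))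
    68719476736 137438953472 824633720832 893353197568 2 2 = true := by decide +kernel
theorem cf31_3 : chkFar
   (.sS (.D 7 0 1) (.D 7 0 1))
    0 68719476736 893353197568 927712935936 2 2 = true := by decide +kernel
theorem cf31_4 : chkFar
   (.sS (.D 10 0 1) (.D 7 0 1))
    0 68719476736 927712935936 962072674304 2 2 = true := by decide +kernel
theorem cf31_5 : chkFar
   (.sS (.D 7 0 1) (.D 6 0 1))
    68719476736 137438953472 893353197568 927712935936 2 2 = true := by decide +kernel
theorem cf31_6 : chkFar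
   (.sS (.D 7 0 1) (.D 7 0 1))
    68719476736 137438953472 927712935936 962072674304 2 2 = true := by decide +kernel
theorem cf31_7 : chkFar
   (.sS (.sT (.D 7 0 1) (.D 7 0 1)) (.D 8 0 1))
    137438953472 274877906944 824633720832 893353197568 2 2 = true := by decide +kernel
theorem cf31_8 : chkFar
   (.sS (.sT (.D 7 0 1) (.D 7 0 1)) (.D 8 0 1))
    137438953472 274877906944 893353197568 962072674304 2 2 = true := by decide +kernel
theorem cf31_9 : chkFar
   (.sT (.sS (.D 7 0 0) (.D 7 0 0)) (.D 10 0 0))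
    0 34359738368 962072674304 996432412672 2 2 = true := by decide +kernel
theorem cf31_10 : chkFar
   (.D 7 0 1)
    34359738368 68719476736 962072674304 996432412672 2 2 = true := by decide +kernel
theorem cf31_11 : chkFar
   (.sS (.sT (.D 8 0 0) (.D 8 0 0)) (.D 10 0 0))
    0 68719476736 996432412672 1030792151040 2 2 = true := by decide +kernel
theorem cf31_12 : chkFar
   (.sS (.D 8 0 0) (.D 7 0 0))
    68719476736 137438953472 962072674304 996432412672 2 2 = true := by decide +kernel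
theorem cf31_13 : chkFar
   (.sS (.D 7 0 0) (.D 7 0 0))
    68719476736 137438953472 996432412672 1030792151040 2 2 = true := by decide +kernel
theorem cf31_14 : chkFar
   (.sS (.sT (.D 7 0 0) (.D 7 0 0)) (.D 7 0 0))
    0 68719476736 1030792151040 1065151889408 2 2 = true := by decide +kernel
theorem cf31_15 : chkFar
   (.sS (.D 8 0 0) (.D 7 0 0))
    0 68719476736 1065151889408 1099511627776 2 2 = true := by decide +kernel
theorem cf31_16 : chkFar
   (.sS (.D 7 0 0) (.D 7 0 0))
    68719476736 137438953472 1030792151040 1065151889408 2 2 = true := by decide +kernel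
theorem cf31_17 : chkFar
   (.sS (.D 7 0 0) (.D 7 0 0))
    68719476736 137438953472 1065151889408 1099511627776 2 2 = true := by decide +kernel
theorem cf31_18 : chkFar
   (.sS (.sT (.D 7 0 1) (.D 7 0 1)) (.D 10 0 1))
    137438953472 274877906944 962072674304 1030792151040 2 2 = true := by decide +kernel
theorem cf31_19 : chkFar
   (.sS (.sT (.D 7 0 0) (.D 7 0 0)) (.D 7 0 0))
    137438953472 274877906944 1030792151040 1099511627776 2 2 = true := by decide +kernel
theorem cf31_20 : chkFar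
   (.sT (.sS (.D 7 0 1) (.D 6 0 1)) (.sS (.D 7 0 1) (.D 6 0 1)))
    274877906944 412316860416 824633720832 962072674304 2 2 = true := by decide +kernel
theorem cf31_21 : chkFar
   (.sT (.sS (.D 6 0 0) (.D 6 0 0)) (.D 7 0 0))
    412316860416 549755813888 824633720832 962072674304 2 2 = true := by decide +kernel
theorem cf31_22 : chkFar
   (.sT (.sS (.D 7 0 0) (.D 6 0 0)) (.sS (.D 6 0 0) (.D 6 0 0)))
    274877906944 412316860416 962072674304 1099511627776 2 2 = true := by decide +kernel
theorem cf31_23 : chkFar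
   (.sT (.D 6 0 0) (.D 6 0 0))
    412316860416 549755813888 962072674304 1099511627776 2 2 = true := by decide +kernel
theorem cf31 (H : FarH) : FarBox 0 549755813888 824633720832 1099511627776 2 2 :=
   (fS (fT (fS (fT (fS (fT (H _ _ _ _ _ _ _ cf31_0) (H _ _ _ _ _ _ _ cf31_1)) (H _ _ _ _ _ _ _ cf31_2)) (fS (fT (H _ _
   _ _ _ _ _ cf31_3) (H _ _ _ _ _ _ _ cf31_4)) (fT (H _ _ _ _ _ _ _ cf31_5) (H _ _ _ _ _ _ _ cf31_6)))) (fT (H _ _ _ _
   _ _ _ cf31_7) (H _ _ _ _ _ _ _ cf31_8))) (fS (fT (fS (fT (fS (H _ _ _ _ _ _ _ cf31_9) (H _ _ _ _ _ _ _ cf31_10)) (H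
   _ _ _ _ _ _ _ cf31_11)) (fT (H _ _ _ _ _ _ _ cf31_12) (H _ _ _ _ _ _ _ cf31_13))) (fS (fT (H _ _ _ _ _ _ _ cf31_14)
   (H _ _ _ _ _ _ _ cf31_15)) (fT (H _ _ _ _ _ _ _ cf31_16) (H _ _ _ _ _ _ _ cf31_17)))) (fT (H _ _ _ _ _ _ _ cf31_18)
   (H _ _ _ _ _ _ _ cf31_19)))) (fT (fS (H _ _ _ _ _ _ _ cf31_20) (H _ _ _ _ _ _ _ cf31_21)) (fS (H _ _ _ _ _ _ _
   cf31_22) (H _ _ _ _ _ _ _ cf31_23))))

theorem cf32_0 : chkFar
   (.sS (.sT (.D 6 0 0) (.D 6 0 0)) (.D 6 0 0))
    549755813888 824633720832 549755813888 687194767360 2 2 = true := by decide +kernel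
theorem cf32_1 : chkFar
   (.sS (.sT (.D 6 0 0) (.D 6 0 0)) (.D 6 0 0))
    549755813888 824633720832 687194767360 824633720832 2 2 = true := by decide +kernel
theorem cf32_2 : chkFar
   (.sT (.D 6 0 0) (.D 6 0 0))
    824633720832 1099511627776 549755813888 824633720832 2 2 = true := by decide +kernel
theorem cf32_3 : chkFar
   (.sT (.sS (.D 6 0 0) (.D 6 0 0)) (.sS (.D 6 0 0) (.D 6 0 0)))
    549755813888 824633720832 824633720832 1099511627776 2 2 = true := by decide +kernel
theorem cf32_4 : chkFar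
   (.sT (.D 6 0 0) (.D 6 0 0))
    824633720832 1099511627776 824633720832 1099511627776 2 2 = true := by decide +kernel
theorem cf32 (H : FarH) : FarBox 549755813888 1099511627776 549755813888 1099511627776 2 2 :=
   (fT (fS (fT (H _ _ _ _ _ _ _ cf32_0) (H _ _ _ _ _ _ _ cf32_1)) (H _ _ _ _ _ _ _ cf32_2)) (fS (H _ _ _ _ _ _ _
   cf32_3) (H _ _ _ _ _ _ _ cf32_4)))

theorem cf33_0 : chkFar
   (.sS (.sT (.sS (.D 5 0 0) (.D 4 0 0)) (.sS (.D 5 0 0) (.D 5 0 0))) (.D 4 0 0))
    1099511627776 2199023255552 0 549755813888 2 2 = true := by decide +kernel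
theorem cf33_1 : chkFar
   (.sS (.sT (.sS (.D 5 0 0) (.D 5 0 0)) (.sS (.D 5 0 0) (.D 5 0 0))) (.D 5 0 0))
    1099511627776 2199023255552 549755813888 1099511627776 2 2 = true := by decide +kernel
theorem cf33 (H : FarH) : FarBox 1099511627776 2199023255552 0 1099511627776 2 2 :=
   (fT (H _ _ _ _ _ _ _ cf33_0) (H _ _ _ _ _ _ _ cf33_1))

theorem cf34_0 : chkFar
   (.sS (.D 7 0 0) (.D 7 0 0))
    0 68719476736 1099511627776 1133871366144 2 2 = true := by decide +kernel
theorem cf34_1 : chkFar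
   (.sS (.D 7 0 0) (.D 7 0 0))
    0 68719476736 1133871366144 1168231104512 2 2 = true := by decide +kernel
theorem cf34_2 : chkFar
   (.sT (.D 8 0 0) (.D 7 0 0))
    68719476736 137438953472 1099511627776 1168231104512 2 2 = true := by decide +kernel
theorem cf34_3 : chkFar
   (.sT (.sS (.D 7 0 0) (.D 7 0 0)) (.D 8 0 0))
    0 68719476736 1168231104512 1236950581248 2 2 = true := by decide +kernel
theorem cf34_4 : chkFar
   (.sT (.D 7 0 0) (.D 7 0 0))
    68719476736 137438953472 1168231104512 1236950581248 2 2 = true := by decide +kernel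
theorem cf34_5 : chkFar
   (.sS (.D 8 0 0) (.D 7 0 0))
    137438953472 274877906944 1099511627776 1168231104512 2 2 = true := by decide +kernel
theorem cf34_6 : chkFar
   (.sS (.D 7 0 0) (.D 7 0 0))
    137438953472 274877906944 1168231104512 1236950581248 2 2 = true := by decide +kernel
theorem cf34_7 : chkFar
   (.sS (.sT (.D 7 0 0) (.D 7 0 0)) (.D 7 0 0))
    0 137438953472 1236950581248 1305670057984 2 2 = true := by decide +kernel
theorem cf34_8 : chkFar
   (.sS (.D 8 0 0) (.D 7 0 0))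
    0 137438953472 1305670057984 1374389534720 2 2 = true := by decide +kernel
theorem cf34_9 : chkFar
   (.sT (.sS (.D 7 0 0) (.D 6 0 0)) (.sS (.D 7 0 0) (.D 6 0 0)))
    137438953472 274877906944 1236950581248 1374389534720 2 2 = true := by decide +kernel
theorem cf34_10 : chkFar
   (.sS (.sT (.D 10 0 0) (.D 7 0 0)) (.D 7 0 0))
    274877906944 549755813888 1099511627776 1236950581248 2 2 = true := by decide +kernel
theorem cf34_11 : chkFar
   (.sS (.sT (.D 7 0 0) (.D 7 0 0)) (.D 6 0 0))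
    274877906944 549755813888 1236950581248 1374389534720 2 2 = true := by decide +kernel
theorem cf34_12 : chkFar
   (.sS (.D 7 0 0) (.D 7 0 0))
    0 137438953472 1374389534720 1443109011456 2 2 = true := by decide +kernel
theorem cf34_13 : chkFar
   (.sS (.D 7 0 0) (.D 7 0 0))
    0 137438953472 1443109011456 1511828488192 2 2 = true := by decide +kernel
theorem cf34_14 : chkFar
   (.sT (.D 8 0 0) (.D 7 0 0))
    137438953472 274877906944 1374389534720 1511828488192 2 2 = true := by decide +kernel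
theorem cf34_15 : chkFar
   (.sS (.D 7 0 0) (.D 7 0 0))
    0 137438953472 1511828488192 1580547964928 2 2 = true := by decide +kernel
theorem cf34_16 : chkFar
   (.sS (.D 7 0 0) (.D 7 0 0))
    0 137438953472 1580547964928 1649267441664 2 2 = true := by decide +kernel
theorem cf34_17 : chkFar
   (.sT (.D 7 0 0) (.D 7 0 0))
    137438953472 274877906944 1511828488192 1649267441664 2 2 = true := by decide +kernel
theorem cf34_18 : chkFar
   (.sT (.sS (.D 7 0 0) (.D 6 0 0)) (.sS (.D 7 0 0) (.D 6 0 0)))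
    274877906944 549755813888 1374389534720 1649267441664 2 2 = true := by decide +kernel
theorem cf34_19 : chkFar
   (.sT (.sS (.D 6 0 0) (.D 6 0 0)) (.sS (.D 6 0 0) (.D 6 0 0)))
    549755813888 824633720832 1099511627776 1374389534720 2 2 = true := by decide +kernel
theorem cf34_20 : chkFar
   (.D 7 0 0)
    824633720832 1099511627776 1099511627776 1374389534720 2 2 = true := by decide +kernel
theorem cf34_21 : chkFar
   (.sS (.sT (.D 8 0 0) (.D 7 0 0)) (.D 7 0 0))
    549755813888 1099511627776 1374389534720 1649267441664 2 2 = true := by decide +kernel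
theorem cf34_22 : chkFar
   (.sS (.sT (.D 8 0 0) (.D 8 0 0)) (.D 8 0 0))
    0 274877906944 1649267441664 1786706395136 2 2 = true := by decide +kernel
theorem cf34_23 : chkFar
   (.sS (.sT (.D 8 0 0) (.D 7 0 0)) (.D 8 0 0))
    0 274877906944 1786706395136 1924145348608 2 2 = true := by decide +kernel
theorem cf34_24 : chkFar
   (.sS (.D 7 0 0) (.D 7 0 0))
    274877906944 549755813888 1649267441664 1786706395136 2 2 = true := by decide +kernel
theorem cf34_25 : chkFar
   (.sS (.D 7 0 0) (.D 6 1 0))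
    274877906944 549755813888 1786706395136 1924145348608 2 2 = true := by decide +kernel
theorem cf34_26 : chkFar
   (.sS (.D 8 1 0) (.D 7 1 0))
    0 274877906944 1924145348608 2061584302080 2 2 = true := by decide +kernel
theorem cf34_27 : chkFar
   (.sS (.D 8 0 0) (.D 7 0 0))
    0 274877906944 2061584302080 2199023255552 2 2 = true := by decide +kernel
theorem cf34_28 : chkFar
   (.sT (.sS (.D 7 0 0) (.D 6 1 0)) (.D 8 1 0))
    274877906944 549755813888 1924145348608 2199023255552 2 2 = true := by decide +kernel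
theorem cf34_29 : chkFar
   (.sS (.sT (.D 7 0 0) (.D 7 0 0)) (.D 6 1 0))
    549755813888 1099511627776 1649267441664 1924145348608 2 2 = true := by decide +kernel
theorem cf34_30 : chkFar
   (.sS (.D 8 1 0) (.D 6 1 0))
    549755813888 1099511627776 1924145348608 2199023255552 2 2 = true := by decide +kernel
theorem cf34_31 : chkFar
   (.sS (.sT (.sS (.D 5 0 0) (.D 5 0 0)) (.sS (.D 6 0 0) (.D 4 2 0))) (.D 5 0 0))
    1099511627776 2199023255552 1099511627776 1649267441664 2 2 = true := by decide +kernel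
theorem cf34_32 : chkFar
   (.sS (.sT (.D 7 1 0) (.D 6 1 0)) (.D 5 1 0))
    1099511627776 2199023255552 1649267441664 2199023255552 2 2 = true := by decide +kernel
theorem cf34 (H : FarH) : FarBox 0 2199023255552 1099511627776 2199023255552 2 2 :=
   (fS (fT (fS (fT (fS (fT (fS (fT (fS (fT (H _ _ _ _ _ _ _ cf34_0) (H _ _ _ _ _ _ _ cf34_1)) (H _ _ _ _ _ _ _
   cf34_2)) (fS (H _ _ _ _ _ _ _ cf34_3) (H _ _ _ _ _ _ _ cf34_4))) (fT (H _ _ _ _ _ _ _ cf34_5) (H _ _ _ _ _ _ _
   cf34_6))) (fS (fT (H _ _ _ _ _ _ _ cf34_7) (H _ _ _ _ _ _ _ cf34_8)) (H _ _ _ _ _ _ _ cf34_9))) (fT (H _ _ _ _ _ _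
   _ cf34_10) (H _ _ _ _ _ _ _ cf34_11))) (fS (fT (fS (fT (H _ _ _ _ _ _ _ cf34_12) (H _ _ _ _ _ _ _ cf34_13)) (H _ _
   _ _ _ _ _ cf34_14)) (fS (fT (H _ _ _ _ _ _ _ cf34_15) (H _ _ _ _ _ _ _ cf34_16)) (H _ _ _ _ _ _ _ cf34_17))) (H _ _
   _ _ _ _ _ cf34_18))) (fT (fS (H _ _ _ _ _ _ _ cf34_19) (H _ _ _ _ _ _ _ cf34_20)) (H _ _ _ _ _ _ _ cf34_21))) (fS
   (fT (fS (fT (H _ _ _ _ _ _ _ cf34_22) (H _ _ _ _ _ _ _ cf34_23)) (fT (H _ _ _ _ _ _ _ cf34_24) (H _ _ _ _ _ _ _
   cf34_25))) (fS (fT (H _ _ _ _ _ _ _ cf34_26) (H _ _ _ _ _ _ _ cf34_27)) (H _ _ _ _ _ _ _ cf34_28))) (fT (H _ _ _ _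
   _ _ _ cf34_29) (H _ _ _ _ _ _ _ cf34_30)))) (fT (H _ _ _ _ _ _ _ cf34_31) (H _ _ _ _ _ _ _ cf34_32)))

theorem cf35_0 : chkFar
   (.sS (.sM (.sT (.D 4 0 0) (.D 5 0 0)) (.sT (.D 4 0 0) (.D 4 0 0))) (.D 4 0 0))
    2199023255552 4398046511104 0 1099511627776 0 1 = true := by decide +kernel
theorem cf35_1 : chkFar
   (.sT (.D 7 0 0) (.D 10 1 0))
    2199023255552 3298534883328 1099511627776 2199023255552 0 0 = true := by decide +kernel
theorem cf35_2 : chkFar
   (.sT (.D 5 0 0) (.D 6 1 0))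
    2199023255552 3298534883328 1099511627776 2199023255552 1 1 = true := by decide +kernel
theorem cf35_3 : chkFar
   (.D 8 0 0)
    3298534883328 4398046511104 1099511627776 2199023255552 0 1 = true := by decide +kernel
theorem cf35_4 : chkFar
   (.sT (.sS (.D 5 0 0) (.D 4 0 0)) (.sS (.sT (.D 5 0 0) (.D 5 1 0)) (.D 4 0 0)))
    2199023255552 4398046511104 0 2199023255552 2 2 = true := by decide +kernel
theorem cf35 (H : FarH) : FarBox 2199023255552 4398046511104 0 2199023255552 0 2 :=
   (fM rfl (fT (H _ _ _ _ _ _ _ cf35_0) (fS (fM rfl (H _ _ _ _ _ _ _ cf35_1) (H _ _ _ _ _ _ _ cf35_2)) (H _ _ _ _ _ _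
   _ cf35_3))) (H _ _ _ _ _ _ _ cf35_4))

theorem cf36_0 : chkFar
   (.sS (.D 8 0 0) (.D 8 0 0))
    0 137438953472 2199023255552 2267742732288 0 0 = true := by decide +kernel
theorem cf36_1 : chkFar
   (.sS (.D 8 0 0) (.D 8 0 0))
    0 137438953472 2267742732288 2336462209024 0 0 = true := by decide +kernel
theorem cf36_2 : chkFar
   (.sT (.D 10 1 0) (.D 10 0 0))
    137438953472 274877906944 2199023255552 2336462209024 0 0 = true := by decide +kernel
theorem cf36_3 : chkFar
   (.sS (.D 8 0 0) (.D 8 0 0))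
    0 137438953472 2336462209024 2405181685760 0 0 = true := by decide +kernel
theorem cf36_4 : chkFar
   (.D 12 0 0)
    0 137438953472 2405181685760 2473901162496 0 0 = true := by decide +kernel
theorem cf36_5 : chkFar
   (.sT (.D 10 0 0) (.D 8 1 0))
    137438953472 274877906944 2336462209024 2473901162496 0 0 = true := by decide +kernel
theorem cf36_6 : chkFar
   (.sS (.sT (.D 8 1 0) (.D 8 0 0)) (.D 8 1 0))
    274877906944 549755813888 2199023255552 2336462209024 0 0 = true := by decide +kernel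
theorem cf36_7 : chkFar
   (.sS (.D 10 1 0) (.D 8 1 0))
    274877906944 549755813888 2336462209024 2473901162496 0 0 = true := by decide +kernel
theorem cf36_8 : chkFar
   (.sT (.D 10 0 0) (.D 10 0 0))
    0 137438953472 2473901162496 2611340115968 0 0 = true := by decide +kernel
theorem cf36_9 : chkFar
   (.D 14 0 0)
    137438953472 274877906944 2473901162496 2611340115968 0 0 = true := by decide +kernel
theorem cf36_10 : chkFar
   (.sT (.D 10 0 0) (.D 10 0 0))
    0 137438953472 2611340115968 2748779069440 0 0 = true := by decide +kernel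
theorem cf36_11 : chkFar
   (.D 10 0 0)
    137438953472 274877906944 2611340115968 2748779069440 0 0 = true := by decide +kernel
theorem cf36_12 : chkFar
   (.sS (.D 10 0 0) (.D 8 0 0))
    274877906944 549755813888 2473901162496 2611340115968 0 0 = true := by decide +kernel
theorem cf36_13 : chkFar
   (.sS (.D 8 1 0) (.D 8 0 0))
    274877906944 549755813888 2611340115968 2748779069440 0 0 = true := by decide +kernel
theorem cf36_14 : chkFar
   (.sS (.D 7 1 0) (.D 7 0 0))
    549755813888 824633720832 2199023255552 2336462209024 0 0 = true := by decide +kernel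
theorem cf36_15 : chkFar
   (.sS (.D 7 1 0) (.D 7 0 0))
    549755813888 824633720832 2336462209024 2473901162496 0 0 = true := by decide +kernel
theorem cf36_16 : chkFar
   (.sT (.D 7 1 0) (.D 7 1 0))
    824633720832 1099511627776 2199023255552 2473901162496 0 0 = true := by decide +kernel
theorem cf36_17 : chkFar
   (.sT (.D 10 1 0) (.D 10 1 0))
    549755813888 824633720832 2473901162496 2748779069440 0 0 = true := by decide +kernel
theorem cf36_18 : chkFar
   (.D 10 1 0)
    824633720832 1099511627776 2473901162496 2748779069440 0 0 = true := by decide +kernel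
theorem cf36_19 : chkFar
   (.sS (.D 12 0 0) (.D 10 0 0))
    0 274877906944 2748779069440 2886218022912 0 0 = true := by decide +kernel
theorem cf36_20 : chkFar
   (.sS (.D 10 0 0) (.D 10 0 0))
    0 274877906944 2886218022912 3023656976384 0 0 = true := by decide +kernel
theorem cf36_21 : chkFar
   (.sS (.D 8 1 0) (.D 8 0 0))
    274877906944 549755813888 2748779069440 2886218022912 0 0 = true := by decide +kernel
theorem cf36_22 : chkFar
   (.D 20 1 0)
    274877906944 549755813888 2886218022912 3023656976384 0 0 = true := by decide +kernel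
theorem cf36_23 : chkFar
   (.sS (.D 10 0 0) (.D 10 0 0))
    0 274877906944 3023656976384 3161095929856 0 0 = true := by decide +kernel
theorem cf36_24 : chkFar
   (.sS (.D 10 0 0) (.D 10 0 0))
    0 274877906944 3161095929856 3298534883328 0 0 = true := by decide +kernel
theorem cf36_25 : chkFar
   (.sT (.D 12 0 0) (.D 10 0 0))
    274877906944 549755813888 3023656976384 3298534883328 0 0 = true := by decide +kernel
theorem cf36_26 : chkFar
   (.sT (.D 10 0 0) (.D 10 0 0))
    549755813888 824633720832 2748779069440 3023656976384 0 0 = true := by decide +kernel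
theorem cf36_27 : chkFar
   (.D 8 1 0)
    824633720832 1099511627776 2748779069440 3023656976384 0 0 = true := by decide +kernel
theorem cf36_28 : chkFar
   (.sS (.D 10 1 0) (.D 10 0 0))
    549755813888 1099511627776 3023656976384 3298534883328 0 0 = true := by decide +kernel
theorem cf36 (H : FarH) : FarBox 0 1099511627776 2199023255552 3298534883328 0 0 :=
   (fT (fS (fT (fS (fT (fS (fT (H _ _ _ _ _ _ _ cf36_0) (H _ _ _ _ _ _ _ cf36_1)) (H _ _ _ _ _ _ _ cf36_2)) (fS (fT (H
   _ _ _ _ _ _ _ cf36_3) (H _ _ _ _ _ _ _ cf36_4)) (H _ _ _ _ _ _ _ cf36_5))) (fT (H _ _ _ _ _ _ _ cf36_6) (H _ _ _ _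
   _ _ _ cf36_7))) (fS (fT (fS (H _ _ _ _ _ _ _ cf36_8) (H _ _ _ _ _ _ _ cf36_9)) (fS (H _ _ _ _ _ _ _ cf36_10) (H _ _
   _ _ _ _ _ cf36_11))) (fT (H _ _ _ _ _ _ _ cf36_12) (H _ _ _ _ _ _ _ cf36_13)))) (fT (fS (fT (H _ _ _ _ _ _ _
   cf36_14) (H _ _ _ _ _ _ _ cf36_15)) (H _ _ _ _ _ _ _ cf36_16)) (fS (H _ _ _ _ _ _ _ cf36_17) (H _ _ _ _ _ _ _
   cf36_18)))) (fS (fT (fS (fT (H _ _ _ _ _ _ _ cf36_19) (H _ _ _ _ _ _ _ cf36_20)) (fT (H _ _ _ _ _ _ _ cf36_21) (H _
   _ _ _ _ _ _ cf36_22))) (fS (fT (H _ _ _ _ _ _ _ cf36_23) (H _ _ _ _ _ _ _ cf36_24)) (H _ _ _ _ _ _ _ cf36_25))) (fT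
   (fS (H _ _ _ _ _ _ _ cf36_26) (H _ _ _ _ _ _ _ cf36_27)) (H _ _ _ _ _ _ _ cf36_28))))


end Crest.Agent.R086.N
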