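import Crest.Agent.R086.N.Spl

/-! generated certificate -/

namespace Crest.Agent.R086.N

set_option maxRecDepth 100000
set_option Elab.async false

theorem cf37_0 : chkFar
   (.sS (.sT (.D 8 1 0) (.D 8 0 0)) (.D 8 1 0))
    0 274877906944 2199023255552 2336462209024 1 1 = true := by decide +kernel
theorem cf37_1 : chkFar
   (.sS (.D 10 1 0) (.D 8 1 0))
    0 274877906944 2336462209024 2473901162496 1 1 = true := by decide +kernel
theorem cf37_2 : chkFar
   (.sS (.D 7 1 0) (.D 7 0 0))
    274877906944 549755813888 2199023255552 2336462209024 1 1 = true := by decide +kernel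
theorem cf37_3 : chkFar
   (.sS (.D 7 1 0) (.D 7 0 0))
    274877906944 549755813888 2336462209024 2473901162496 1 1 = true := by decide +kernel
theorem cf37_4 : chkFar
   (.sS (.D 10 0 0) (.D 8 0 0))
    0 274877906944 2473901162496 2611340115968 1 1 = true := by decide +kernel
theorem cf37_5 : chkFar
   (.sS (.D 8 1 0) (.D 8 0 0))
    0 274877906944 2611340115968 2748779069440 1 1 = true := by decide +kernel
theorem cf37_6 : chkFar
   (.sT (.D 10 1 0) (.D 10 1 0))
    274877906944 549755813888 2473901162496 2748779069440 1 1 = true := by decide +kernel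
theorem cf37_7 : chkFar
   (.sS (.sT (.D 7 1 0) (.D 7 1 0)) (.D 7 1 0))
    549755813888 1099511627776 2199023255552 2473901162496 1 1 = true := by decide +kernel
theorem cf37_8 : chkFar
   (.sS (.D 10 1 0) (.D 7 1 0))
    549755813888 1099511627776 2473901162496 2748779069440 1 1 = true := by decide +kernel
theorem cf37_9 : chkFar
   (.sS (.D 8 1 0) (.D 8 0 0))
    0 274877906944 2748779069440 2886218022912 1 1 = true := by decide +kernel
theorem cf37_10 : chkFar
   (.sS (.D 8 1 0) (.D 8 0 0))
    0 274877906944 2886218022912 3023656976384 1 1 = true := by decide +kernel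
theorem cf37_11 : chkFar
   (.sT (.D 10 0 0) (.D 8 1 0))
    274877906944 549755813888 2748779069440 3023656976384 1 1 = true := by decide +kernel
theorem cf37_12 : chkFar
   (.sT (.D 12 0 0) (.D 10 0 0))
    0 274877906944 3023656976384 3298534883328 1 1 = true := by decide +kernel
theorem cf37_13 : chkFar
   (.D 10 1 0)
    274877906944 549755813888 3023656976384 3298534883328 1 1 = true := by decide +kernel
theorem cf37_14 : chkFar
   (.sS (.D 8 1 0) (.D 7 1 0))
    549755813888 1099511627776 2748779069440 3023656976384 1 1 = true := by decide +kernel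
theorem cf37_15 : chkFar
   (.sS (.D 8 1 0) (.D 7 1 0))
    549755813888 1099511627776 3023656976384 3298534883328 1 1 = true := by decide +kernel
theorem cf37 (H : FarH) : FarBox 0 1099511627776 2199023255552 3298534883328 1 1 :=
   (fT (fS (fT (fS (fT (H _ _ _ _ _ _ _ cf37_0) (H _ _ _ _ _ _ _ cf37_1)) (fT (H _ _ _ _ _ _ _ cf37_2) (H _ _ _ _ _ _
   _ cf37_3))) (fS (fT (H _ _ _ _ _ _ _ cf37_4) (H _ _ _ _ _ _ _ cf37_5)) (H _ _ _ _ _ _ _ cf37_6))) (fT (H _ _ _ _ _
   _ _ cf37_7) (H _ _ _ _ _ _ _ cf37_8))) (fS (fT (fS (fT (H _ _ _ _ _ _ _ cf37_9) (H _ _ _ _ _ _ _ cf37_10)) (H _ _ _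
   _ _ _ _ cf37_11)) (fS (H _ _ _ _ _ _ _ cf37_12) (H _ _ _ _ _ _ _ cf37_13))) (fT (H _ _ _ _ _ _ _ cf37_14) (H _ _ _
   _ _ _ _ cf37_15))))

theorem cf38_0 : chkFar
   (.sT (.sS (.D 7 1 0) (.D 6 1 0)) (.sS (.D 7 1 0) (.D 6 1 0)))
    1099511627776 1649267441664 2199023255552 2748779069440 0 0 = true := by decide +kernel
theorem cf38_1 : chkFar
   (.D 8 1 0)
    1649267441664 2199023255552 2199023255552 2748779069440 0 0 = true := by decide +kernel
theorem cf38_2 : chkFar
   (.sT (.D 12 1 0) (.D 10 1 0))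
    1099511627776 1649267441664 2748779069440 3298534883328 0 0 = true := by decide +kernel
theorem cf38_3 : chkFar
   (.D 10 0 0)
    1649267441664 2199023255552 2748779069440 3298534883328 0 0 = true := by decide +kernel
theorem cf38_4 : chkFar
   (.sS (.sT (.D 7 1 0) (.D 7 1 0)) (.D 5 2 0))
    1099511627776 2199023255552 2199023255552 2748779069440 1 1 = true := by decide +kernel
theorem cf38_5 : chkFar
   (.sS (.D 14 1 0) (.D 7 1 0))
    1099511627776 2199023255552 2748779069440 3298534883328 1 1 = true := by decide +kernel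
theorem cf38 (H : FarH) : FarBox 1099511627776 2199023255552 2199023255552 3298534883328 0 1 :=
   (fM rfl (fT (fS (H _ _ _ _ _ _ _ cf38_0) (H _ _ _ _ _ _ _ cf38_1)) (fS (H _ _ _ _ _ _ _ cf38_2) (H _ _ _ _ _ _ _
   cf38_3))) (fT (H _ _ _ _ _ _ _ cf38_4) (H _ _ _ _ _ _ _ cf38_5)))

theorem cf39_0 : chkFar
   (.sS (.D 10 0 0) (.D 10 0 0))
    0 274877906944 3298534883328 3435973836800 0 0 = true := by decide +kernel
theorem cf39_1 : chkFar
   (.D 12 0 0)
    0 274877906944 3435973836800 3573412790272 0 0 = true := by decide +kernel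
theorem cf39_2 : chkFar
   (.sT (.D 10 0 0) (.D 10 0 0))
    274877906944 549755813888 3298534883328 3573412790272 0 0 = true := by decide +kernel
theorem cf39_3 : chkFar
   (.sT (.D 12 0 0) (.D 12 0 0))
    0 274877906944 3573412790272 3848290697216 0 0 = true := by decide +kernel
theorem cf39_4 : chkFar
   (.D 12 0 0)
    274877906944 549755813888 3573412790272 3848290697216 0 0 = true := by decide +kernel
theorem cf39_5 : chkFar
   (.sS (.D 10 0 0) (.D 10 0 0))
    549755813888 1099511627776 3298534883328 3573412790272 0 0 = true := by decide +kernel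
theorem cf39_6 : chkFar
   (.sS (.D 10 0 0) (.D 10 0 0))
    549755813888 1099511627776 3573412790272 3848290697216 0 0 = true := by decide +kernel
theorem cf39_7 : chkFar
   (.sS (.D 14 0 0) (.D 12 0 0))
    0 549755813888 3848290697216 4123168604160 0 0 = true := by decide +kernel
theorem cf39_8 : chkFar
   (.sS (.D 14 0 0) (.D 12 0 0))
    0 549755813888 4123168604160 4398046511104 0 0 = true := by decide +kernel
theorem cf39_9 : chkFar
   (.sS (.D 10 0 0) (.D 10 0 0))
    549755813888 1099511627776 3848290697216 4123168604160 0 0 = true := by decide +kernel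
theorem cf39_10 : chkFar
   (.D 14 0 0)
    549755813888 1099511627776 4123168604160 4398046511104 0 0 = true := by decide +kernel
theorem cf39_11 : chkFar
   (.sT (.D 10 0 0) (.D 10 0 0))
    0 274877906944 3298534883328 3573412790272 1 1 = true := by decide +kernel
theorem cf39_12 : chkFar
   (.D 10 0 0)
    274877906944 549755813888 3298534883328 3573412790272 1 1 = true := by decide +kernel
theorem cf39_13 : chkFar
   (.sS (.D 12 0 0) (.D 10 0 0))
    0 549755813888 3573412790272 3848290697216 1 1 = true := by decide +kernel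
theorem cf39_14 : chkFar
   (.sS (.D 8 1 0) (.D 8 0 0))
    549755813888 1099511627776 3298534883328 3573412790272 1 1 = true := by decide +kernel
theorem cf39_15 : chkFar
   (.D 12 1 0)
    549755813888 1099511627776 3573412790272 3848290697216 1 1 = true := by decide +kernel
theorem cf39_16 : chkFar
   (.sS (.D 12 0 0) (.D 10 0 0))
    0 549755813888 3848290697216 4123168604160 1 1 = true := by decide +kernel
theorem cf39_17 : chkFar
   (.sS (.D 12 0 0) (.D 10 0 0))
    0 549755813888 4123168604160 4398046511104 1 1 = true := by decide +kernel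
theorem cf39_18 : chkFar
   (.sT (.D 12 0 0) (.D 12 0 0))
    549755813888 1099511627776 3848290697216 4398046511104 1 1 = true := by decide +kernel
theorem cf39_19 : chkFar
   (.sT (.D 10 1 0) (.D 10 0 0))
    1099511627776 1649267441664 3298534883328 3848290697216 0 0 = true := by decide +kernel
theorem cf39_20 : chkFar
   (.D 10 0 0)
    1649267441664 2199023255552 3298534883328 3848290697216 0 0 = true := by decide +kernel
theorem cf39_21 : chkFar
   (.sS (.D 14 0 0) (.D 12 0 0))
    1099511627776 2199023255552 3848290697216 4398046511104 0 0 = true := by decide +kernel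
theorem cf39_22 : chkFar
   (.sS (.D 10 1 0) (.D 8 0 0))
    1099511627776 2199023255552 3298534883328 3848290697216 1 1 = true := by decide +kernel
theorem cf39_23 : chkFar
   (.sS (.D 12 0 0) (.D 10 0 0))
    1099511627776 2199023255552 3848290697216 4398046511104 1 1 = true := by decide +kernel
theorem cf39 (H : FarH) : FarBox 0 2199023255552 3298534883328 4398046511104 0 1 :=
   (fS (fM rfl (fT (fS (fT (fS (fT (H _ _ _ _ _ _ _ cf39_0) (H _ _ _ _ _ _ _ cf39_1)) (H _ _ _ _ _ _ _ cf39_2)) (fS (H
   _ _ _ _ _ _ _ cf39_3) (H _ _ _ _ _ _ _ cf39_4))) (fT (H _ _ _ _ _ _ _ cf39_5) (H _ _ _ _ _ _ _ cf39_6))) (fS (fT (H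
   _ _ _ _ _ _ _ cf39_7) (H _ _ _ _ _ _ _ cf39_8)) (fT (H _ _ _ _ _ _ _ cf39_9) (H _ _ _ _ _ _ _ cf39_10)))) (fT (fS
   (fT (fS (H _ _ _ _ _ _ _ cf39_11) (H _ _ _ _ _ _ _ cf39_12)) (H _ _ _ _ _ _ _ cf39_13)) (fT (H _ _ _ _ _ _ _
   cf39_14) (H _ _ _ _ _ _ _ cf39_15))) (fS (fT (H _ _ _ _ _ _ _ cf39_16) (H _ _ _ _ _ _ _ cf39_17)) (H _ _ _ _ _ _ _
   cf39_18)))) (fM rfl (fT (fS (H _ _ _ _ _ _ _ cf39_19) (H _ _ _ _ _ _ _ cf39_20)) (H _ _ _ _ _ _ _ cf39_21)) (fT (H
   _ _ _ _ _ _ _ cf39_22) (H _ _ _ _ _ _ _ cf39_23))))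

theorem cf40_0 : chkFar
   (.sS (.D 8 0 0) (.D 7 1 0))
    0 274877906944 2199023255552 2336462209024 2 2 = true := by decide +kernel
theorem cf40_1 : chkFar
   (.sS (.D 8 0 0) (.D 7 1 0))
    0 274877906944 2336462209024 2473901162496 2 2 = true := by decide +kernel
theorem cf40_2 : chkFar
   (.sT (.D 8 1 0) (.D 8 0 0))
    274877906944 549755813888 2199023255552 2473901162496 2 2 = true := by decide +kernel
theorem cf40_3 : chkFar
   (.sT (.D 12 1 0) (.D 10 1 0))
    0 274877906944 2473901162496 2748779069440 2 2 = true := by decide +kernel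
theorem cf40_4 : chkFar
   (.D 10 1 0)
    274877906944 549755813888 2473901162496 2748779069440 2 2 = true := by decide +kernel
theorem cf40_5 : chkFar
   (.sT (.sS (.D 7 1 0) (.D 6 1 0)) (.sS (.D 7 1 0) (.D 6 1 0)))
    549755813888 1099511627776 2199023255552 2748779069440 2 2 = true := by decide +kernel
theorem cf40_6 : chkFar
   (.sT (.D 10 0 0) (.D 10 0 0))
    0 274877906944 2748779069440 3023656976384 2 2 = true := by decide +kernel
theorem cf40_7 : chkFar
   (.D 8 1 0)
    274877906944 549755813888 2748779069440 3023656976384 2 2 = true := by decide +kernel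
theorem cf40_8 : chkFar
   (.sS (.D 12 1 0) (.D 8 1 0))
    0 549755813888 3023656976384 3298534883328 2 2 = true := by decide +kernel
theorem cf40_9 : chkFar
   (.sT (.sS (.D 7 1 0) (.D 7 0 0)) (.D 10 1 0))
    549755813888 1099511627776 2748779069440 3298534883328 2 2 = true := by decide +kernel
theorem cf40_10 : chkFar
   (.sS (.D 10 1 0) (.D 6 0 0))
    1099511627776 2199023255552 2199023255552 2748779069440 2 2 = true := by decide +kernel
theorem cf40_11 : chkFar
   (.sS (.D 8 1 0) (.D 6 1 0))
    1099511627776 2199023255552 2748779069440 3298534883328 2 2 = true := by decide +kernel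
theorem cf40_12 : chkFar
   (.sS (.D 10 0 0) (.D 8 1 0))
    0 549755813888 3298534883328 3573412790272 2 2 = true := by decide +kernel
theorem cf40_13 : chkFar
   (.sS (.D 10 0 0) (.D 10 0 0))
    0 549755813888 3573412790272 3848290697216 2 2 = true := by decide +kernel
theorem cf40_14 : chkFar
   (.sT (.D 10 0 0) (.D 10 0 0))
    549755813888 1099511627776 3298534883328 3848290697216 2 2 = true := by decide +kernel
theorem cf40_15 : chkFar
   (.sS (.D 10 0 0) (.D 10 0 0))
    0 549755813888 3848290697216 4123168604160 2 2 = true := by decide +kernel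
theorem cf40_16 : chkFar
   (.sS (.D 10 0 0) (.D 10 0 0))
    0 549755813888 4123168604160 4398046511104 2 2 = true := by decide +kernel
theorem cf40_17 : chkFar
   (.D 14 0 0)
    549755813888 1099511627776 3848290697216 4398046511104 2 2 = true := by decide +kernel
theorem cf40_18 : chkFar
   (.sS (.D 8 1 0) (.D 6 2 0))
    1099511627776 2199023255552 3298534883328 3848290697216 2 2 = true := by decide +kernel
theorem cf40_19 : chkFar
   (.sS (.D 10 0 0) (.D 8 0 0))
    1099511627776 2199023255552 3848290697216 4398046511104 2 2 = true := by decide +kernel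
theorem cf40 (H : FarH) : FarBox 0 2199023255552 2199023255552 4398046511104 2 2 :=
   (fT (fS (fT (fS (fT (fS (fT (H _ _ _ _ _ _ _ cf40_0) (H _ _ _ _ _ _ _ cf40_1)) (H _ _ _ _ _ _ _ cf40_2)) (fS (H _ _
   _ _ _ _ _ cf40_3) (H _ _ _ _ _ _ _ cf40_4))) (H _ _ _ _ _ _ _ cf40_5)) (fS (fT (fS (H _ _ _ _ _ _ _ cf40_6) (H _ _
   _ _ _ _ _ cf40_7)) (H _ _ _ _ _ _ _ cf40_8)) (H _ _ _ _ _ _ _ cf40_9))) (fT (H _ _ _ _ _ _ _ cf40_10) (H _ _ _ _ _
   _ _ cf40_11))) (fS (fT (fS (fT (H _ _ _ _ _ _ _ cf40_12) (H _ _ _ _ _ _ _ cf40_13)) (H _ _ _ _ _ _ _ cf40_14)) (fS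
   (fT (H _ _ _ _ _ _ _ cf40_15) (H _ _ _ _ _ _ _ cf40_16)) (H _ _ _ _ _ _ _ cf40_17))) (fT (H _ _ _ _ _ _ _ cf40_18)
   (H _ _ _ _ _ _ _ cf40_19))))

theorem cf41_0 : chkFar
   (.sT (.D 10 1 0) (.D 12 0 0))
    2199023255552 3298534883328 2199023255552 3298534883328 0 0 = true := by decide +kernel
theorem cf41_1 : chkFar
   (.sT (.D 7 1 0) (.D 8 1 0))
    2199023255552 3298534883328 2199023255552 3298534883328 1 1 = true := by decide +kernel
theorem cf41_2 : chkFar
   (.D 14 0 0)
    3298534883328 4398046511104 2199023255552 3298534883328 0 1 = true := by decide +kernel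
theorem cf41_3 : chkFar
   (.sT (.D 14 0 0) (.D 14 0 0))
    2199023255552 3298534883328 3298534883328 4398046511104 0 0 = true := by decide +kernel
theorem cf41_4 : chkFar
   (.D 17 0 0)
    2199023255552 3298534883328 3298534883328 4398046511104 1 1 = true := by decide +kernel
theorem cf41_5 : chkFar
   (.D 24 0 0)
    3298534883328 4398046511104 3298534883328 4398046511104 0 1 = true := by decide +kernel
theorem cf41_6 : chkFar
   (.sS (.D 8 1 0) (.D 5 0 0))
    2199023255552 4398046511104 2199023255552 3298534883328 2 2 = true := by decide +kernel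
theorem cf41_7 : chkFar
   (.sS (.D 12 0 0) (.D 8 0 0))
    2199023255552 4398046511104 3298534883328 4398046511104 2 2 = true := by decide +kernel
theorem cf41 (H : FarH) : FarBox 2199023255552 4398046511104 2199023255552 4398046511104 0 2 :=
   (fM rfl (fT (fS (fM rfl (H _ _ _ _ _ _ _ cf41_0) (H _ _ _ _ _ _ _ cf41_1)) (H _ _ _ _ _ _ _ cf41_2)) (fS (fM rfl (H
   _ _ _ _ _ _ _ cf41_3) (H _ _ _ _ _ _ _ cf41_4)) (H _ _ _ _ _ _ _ cf41_5))) (fT (H _ _ _ _ _ _ _ cf41_6) (H _ _ _ _
   _ _ _ cf41_7)))


end Crest.Agent.R086.N
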