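import Crest.Agent.R086.N.Spl

/-! generated certificate -/

namespace Crest.Agent.R086.N

set_option maxRecDepth 100000
set_option Elab.async false

theorem cf42_0 : chkFar
   (.sS (.sT (.D 7 0 0) (.D 7 0 0)) (.D 7 0 0))
    0 274877906944 0 137438953472 3 3 = true := by decide +kernel
theorem cf42_1 : chkFar
   (.sS (.sT (.D 7 0 0) (.D 7 0 0)) (.D 7 0 0))
    0 274877906944 137438953472 274877906944 3 3 = true := by decide +kernel
theorem cf42_2 : chkFar
   (.sT (.sS (.D 6 0 0) (.D 6 0 0)) (.sS (.D 6 0 0) (.D 6 0 0)))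
    274877906944 549755813888 0 274877906944 3 3 = true := by decide +kernel
theorem cf42_3 : chkFar
   (.sS (.sT (.D 7 0 0) (.D 7 0 0)) (.D 7 0 0))
    0 274877906944 274877906944 412316860416 3 3 = true := by decide +kernel
theorem cf42_4 : chkFar
   (.sS (.sT (.D 7 0 0) (.D 7 0 0)) (.D 7 0 0))
    0 274877906944 412316860416 549755813888 3 3 = true := by decide +kernel
theorem cf42_5 : chkFar
   (.sT (.sS (.D 6 0 0) (.D 6 0 0)) (.sS (.D 6 0 0) (.D 6 0 0)))
    274877906944 549755813888 274877906944 549755813888 3 3 = true := by decide +kernel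
theorem cf42_6 : chkFar
   (.sT (.sS (.D 7 0 0) (.D 6 0 0)) (.sS (.D 7 0 0) (.D 6 0 0)))
    549755813888 1099511627776 0 549755813888 3 3 = true := by decide +kernel
theorem cf42_7 : chkFar
   (.sS (.sT (.D 7 0 0) (.D 7 0 0)) (.D 7 0 0))
    0 274877906944 549755813888 687194767360 3 3 = true := by decide +kernel
theorem cf42_8 : chkFar
   (.sS (.sT (.D 7 0 0) (.D 7 0 0)) (.D 7 0 0))
    0 274877906944 687194767360 824633720832 3 3 = true := by decide +kernel
theorem cf42_9 : chkFar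
   (.sT (.sS (.D 6 0 0) (.D 6 0 0)) (.sS (.D 6 0 0) (.D 6 0 0)))
    274877906944 549755813888 549755813888 824633720832 3 3 = true := by decide +kernel
theorem cf42_10 : chkFar
   (.sS (.sT (.D 7 0 0) (.D 7 0 0)) (.D 7 0 0))
    0 274877906944 824633720832 962072674304 3 3 = true := by decide +kernel
theorem cf42_11 : chkFar
   (.sS (.sT (.D 7 0 0) (.D 7 0 0)) (.D 7 0 0))
    0 274877906944 962072674304 1099511627776 3 3 = true := by decide +kernel
theorem cf42_12 : chkFar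
   (.sT (.sS (.D 6 0 0) (.D 6 0 0)) (.sS (.D 6 0 0) (.D 6 0 0)))
    274877906944 549755813888 824633720832 1099511627776 3 3 = true := by decide +kernel
theorem cf42_13 : chkFar
   (.sT (.sS (.D 7 0 0) (.D 6 0 0)) (.sS (.D 7 0 0) (.D 6 0 0)))
    549755813888 1099511627776 549755813888 1099511627776 3 3 = true := by decide +kernel
theorem cf42_14 : chkFar
   (.sS (.sT (.D 8 0 0) (.D 8 0 0)) (.D 7 0 0))
    0 549755813888 0 274877906944 4 4 = true := by decide +kernel
theorem cf42_15 : chkFar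
   (.sS (.sT (.D 8 0 0) (.D 8 0 0)) (.D 7 0 0))
    0 549755813888 274877906944 549755813888 4 4 = true := by decide +kernel
theorem cf42_16 : chkFar
   (.sT (.D 8 0 0) (.sS (.D 6 0 0) (.D 6 0 0)))
    549755813888 1099511627776 0 549755813888 4 4 = true := by decide +kernel
theorem cf42_17 : chkFar
   (.sS (.sT (.D 8 0 0) (.D 10 0 0)) (.D 7 0 0))
    0 549755813888 549755813888 824633720832 4 4 = true := by decide +kernel
theorem cf42_18 : chkFar
   (.sS (.sT (.D 10 0 0) (.D 8 0 0)) (.D 7 0 0))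
    0 549755813888 824633720832 1099511627776 4 4 = true := by decide +kernel
theorem cf42_19 : chkFar
   (.sT (.sS (.D 6 0 0) (.D 6 0 0)) (.sS (.D 6 0 0) (.D 6 0 0)))
    549755813888 1099511627776 549755813888 1099511627776 4 4 = true := by decide +kernel
theorem cf42_20 : chkFar
   (.sS (.sT (.D 5 0 0) (.D 5 0 0)) (.D 5 0 0))
    1099511627776 2199023255552 0 549755813888 3 3 = true := by decide +kernel
theorem cf42_21 : chkFar
   (.sS (.sT (.D 5 0 0) (.D 6 0 0)) (.D 5 0 0))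
    1099511627776 2199023255552 549755813888 1099511627776 3 3 = true := by decide +kernel
theorem cf42_22 : chkFar
   (.sT (.sS (.D 6 0 0) (.D 5 0 0)) (.sS (.D 6 0 0) (.D 5 0 0)))
    1099511627776 2199023255552 0 1099511627776 4 4 = true := by decide +kernel
theorem cf42 (H : FarH) : FarBox 0 2199023255552 0 1099511627776 3 4 :=
   (fS (fM rfl (fT (fS (fT (fS (fT (H _ _ _ _ _ _ _ cf42_0) (H _ _ _ _ _ _ _ cf42_1)) (H _ _ _ _ _ _ _ cf42_2)) (fS
   (fT (H _ _ _ _ _ _ _ cf42_3) (H _ _ _ _ _ _ _ cf42_4)) (H _ _ _ _ _ _ _ cf42_5))) (H _ _ _ _ _ _ _ cf42_6)) (fS (fT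
   (fS (fT (H _ _ _ _ _ _ _ cf42_7) (H _ _ _ _ _ _ _ cf42_8)) (H _ _ _ _ _ _ _ cf42_9)) (fS (fT (H _ _ _ _ _ _ _
   cf42_10) (H _ _ _ _ _ _ _ cf42_11)) (H _ _ _ _ _ _ _ cf42_12))) (H _ _ _ _ _ _ _ cf42_13))) (fT (fS (fT (H _ _ _ _
   _ _ _ cf42_14) (H _ _ _ _ _ _ _ cf42_15)) (H _ _ _ _ _ _ _ cf42_16)) (fS (fT (H _ _ _ _ _ _ _ cf42_17) (H _ _ _ _ _
   _ _ cf42_18)) (H _ _ _ _ _ _ _ cf42_19)))) (fM rfl (fT (H _ _ _ _ _ _ _ cf42_20) (H _ _ _ _ _ _ _ cf42_21)) (H _ _
   _ _ _ _ _ cf42_22)))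

theorem cf43_0 : chkFar
   (.sS (.sT (.D 7 0 0) (.D 8 0 0)) (.D 7 0 0))
    0 274877906944 1099511627776 1236950581248 3 3 = true := by decide +kernel
theorem cf43_1 : chkFar
   (.sS (.sT (.D 8 0 0) (.D 8 0 0)) (.D 7 0 0))
    0 274877906944 1236950581248 1374389534720 3 3 = true := by decide +kernel
theorem cf43_2 : chkFar
   (.sT (.sS (.D 6 0 0) (.D 6 0 0)) (.D 8 0 0))
    274877906944 549755813888 1099511627776 1374389534720 3 3 = true := by decide +kernel
theorem cf43_3 : chkFar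
   (.sS (.sT (.D 8 0 0) (.D 8 0 0)) (.D 7 0 0))
    0 274877906944 1374389534720 1511828488192 3 3 = true := by decide +kernel
theorem cf43_4 : chkFar
   (.sS (.sT (.D 7 0 0) (.D 7 0 0)) (.D 7 0 0))
    0 274877906944 1511828488192 1649267441664 3 3 = true := by decide +kernel
theorem cf43_5 : chkFar
   (.sT (.D 8 0 0) (.D 7 0 0))
    274877906944 549755813888 1374389534720 1649267441664 3 3 = true := by decide +kernel
theorem cf43_6 : chkFar
   (.sT (.sS (.D 7 0 0) (.D 6 0 0)) (.sS (.D 7 0 0) (.D 6 0 0)))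
    549755813888 1099511627776 1099511627776 1649267441664 3 3 = true := by decide +kernel
theorem cf43_7 : chkFar
   (.sS (.D 10 0 0) (.D 7 0 0))
    0 274877906944 1649267441664 1786706395136 3 3 = true := by decide +kernel
theorem cf43_8 : chkFar
   (.sS (.D 8 0 0) (.D 7 0 0))
    0 274877906944 1786706395136 1924145348608 3 3 = true := by decide +kernel
theorem cf43_9 : chkFar
   (.sT (.D 7 0 0) (.D 7 0 0))
    274877906944 549755813888 1649267441664 1924145348608 3 3 = true := by decide +kernel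
theorem cf43_10 : chkFar
   (.sS (.D 7 0 0) (.D 7 0 0))
    0 274877906944 1924145348608 2061584302080 3 3 = true := by decide +kernel
theorem cf43_11 : chkFar
   (.sS (.D 7 0 0) (.D 7 0 0))
    0 274877906944 2061584302080 2199023255552 3 3 = true := by decide +kernel
theorem cf43_12 : chkFar
   (.sT (.D 7 0 0) (.D 7 0 0))
    274877906944 549755813888 1924145348608 2199023255552 3 3 = true := by decide +kernel
theorem cf43_13 : chkFar
   (.sT (.sS (.D 7 0 0) (.D 6 0 0)) (.sS (.D 7 0 0) (.D 6 0 0)))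
    549755813888 1099511627776 1649267441664 2199023255552 3 3 = true := by decide +kernel
theorem cf43_14 : chkFar
   (.sS (.sT (.D 8 0 0) (.D 8 0 0)) (.D 7 0 0))
    0 549755813888 1099511627776 1374389534720 4 4 = true := by decide +kernel
theorem cf43_15 : chkFar
   (.sS (.sT (.D 8 0 0) (.D 8 0 0)) (.D 7 0 0))
    0 549755813888 1374389534720 1649267441664 4 4 = true := by decide +kernel
theorem cf43_16 : chkFar
   (.sT (.sS (.D 6 0 0) (.D 6 0 0)) (.sS (.D 6 0 0) (.D 6 0 0)))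
    549755813888 1099511627776 1099511627776 1649267441664 4 4 = true := by decide +kernel
theorem cf43_17 : chkFar
   (.sS (.sT (.D 8 0 0) (.D 8 0 0)) (.D 7 0 0))
    0 549755813888 1649267441664 1924145348608 4 4 = true := by decide +kernel
theorem cf43_18 : chkFar
   (.sS (.sT (.D 8 0 0) (.D 8 0 0)) (.D 7 0 0))
    0 549755813888 1924145348608 2199023255552 4 4 = true := by decide +kernel
theorem cf43_19 : chkFar
   (.sT (.sS (.D 7 0 0) (.D 6 0 0)) (.D 8 0 0))
    549755813888 1099511627776 1649267441664 2199023255552 4 4 = true := by decide +kernel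
theorem cf43_20 : chkFar
   (.sS (.sT (.D 6 0 0) (.D 6 0 0)) (.D 5 0 0))
    1099511627776 2199023255552 1099511627776 1649267441664 3 3 = true := by decide +kernel
theorem cf43_21 : chkFar
   (.sS (.sT (.D 6 0 0) (.D 6 0 0)) (.D 5 1 0))
    1099511627776 2199023255552 1649267441664 2199023255552 3 3 = true := by decide +kernel
theorem cf43_22 : chkFar
   (.sT (.sS (.D 6 0 0) (.D 5 0 0)) (.sS (.D 7 0 0) (.D 5 1 0)))
    1099511627776 2199023255552 1099511627776 2199023255552 4 4 = true := by decide +kernel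
theorem cf43 (H : FarH) : FarBox 0 2199023255552 1099511627776 2199023255552 3 4 :=
   (fS (fM rfl (fT (fS (fT (fS (fT (H _ _ _ _ _ _ _ cf43_0) (H _ _ _ _ _ _ _ cf43_1)) (H _ _ _ _ _ _ _ cf43_2)) (fS
   (fT (H _ _ _ _ _ _ _ cf43_3) (H _ _ _ _ _ _ _ cf43_4)) (H _ _ _ _ _ _ _ cf43_5))) (H _ _ _ _ _ _ _ cf43_6)) (fS (fT
   (fS (fT (H _ _ _ _ _ _ _ cf43_7) (H _ _ _ _ _ _ _ cf43_8)) (H _ _ _ _ _ _ _ cf43_9)) (fS (fT (H _ _ _ _ _ _ _
   cf43_10) (H _ _ _ _ _ _ _ cf43_11)) (H _ _ _ _ _ _ _ cf43_12))) (H _ _ _ _ _ _ _ cf43_13))) (fT (fS (fT (H _ _ _ _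
   _ _ _ cf43_14) (H _ _ _ _ _ _ _ cf43_15)) (H _ _ _ _ _ _ _ cf43_16)) (fS (fT (H _ _ _ _ _ _ _ cf43_17) (H _ _ _ _ _
   _ _ cf43_18)) (H _ _ _ _ _ _ _ cf43_19)))) (fM rfl (fT (H _ _ _ _ _ _ _ cf43_20) (H _ _ _ _ _ _ _ cf43_21)) (H _ _
   _ _ _ _ _ cf43_22)))

theorem cf44_0 : chkFar
   (.sS (.D 7 0 0) (.D 7 0 0))
    0 549755813888 0 274877906944 5 5 = true := by decide +kernel
theorem cf44_1 : chkFar
   (.sS (.D 7 0 0) (.D 7 0 0))
    0 549755813888 274877906944 549755813888 5 5 = true := by decide +kernel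
theorem cf44_2 : chkFar
   (.sT (.D 7 0 0) (.D 7 0 0))
    549755813888 1099511627776 0 549755813888 5 5 = true := by decide +kernel
theorem cf44_3 : chkFar
   (.sS (.D 8 0 0) (.D 7 0 0))
    0 549755813888 549755813888 824633720832 5 5 = true := by decide +kernel
theorem cf44_4 : chkFar
   (.sS (.D 8 0 0) (.D 7 0 0))
    0 549755813888 824633720832 1099511627776 5 5 = true := by decide +kernel
theorem cf44_5 : chkFar
   (.sT (.D 7 0 0) (.D 7 0 0))
    549755813888 1099511627776 549755813888 1099511627776 5 5 = true := by decide +kernel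
theorem cf44_6 : chkFar
   (.sT (.D 7 0 0) (.sS (.D 6 0 0) (.D 5 0 0)))
    1099511627776 2199023255552 0 1099511627776 5 5 = true := by decide +kernel
theorem cf44_7 : chkFar
   (.sS (.D 8 0 0) (.D 7 0 0))
    0 549755813888 1099511627776 1374389534720 5 5 = true := by decide +kernel
theorem cf44_8 : chkFar
   (.sS (.D 8 0 0) (.D 7 0 0))
    0 549755813888 1374389534720 1649267441664 5 5 = true := by decide +kernel
theorem cf44_9 : chkFar
   (.sT (.D 7 0 0) (.D 7 0 0))
    549755813888 1099511627776 1099511627776 1649267441664 5 5 = true := by decide +kernel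
theorem cf44_10 : chkFar
   (.sS (.D 8 0 0) (.D 7 0 0))
    0 549755813888 1649267441664 1924145348608 5 5 = true := by decide +kernel
theorem cf44_11 : chkFar
   (.sS (.D 8 0 0) (.D 7 0 0))
    0 549755813888 1924145348608 2199023255552 5 5 = true := by decide +kernel
theorem cf44_12 : chkFar
   (.sT (.D 7 0 0) (.D 7 0 0))
    549755813888 1099511627776 1649267441664 2199023255552 5 5 = true := by decide +kernel
theorem cf44_13 : chkFar
   (.sT (.sS (.D 6 0 0) (.D 5 0 0)) (.sS (.D 6 0 0) (.D 5 1 0)))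
    1099511627776 2199023255552 1099511627776 2199023255552 5 5 = true := by decide +kernel
theorem cf44 (H : FarH) : FarBox 0 2199023255552 0 2199023255552 5 5 :=
   (fT (fS (fT (fS (fT (H _ _ _ _ _ _ _ cf44_0) (H _ _ _ _ _ _ _ cf44_1)) (H _ _ _ _ _ _ _ cf44_2)) (fS (fT (H _ _ _ _
   _ _ _ cf44_3) (H _ _ _ _ _ _ _ cf44_4)) (H _ _ _ _ _ _ _ cf44_5))) (H _ _ _ _ _ _ _ cf44_6)) (fS (fT (fS (fT (H _ _
   _ _ _ _ _ cf44_7) (H _ _ _ _ _ _ _ cf44_8)) (H _ _ _ _ _ _ _ cf44_9)) (fS (fT (H _ _ _ _ _ _ _ cf44_10) (H _ _ _ _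
   _ _ _ cf44_11)) (H _ _ _ _ _ _ _ cf44_12))) (H _ _ _ _ _ _ _ cf44_13)))

theorem cf45_0 : chkFar
   (.sS (.sM (.D 5 0 0) (.D 5 0 0)) (.D 4 0 0))
    2199023255552 4398046511104 0 1099511627776 3 4 = true := by decide +kernel
theorem cf45_1 : chkFar
   (.sS (.sM (.D 6 1 0) (.D 5 1 0)) (.D 4 0 0))
    2199023255552 4398046511104 1099511627776 2199023255552 3 4 = true := by decide +kernel
theorem cf45_2 : chkFar
   (.sT (.D 5 0 0) (.D 7 0 0))
    2199023255552 4398046511104 0 2199023255552 5 5 = true := by decide +kernel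
theorem cf45 (H : FarH) : FarBox 2199023255552 4398046511104 0 2199023255552 3 5 :=
   (fM rfl (fT (H _ _ _ _ _ _ _ cf45_0) (H _ _ _ _ _ _ _ cf45_1)) (H _ _ _ _ _ _ _ cf45_2))


end Crest.Agent.R086.N
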