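import Crest.Agent.R086.N.Cert0
import Crest.Agent.R086.N.Cert1
import Crest.Agent.R086.N.Cert2
import Crest.Agent.R086.N.Cert3
import Crest.Agent.R086.N.Cert4
import Crest.Agent.R086.N.Cert5
import Crest.Agent.R086.N.Cert6
import Crest.Agent.R086.N.Cert7
import Crest.Agent.R086.N.Cert8
import Crest.Agent.R086.N.Cert9
import Crest.Agent.R086.N.Cert10
import Crest.Agent.R086.N.Cert11
import Crest.Agent.R086.N.Cert12
import Crest.Agent.R086.N.Cert13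
import Crest.Agent.R086.N.Cert14
import Crest.Agent.R086.N.Cert15
import Crest.Agent.R086.N.Cert16
import Crest.Agent.R086.N.Cert17
import Crest.Agent.R086.N.Cert18
import Crest.Agent.R086.N.Cert19
import Crest.Agent.R086.N.Cert20
import Crest.Agent.R086.N.Cert21
import Crest.Agent.R086.N.Cert22
import Crest.Agent.R086.N.Cert23
import Crest.Agent.R086.N.Cert24
import Crest.Agent.R086.N.Cert25
import Crest.Agent.R086.N.Cert26
import Crest.Agent.R086.N.Cert27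

namespace Crest.Agent.R086.N

set_option maxRecDepth 100000
set_option Elab.async false

theorem farAll (H : FarH) : FarBox 0 4398046511104 0 35184372088832 0 23 :=
   (fM rfl (fT (fM rfl (fT (fT (fM rfl (fT (fS (fM rfl (fT (fS (fM rfl (fT (fS (cf0 H) (cf1 H)) (fS (fT (cf2 H) (cf3
   H)) (cf4 H))) (fT (fS (fT (fS (fT (fS (fT (cf5 H) (cf6 H)) (cf7 H)) (fS (cf8 H) (cf9 H))) (cf10 H)) (fS (fT (cf11
   H) (cf12 H)) (cf13 H))) (cf14 H)) (fS (fT (cf15 H) (cf16 H)) (cf17 H)))) (cf18 H)) (fS (fM rfl (fT (fS (fT (fS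
   (cf19 H) (cf20 H)) (cf21 H)) (cf22 H)) (cf23 H)) (fT (fS (cf24 H) (cf25 H)) (cf26 H))) (cf27 H))) (fT (fS (fT (fS
   (cf28 H) (cf29 H)) (fS (fT (cf30 H) (cf31 H)) (cf32 H))) (cf33 H)) (cf34 H))) (cf35 H)) (fS (fM rfl (fT (fS (fM rfl
   (cf36 H) (cf37 H)) (cf38 H)) (cf39 H)) (cf40 H)) (cf41 H))) (fT (fS (fM rfl (fT (cf42 H) (cf43 H)) (cf44 H)) (cf45
   H)) (fS (cf46 H) (cf47 H)))) (fM rfl (fT (fS (fM rfl (cf48 H) (cf49 H)) (cf50 H)) (fS (fM rfl (cf51 H) (cf52 H))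
   (cf53 H))) (fT (cf54 H) (cf55 H)))) (fT (fM rfl (fT (fS (fM rfl (fT (cf56 H) (cf57 H)) (cf58 H)) (fM rfl (cf59 H)
   (cf60 H))) (fS (fM rfl (fT (cf61 H) (cf62 H)) (cf63 H)) (fM rfl (fT (cf64 H) (cf65 H)) (cf66 H)))) (fT (cf67 H)
   (cf68 H))) (fM rfl (fT (fS (fM rfl (fT (fS (cf69 H) (cf70 H)) (fS (cf71 H) (cf72 H))) (cf73 H)) (fM rfl (fT (cf74
   H) (cf75 H)) (cf76 H))) (fS (fM rfl (fT (fS (fM rfl (cf77 H) (cf78 H)) (fM rfl (cf79 H) (cf80 H))) (fS (fM rfl (fT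
   (cf81 H) (cf82 H)) (cf83 H)) (fM rfl (fT (cf84 H) (cf85 H)) (cf86 H)))) (cf87 H)) (fM rfl (fT (fS (fM rfl (cf88 H)
   (cf89 H)) (cf90 H)) (fS (cf91 H) (cf92 H))) (cf93 H)))) (cf94 H)))) (fT (fM rfl (fT (fM rfl (cf95 H) (cf96 H))
   (cf97 H)) (cf98 H)) (cf99 H))) (fM rfl (cf100 H) (cf101 H))) (fM rfl (fT (cf102 H) (fM rfl (cf103 H) (cf104 H)))
   (cf105 H)))

theorem nearAll0 (H : NearH) : NearBox 0 0 68719476736 0 68719476736 :=
   (nS (nT (nS (cna0 H) (cna1 H)) (nS (cna2 H) (cna3 H))) (nT (nS (cna4 H) (cna5 H)) (nS (cna6 H) (cna7 H))))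

theorem nearAll1 (H : NearH) : NearBox 1 824633720832 1374389534720 0 274877906944 :=
   (cnb0 H)

theorem nearAll2 (H : NearH) : NearBox 2 274877906944 824633720832 0 274877906944 :=
   (nS (nS (nT (cnc0 H) (cnc1 H)) (cnc2 H)) (cnc3 H))


end Crest.Agent.R086.N
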