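import Crest.Agent.R086.N.OdeB

open MeasureTheory Set Filter Topology Complex
open scoped ContDiff ComplexConjugate

namespace Crest.Agent.R086.N

noncomputable section

/-! # From functions of r to the normal form, I -/

variable {R : ℝ} {m : ℕ} {α αs c : ℂ} {F e φ : ℝ → ℂ}

theorem EE_ne_zero (ρ₀ : ℝ) {ρ : ℝ} (hρ : 0 < ρ) : EE ρ₀ ρ ≠ 0 := by
  unfold EE
  refine mul_ne_zero ?_ (Complex.exp_ne_zero _)
  have : 0 < ρ ^ 2 * Real.sqrt ρ := by positivity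
  exact_mod_cast this.ne'

theorem norm_EE (ρ₀ : ℝ) {ρ : ℝ} (hρ : 0 ≤ ρ) : ‖EE ρ₀ ρ‖ = ρ ^ 2 * Real.sqrt ρ := by
  unfold EE
  have h1 : I * ((ρ - ρ₀ : ℝ) : ℂ) / 2 = (((ρ - ρ₀) / 2 : ℝ) : ℂ) * I := by push_cast; ring
  rw [norm_mul, h1, Complex.norm_exp_ofReal_mul_I, mul_one, Complex.norm_real, Real.norm_eq_abs,
    abs_of_nonneg (by positivity)]

theorem hasDerivAt_EE (ρ₀ : ℝ) {ρ : ℝ} (hρ : 0 < ρ) :
    HasDerivAt (EE ρ₀) ((5 / 2 + I * ρ / 2) * EE ρ₀ ρ / ρ) ρ := by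
  have hs : 0 < Real.sqrt ρ := Real.sqrt_pos.2 hρ
  have hss : Real.sqrt ρ * Real.sqrt ρ = ρ := Real.mul_self_sqrt hρ.le
  have h1 : HasDerivAt (fun x : ℝ => x ^ 2 * Real.sqrt x) (5 / 2 * (ρ ^ 2 * Real.sqrt ρ) / ρ) ρ := by
    refine ((hasDerivAt_pow 2 ρ).mul (Real.hasDerivAt_sqrt hρ.ne')).congr_deriv ?_
    generalize Real.sqrt ρ = s at *
    subst hss
    field_simp
    norm_num
    ring
  have h2 : HasDerivAt (fun x : ℝ => I * ((x - ρ₀ : ℝ) : ℂ) / 2) (I / 2) ρ := by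
    have := (((hasDerivAt_id ρ).sub_const ρ₀).ofReal_comp.const_mul I).div_const 2
    simpa using this
  refine (h1.ofReal_comp.mul h2.cexp).congr_deriv ?_
  unfold EE
  have : (ρ : ℂ) ≠ 0 := by exact_mod_cast hρ.ne'
  push_cast
  field_simp

theorem lt_two_sqrt (hR : 0 < R) {ρ : ℝ} (hρ : R ^ 2 / 4 < ρ) : R < 2 * Real.sqrt ρ := by
  have : R / 2 < Real.sqrt ρ := Real.lt_sqrt_of_sq_lt (by linarith)
  linarith

theorem tendsto_two_sqrt (hR : 0 < R) :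
    Tendsto (fun ρ => 2 * Real.sqrt ρ) (𝓝[>] (R ^ 2 / 4)) (𝓝[>] R) := by
  refine tendsto_nhdsWithin_iff.2 ⟨?_, ?_⟩
  · have hc : Continuous (fun ρ : ℝ => 2 * Real.sqrt ρ) := by fun_prop
    have h := hc.tendsto (R ^ 2 / 4)
    have e : 2 * Real.sqrt (R ^ 2 / 4) = R := by
      rw [show R ^ 2 / 4 = (R / 2) ^ 2 by ring, Real.sqrt_sq (by linarith)]; ring
    rw [e] at h
    exact h.mono_left nhdsWithin_le_nhds
  · filter_upwards [self_mem_nhdsWithin] with ρ hρ using lt_two_sqrt hR hρ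

private theorem hasDerivAt_comp_two_sqrt {G : ℝ → ℂ} {ρ : ℝ} (hρ : 0 < ρ)
    (hG : DifferentiableAt ℝ G (2 * Real.sqrt ρ)) :
    HasDerivAt (fun x => G (2 * Real.sqrt x))
      ((Real.sqrt ρ : ℂ) * deriv G (2 * Real.sqrt ρ) / ρ) ρ := by
  have hs : 0 < Real.sqrt ρ := Real.sqrt_pos.2 hρ
  have hss : Real.sqrt ρ * Real.sqrt ρ = ρ := Real.mul_self_sqrt hρ.le
  have h1 : HasDerivAt (fun x : ℝ => 2 * Real.sqrt x) (Real.sqrt ρ / ρ) ρ := by
    refine ((Real.hasDerivAt_sqrt hρ.ne').const_mul 2).congr_deriv ?_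
    generalize Real.sqrt ρ = s at *
    subst hss
    field_simp
  refine (hG.hasDerivAt.scomp ρ h1).congr_deriv ?_
  rw [Complex.real_smul]
  push_cast
  ring

private theorem hasDerivAt_yOf' (ρ₀ : ℝ) {G : ℝ → ℂ} {ρ : ℝ} (hρ : 0 < ρ)
    (hG : DifferentiableAt ℝ G (2 * Real.sqrt ρ)) : HasDerivAt (yOf ρ₀ G) (pOf ρ₀ G ρ / ρ) ρ := by
  refine ((hasDerivAt_EE ρ₀ hρ).mul (hasDerivAt_comp_two_sqrt hρ hG)).congr_deriv ?_
  unfold pOf
  ring

private theorem contDiffOn_deriv_Ioi {n : ℕ} {F : ℝ → ℂ} (hs : ContDiffOn ℝ (n + 1 : ℕ) F (Ioi R)) :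
    ContDiffOn ℝ n (deriv F) (Ioi R) := by
  have : ContDiffOn ℝ ((n : ℕ∞ω) + 1) F (Ioi R) := by exact_mod_cast hs
  exact this.deriv_of_isOpen isOpen_Ioi le_rfl

private theorem diffAt_of_contDiffOn {n : ℕ} {F : ℝ → ℂ} (hs : ContDiffOn ℝ (n + 1 : ℕ) F (Ioi R))
    {r : ℝ} (hr : R < r) : DifferentiableAt ℝ F r :=
  (hs.differentiableOn (by exact_mod_cast Nat.succ_ne_zero n)).differentiableAt (Ioi_mem_nhds hr)

/-- with r = 2√ρ: θ = √ρ d/dr, ρF'' = ρ𝒟F - (11/2)θF + m(m+10)F/4, 𝒟F = -i(αF + θF + e) -/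
theorem nfo_of_ode (hR : 0 < R) (ρ₀ : ℝ) (hs : ContDiffOn ℝ 2 F (Ioi R))
    (ho : ∀ r : ℝ, R < r → I * DD m F r = α * F r + (r : ℂ) / 2 * deriv F r + e r) :
    NFo (nu m) (5 / 2 - α) (R ^ 2 / 4) (yOf ρ₀ F) (pOf ρ₀ F) (fun ρ => -I * ρ * yOf ρ₀ e ρ) := by
  have hs2 : ContDiffOn ℝ (1 + 1 : ℕ) F (Ioi R) := by exact_mod_cast hs
  have hs1 : ContDiffOn ℝ (0 + 1 : ℕ) (deriv F) (Ioi R) := contDiffOn_deriv_Ioi hs2
  refine ⟨fun ρ hρ => ?_, fun ρ hρ => ?_⟩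
  · have h0 : 0 < ρ := lt_trans (by positivity) hρ
    exact hasDerivAt_yOf' ρ₀ h0 (diffAt_of_contDiffOn hs2 (lt_two_sqrt hR hρ))
  · have h0 : 0 < ρ := lt_trans (by positivity) hρ
    have hr := lt_two_sqrt hR hρ
    have hsp : 0 < Real.sqrt ρ := Real.sqrt_pos.2 h0
    have hss : Real.sqrt ρ * Real.sqrt ρ = ρ := Real.mul_self_sqrt h0.le
    have d1 := hasDerivAt_comp_two_sqrt h0 (diffAt_of_contDiffOn hs2 hr)
    have d2 := hasDerivAt_comp_two_sqrt h0 (diffAt_of_contDiffOn hs1 hr)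
    have d3 : HasDerivAt (fun x : ℝ => (5 / 2 + I * (x : ℂ) / 2 : ℂ)) (I / 2) ρ := by
      have := (((hasDerivAt_id ρ).ofReal_comp.const_mul I).div_const 2).const_add (5 / 2)
      simpa using this
    have d4 := (Real.hasDerivAt_sqrt h0.ne').ofReal_comp
    refine ((hasDerivAt_EE ρ₀ h0).mul ((d3.mul d1).add (d4.mul d2))).congr_deriv ?_
    have ho' := ho _ hr
    unfold DD at ho'
    unfold WW yOf nu
    simp only [Pi.mul_apply, Pi.add_apply]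
    set s := Real.sqrt ρ
    have hρs : (ρ : ℂ) = (s : ℂ) * s := by exact_mod_cast hss.symm
    have hs0 : (s : ℂ) ≠ 0 := by exact_mod_cast hsp.ne'
    generalize deriv (deriv F) (2 * s) = F2 at *
    generalize deriv F (2 * s) = F1 at *
    generalize F (2 * s) = F0 at *
    generalize e (2 * s) = e0 at *
    have hF2 : F2 = -I * (α * F0 + s * F1 + e0) - 11 / (2 * s) * F1 + (m * (m + 10)) / (2 * s) ^ 2 * F0 := by
      push_cast at ho'
      have hI : I * I = -1 := I_mul_I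
      linear_combination (-I) * ho' + (F2 + 11 / (2 * s) * F1 - (m * (m + 10)) / (2 * s) ^ 2 * F0) * hI
    rw [hF2, hρs]
    push_cast
    field_simp
    have hI : I ^ 2 = -1 := I_sq
    linear_combination ((EE ρ₀ ρ) * 4 * s ^ 4 * F0) * hI

theorem yOf_D1 (hR : 0 < R) (ρ₀ : ℝ)
    (ho : ∀ r : ℝ, R < r → I * DD m F r = α * F r + (r : ℂ) / 2 * deriv F r + e r)
    {ρ : ℝ} (hρ : R ^ 2 / 4 < ρ) :
    yOf ρ₀ (D1 m F) ρ = pOf ρ₀ F ρ - kp (5 / 2 - α) ρ * yOf ρ₀ F ρ + yOf ρ₀ e ρ := by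
  have ho' := ho _ (lt_two_sqrt hR hρ)
  unfold yOf pOf kp D1
  rw [ho']
  push_cast
  ring

/-- pOf G = ρ · (yOf G)' for any G differentiable at 2√ρ -/
theorem hasDerivAt_yOf (ρ₀ : ℝ) {G : ℝ → ℂ} {ρ : ℝ} (hρ : 0 < ρ)
    (hG : DifferentiableAt ℝ G (2 * Real.sqrt ρ)) : HasDerivAt (yOf ρ₀ G) (pOf ρ₀ G ρ / ρ) ρ :=
  hasDerivAt_yOf' ρ₀ hρ hG

theorem contDiffOn_D1 (hR : 0 < R) {n : ℕ} (hs : ContDiffOn ℝ (n + 2 : ℕ) F (Ioi R)) :
    ContDiffOn ℝ n (D1 m F) (Ioi R) := by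
  have h1 : ContDiffOn ℝ (n + 1 : ℕ) (deriv F) (Ioi R) := contDiffOn_deriv_Ioi (n := n + 1) hs
  have h2 : ContDiffOn ℝ n (deriv (deriv F)) (Ioi R) := contDiffOn_deriv_Ioi h1
  have h1' : ContDiffOn ℝ n (deriv F) (Ioi R) := h1.of_le (by exact_mod_cast Nat.le_succ n)
  have h0' : ContDiffOn ℝ n F (Ioi R) := hs.of_le (by exact_mod_cast Nat.le_add_right n 2)
  have hc : ContDiffOn ℝ n (fun r : ℝ => (r : ℂ)) (Ioi R) := Complex.ofRealCLM.contDiff.contDiffOn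
  have hne : ∀ r ∈ Ioi R, (r : ℂ) ≠ 0 := fun r hr => by
    have : 0 < r := lt_trans hR hr
    exact_mod_cast this.ne'
  unfold D1 DD
  refine contDiffOn_const.mul ((h2.add (ContDiffOn.mul ?_ h1')).sub (ContDiffOn.mul ?_ h0'))
  · simp only [div_eq_mul_inv]
    exact contDiffOn_const.mul (hc.inv hne)
  · simp only [div_eq_mul_inv]
    exact contDiffOn_const.mul ((hc.pow 2).inv (fun r hr => pow_ne_zero 2 (hne r hr)))

theorem contDiffOn_D1_iter (hR : 0 < R) {n j : ℕ} (hs : ContDiffOn ℝ (n + 2 * j : ℕ) F (Ioi R)) :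
    ContDiffOn ℝ n ((D1 m)^[j] F) (Ioi R) := by
  induction j generalizing n with
  | zero => simpa using hs
  | succ j ih =>
    rw [Function.iterate_succ_apply']
    refine contDiffOn_D1 hR (ih ?_)
    rwa [show n + 2 + 2 * j = n + 2 * (j + 1) by ring]

private theorem deriv_congr_Ioi {F G : ℝ → ℂ} (h : EqOn F G (Ioi R)) : EqOn (deriv F) (deriv G) (Ioi R) :=
  fun _ hr => Filter.EventuallyEq.deriv_eq (h.eventuallyEq_of_mem (Ioi_mem_nhds hr))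

private theorem D1_congr_one {F G : ℝ → ℂ} (h : EqOn F G (Ioi R)) : EqOn (D1 m F) (D1 m G) (Ioi R) := by
  intro r hr
  unfold D1 DD
  rw [h hr, deriv_congr_Ioi h hr, deriv_congr_Ioi (deriv_congr_Ioi h) hr]

theorem D1_congr {G : ℝ → ℂ} (h : EqOn F G (Ioi R)) (j : ℕ) : EqOn ((D1 m)^[j] F) ((D1 m)^[j] G) (Ioi R) := by
  induction j with
  | zero => simpa using h
  | succ j ih =>
    rw [Function.iterate_succ_apply', Function.iterate_succ_apply']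
    exact D1_congr_one ih

private theorem deriv_add_smul_Ioi {n : ℕ} {F φ : ℝ → ℂ} (hs : ContDiffOn ℝ (n + 1 : ℕ) F (Ioi R))
    (hφ : ContDiffOn ℝ (n + 1 : ℕ) φ (Ioi R)) (a : ℂ) :
    EqOn (deriv (fun r => F r + a * φ r)) (fun r => deriv F r + a * deriv φ r) (Ioi R) := fun _ hr =>
  ((diffAt_of_contDiffOn hs hr).hasDerivAt.add
    ((diffAt_of_contDiffOn hφ hr).hasDerivAt.const_mul a)).deriv

private theorem D1_add_smul_one {F φ : ℝ → ℂ} (hs : ContDiffOn ℝ (1 + 1 : ℕ) F (Ioi R))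
    (hφ : ContDiffOn ℝ (1 + 1 : ℕ) φ (Ioi R)) (a : ℂ) :
    EqOn (D1 m (fun r => F r + a * φ r)) (fun r => D1 m F r + a * D1 m φ r) (Ioi R) := by
  intro r hr
  have h1 := deriv_add_smul_Ioi hs hφ a
  have h2 := deriv_add_smul_Ioi (n := 0) (contDiffOn_deriv_Ioi hs) (contDiffOn_deriv_Ioi hφ) a
  unfold D1 DD
  rw [deriv_congr_Ioi h1 hr, h2 hr, h1 hr]
  ring

theorem D1_add_smul (hR : 0 < R) {j : ℕ} (hs : ContDiffOn ℝ (2 * j : ℕ) F (Ioi R))
    (hφ : ContDiffOn ℝ (2 * j : ℕ) φ (Ioi R)) (a : ℂ) :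
    EqOn ((D1 m)^[j] (fun r => F r + a * φ r)) (fun r => (D1 m)^[j] F r + a * (D1 m)^[j] φ r) (Ioi R) := by
  induction j with
  | zero => intro r _; simp
  | succ j ih =>
    have hle : ((2 * j : ℕ) : ℕ∞ω) ≤ ((2 * (j + 1) : ℕ) : ℕ∞ω) := by
      exact_mod_cast (by omega : 2 * j ≤ 2 * (j + 1))
    have e : 2 * (j + 1) = 2 + 2 * j := by ring
    have ih' := ih (hs.of_le hle) (hφ.of_le hle)
    rw [e] at hs hφ
    simp only [Function.iterate_succ_apply']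
    exact (D1_congr_one ih').trans
      (D1_add_smul_one (contDiffOn_D1_iter hR hs) (contDiffOn_D1_iter hR hφ) a)

private theorem DD_const_mul (m : ℕ) (a : ℂ) (F : ℝ → ℂ) :
    DD m (fun r => a * F r) = fun r => a * DD m F r := by
  funext r
  have h1 : deriv (fun r => a * F r) = fun r => a * deriv F r := by
    funext x; exact deriv_const_mul_field a
  unfold DD
  rw [h1, deriv_const_mul_field]
  ring

private theorem D1_iter (m : ℕ) (F : ℝ → ℂ) (j : ℕ) :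
    (D1 m)^[j] F = fun r => I ^ j * (DD m)^[j] F r := by
  induction j with
  | zero => simp
  | succ j ih =>
    rw [Function.iterate_succ_apply', Function.iterate_succ_apply', ih]
    funext r
    unfold D1
    rw [DD_const_mul]
    ring

/-- (i𝒟)⁴ = 𝒟⁴ (`deriv_const_mul_field`) -/
theorem D1_four (m : ℕ) (F : ℝ → ℂ) : (D1 m)^[4] F = (DD m)^[4] F := by
  rw [D1_iter, I_pow_four]
  funext r
  rw [one_mul]

/-- 𝒟θ = θ𝒟 + 𝒟: on (R,∞) D1 F = αF + (r/2)F' + e; differentiate -/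
theorem ode_D1 (hR : 0 < R) (hs : ContDiffOn ℝ 4 F (Ioi R)) (he : ContDiffOn ℝ 2 e (Ioi R))
    (ho : ∀ r : ℝ, R < r → I * DD m F r = α * F r + (r : ℂ) / 2 * deriv F r + e r) :
    ∀ r : ℝ, R < r → I * DD m (D1 m F) r = (α + 1) * D1 m F r + (r : ℂ) / 2 * deriv (D1 m F) r + D1 m e r := by
  intro r hr
  have s4 : ContDiffOn ℝ (3 + 1 : ℕ) F (Ioi R) := by exact_mod_cast hs
  have s3 : ContDiffOn ℝ (2 + 1 : ℕ) (deriv F) (Ioi R) := contDiffOn_deriv_Ioi s4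
  have s2 : ContDiffOn ℝ (1 + 1 : ℕ) (deriv (deriv F)) (Ioi R) := contDiffOn_deriv_Ioi s3
  have e2 : ContDiffOn ℝ (1 + 1 : ℕ) e (Ioi R) := by exact_mod_cast he
  have e1 : ContDiffOn ℝ (0 + 1 : ℕ) (deriv e) (Ioi R) := contDiffOn_deriv_Ioi e2
  have hc : ∀ x : ℝ, HasDerivAt (fun y : ℝ => (y : ℂ) / 2) (1 / 2) x := fun x => by
    simpa using (hasDerivAt_id x).ofReal_comp.div_const 2
  have hc' : ∀ x : ℝ, HasDerivAt (fun y : ℝ => (y : ℂ)) 1 x := fun x => by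
    simpa using (hasDerivAt_id x).ofReal_comp
  have h0 : EqOn (D1 m F) (fun x => α * F x + (x : ℂ) / 2 * deriv F x + e x) (Ioi R) :=
    fun x hx => ho x hx
  have h1 : EqOn (deriv (D1 m F)) (fun x => α * deriv F x
      + (1 / 2 * deriv F x + (x : ℂ) / 2 * deriv (deriv F) x) + deriv e x) (Ioi R) := fun x hx => by
    rw [deriv_congr_Ioi h0 hx]
    exact ((((diffAt_of_contDiffOn s4 hx).hasDerivAt.const_mul α).add
      ((hc x).mul (diffAt_of_contDiffOn s3 hx).hasDerivAt)).add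
      (diffAt_of_contDiffOn e2 hx).hasDerivAt).deriv
  have h2 : deriv (deriv (D1 m F)) r = α * deriv (deriv F) r
      + (1 / 2 * deriv (deriv F) r + (1 / 2 * deriv (deriv F) r + (r : ℂ) / 2 * deriv (deriv (deriv F)) r))
      + deriv (deriv e) r := by
    rw [deriv_congr_Ioi h1 hr]
    exact ((((diffAt_of_contDiffOn s3 hr).hasDerivAt.const_mul α).add
      (((diffAt_of_contDiffOn s3 hr).hasDerivAt.const_mul (1 / 2)).add
      ((hc r).mul (diffAt_of_contDiffOn s2 hr).hasDerivAt))).add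
      (diffAt_of_contDiffOn e1 hr).hasDerivAt).deriv
  have hr0 : (r : ℂ) ≠ 0 := by
    have : 0 < r := lt_trans hR hr
    exact_mod_cast this.ne'
  have h3 : deriv (D1 m F) r = I * (deriv (deriv (deriv F)) r
      + (-11 / (r : ℂ) ^ 2 * deriv F r + 11 / (r : ℂ) * deriv (deriv F) r)
      - (-2 * ((m : ℂ) * (m + 10)) / (r : ℂ) ^ 3 * F r + ((m : ℂ) * (m + 10)) / (r : ℂ) ^ 2 * deriv F r)) := by
    have a1 : HasDerivAt (fun y : ℝ => (11 : ℂ) / (y : ℂ)) (-11 / (r : ℂ) ^ 2) r := by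
      refine ((hasDerivAt_const r (11 : ℂ)).div (hc' r) hr0).congr_deriv ?_
      ring
    have a2 : HasDerivAt (fun y : ℝ => ((m : ℂ) * (m + 10)) / (y : ℂ) ^ 2)
        (-2 * ((m : ℂ) * (m + 10)) / (r : ℂ) ^ 3) r := by
      refine ((hasDerivAt_const r ((m : ℂ) * (m + 10))).div ((hc' r).pow 2)
        (pow_ne_zero 2 hr0)).congr_deriv ?_
      simp only [Pi.pow_apply]
      field_simp
      norm_num
      ring
    exact ((((diffAt_of_contDiffOn s2 hr).hasDerivAt.add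
      (a1.mul (diffAt_of_contDiffOn s3 hr).hasDerivAt)).sub
      (a2.mul (diffAt_of_contDiffOn s4 hr).hasDerivAt)).const_mul I).deriv
  have h4 : D1 m F r = I * (deriv (deriv F) r + 11 / (r : ℂ) * deriv F r
      - ((m : ℂ) * (m + 10)) / (r : ℂ) ^ 2 * F r) := rfl
  have h5 : D1 m e r = I * (deriv (deriv e) r + 11 / (r : ℂ) * deriv e r
      - ((m : ℂ) * (m + 10)) / (r : ℂ) ^ 2 * e r) := rfl
  have h6 : DD m (D1 m F) r = deriv (deriv (D1 m F)) r + 11 / (r : ℂ) * deriv (D1 m F) r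
      - ((m : ℂ) * (m + 10)) / (r : ℂ) ^ 2 * D1 m F r := rfl
  rw [h6, h2, h5]
  conv_lhs => rw [h1 hr, h0 hr]
  conv_rhs => rw [h3, h4]
  field_simp
  ring

/-- change of variables r = 2√ρ (`integrableOn_image_iff_integrableOn_abs_deriv_smul` or
`integrableOn_Ioi_comp_rpow_iff`): ‖yOf G ρ‖² = ρ⁵ ‖G(2√ρ)‖² -/
theorem l2_yOf {G : ℝ → ℂ} {a : ℝ} (ρ₀ : ℝ) (h : IntegrableOn (fun r : ℝ => r ^ 11 * ‖G r‖ ^ 2) (Ioi a)) :
    L2 (yOf ρ₀ G) := by
  set b := max a 1 with hb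
  have hb0 : 0 < b := lt_of_lt_of_le one_pos (le_max_right _ _)
  have h' : IntegrableOn (fun r : ℝ => r ^ 11 * ‖G r‖ ^ 2) (Ioi b) :=
    h.mono_set (Ioi_subset_Ioi (le_max_left _ _))
  refine ⟨b ^ 2 / 4, ?_⟩
  have hd : ∀ x ∈ Ioi (b ^ 2 / 4), HasDerivWithinAt (fun x : ℝ => 2 * Real.sqrt x)
      (1 / Real.sqrt x) (Ioi (b ^ 2 / 4)) x := fun x hx => by
    have h0 : 0 < x := lt_trans (by positivity) hx
    have hs : 0 < Real.sqrt x := Real.sqrt_pos.2 h0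
    refine (((Real.hasDerivAt_sqrt h0.ne').const_mul 2).congr_deriv ?_).hasDerivWithinAt
    field_simp
  have hinj : InjOn (fun x : ℝ => 2 * Real.sqrt x) (Ioi (b ^ 2 / 4)) := fun x hx y hy hxy => by
    have h0 : 0 < x := lt_trans (by positivity) hx
    have h1 : 0 < y := lt_trans (by positivity) hy
    have : Real.sqrt x = Real.sqrt y := by simpa using hxy
    exact (Real.sqrt_inj h0.le h1.le).1 this
  have himg : (fun x : ℝ => 2 * Real.sqrt x) '' Ioi (b ^ 2 / 4) ⊆ Ioi b := by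
    rintro _ ⟨x, hx, rfl⟩
    exact lt_two_sqrt hb0 hx
  have key := (integrableOn_image_iff_integrableOn_abs_deriv_smul measurableSet_Ioi hd hinj _).1
    (h'.mono_set himg)
  refine IntegrableOn.congr_fun (Integrable.const_mul key (1 / 2 ^ 11)) (fun x hx => ?_) measurableSet_Ioi
  have h0 : 0 < x := lt_trans (by positivity) hx
  have hs : 0 < Real.sqrt x := Real.sqrt_pos.2 h0
  have hss : Real.sqrt x * Real.sqrt x = x := Real.mul_self_sqrt h0.le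
  simp only [yOf, norm_mul, norm_EE ρ₀ h0.le, smul_eq_mul]
  rw [abs_of_pos (by positivity)]
  generalize Real.sqrt x = s at *
  subst hss
  field_simp

theorem Fr.of_free (h : Free R m α F e) : Fr R m α F e := by
  refine ⟨h.smooth.of_le (by norm_num), h.ode, ?_⟩
  rw [D1_four]
  exact l2_yOf _ h.adm

end

end Crest.Agent.R086.N
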