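import Crest.Agent.R086.N.OdeB

open MeasureTheory Set Filter Topology Complex
open scoped ContDiff ComplexConjugate

namespace Crest.Agent.R086.N

noncomputable section

/-! # ODE lemmas III: the disc, the flux, the window, the Wronskian -/

variable {ν ρ₀ : ℝ} {k ks c : ℂ} {y p Φ Q : ℝ → ℂ}

theorem OdeC_mono {D : Set ℝ} (hD : Convex ℝ D) {f f' : ℝ → ℝ} (hf : ContinuousOn f D)
    (hd : ∀ x ∈ interior D, HasDerivAt f (f' x) x) (h : ∀ x ∈ interior D, 0 ≤ f' x) :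
    MonotoneOn f D :=
  monotoneOn_of_deriv_nonneg hD hf (fun x hx => (hd x hx).differentiableAt.differentiableWithinAt)
    fun x hx => (hd x hx).deriv ▸ h x hx

theorem OdeC_conj_mul {u v : ℝ → ℂ} {u' v' : ℂ} {x : ℝ} (hu : HasDerivAt u u' x)
    (hv : HasDerivAt v v' x) :
    HasDerivAt (fun s => conj (u s) * v s) (conj u' * v x + conj (u x) * v') x :=
  hu.star.mul hv

theorem OdeC_re {u : ℝ → ℂ} {u' : ℂ} {x : ℝ} (hu : HasDerivAt u u' x) :
    HasDerivAt (fun s => (u s).re) u'.re x := reCLM.hasFDerivAt.comp_hasDerivAt x hu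

theorem OdeC_im {u : ℝ → ℂ} {u' : ℂ} {x : ℝ} (hu : HasDerivAt u u' x) :
    HasDerivAt (fun s => (u s).im) u'.im x := imCLM.hasFDerivAt.comp_hasDerivAt x hu

theorem OdeC_nsq {u : ℝ → ℂ} {u' : ℂ} {x : ℝ} (hu : HasDerivAt u u' x) :
    HasDerivAt (fun s => ‖u s‖ ^ 2) (2 * (conj (u x) * u').re) x := by
  convert OdeC_re (OdeC_conj_mul hu hu) using 1
  · funext s
    simp [Complex.sq_norm, Complex.normSq_apply]
  · simp
    ring

theorem OdeC_re_div (a b : ℂ) (r : ℝ) : (a * (b / r)).re = (a * b).re / r := by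
  rw [← mul_div_assoc, Complex.div_ofReal_re]

/-- Ψ = |Y|² - |ν+k|²|y|² has ρΨ' = -2 Re k |Y + (ν+k) y|² ≥ 0 (use A - |ν+k|² = -2 Re k (ν+k));
`nonpos_of_monotoneOn` -/
theorem NF.disc (h0 : 0 < ρ₀) (h1 : NF ν k ρ₀ y p 0) (hk : k.re ≤ 0) (hy : L2 y)
    (hY : L2 (fun ρ => p ρ - kp k ρ * y ρ)) :
    ∀ ρ, ρ₀ ≤ ρ → ‖p ρ - kp k ρ * y ρ‖ ≤ ‖(ν : ℂ) + k‖ * ‖y ρ‖ := by
  have ck : Continuous (kp k) := by
    unfold kp
    fun_prop
  have cY : ContinuousOn (fun ρ => p ρ - kp k ρ * y ρ) (Ici ρ₀) :=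
    h1.cp.sub (ck.continuousOn.mul h1.cy)
  have hm : MonotoneOn (fun ρ => ‖p ρ - kp k ρ * y ρ‖ ^ 2 - ‖(ν : ℂ) + k‖ ^ 2 * ‖y ρ‖ ^ 2)
      (Ici ρ₀) := by
    refine OdeC_mono (convex_Ici ρ₀) ((cY.norm.pow 2).sub (continuousOn_const.mul (h1.cy.norm.pow 2)))
      (f' := fun ρ => -2 * k.re * ‖p ρ - kp k ρ * y ρ + ((ν : ℂ) + k) * y ρ‖ ^ 2 / ρ) ?_ ?_
    · intro ρ hρ
      rw [interior_Ici] at hρ
      have r0 : ρ ≠ 0 := (h0.trans hρ).ne'
      have rc : (ρ : ℂ) ≠ 0 := by exact_mod_cast r0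
      have dk : HasDerivAt (kp k) (I / 2) ρ := by
        have := ((ofRealCLM.hasDerivAt (x := ρ)).const_mul I).div_const 2 |>.const_add k
        exact this.congr_deriv (by simp)
      have dY : HasDerivAt (fun ρ => p ρ - kp k ρ * y ρ)
          ((Wg ν k ρ * y ρ - kp k ρ * p ρ) / ρ) ρ := by
        refine HasDerivAt.congr_deriv ((h1.dp ρ hρ).sub (dk.mul (h1.dy ρ hρ))) ?_
        simp only [WW, Wg, Pi.zero_apply]
        field_simp
        ring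
      refine HasDerivAt.congr_deriv
        ((OdeC_nsq dY).sub ((OdeC_nsq (h1.dy ρ hρ)).const_mul (‖(ν : ℂ) + k‖ ^ 2))) ?_
      simp only [OdeC_re_div, Complex.sq_norm, Complex.normSq_apply, Wg, kp]
      simp [pow_two, map_ofNat]
      field_simp
      ring
    · intro ρ hρ
      rw [interior_Ici] at hρ
      have := (h0.trans hρ).le
      have h2 : 0 ≤ -2 * k.re := by linarith
      positivity
  intro ρ hρ
  have := nonpos_of_monotoneOn hm ((hY.on cY).sub ((hy.on h1.cy).const_mul _)) ρ hρ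
  rw [← mul_pow, sub_nonpos] at this
  exact (pow_le_pow_iff_left₀ (norm_nonneg _) (by positivity) two_ne_zero).1 this

/-- J = Im(ȳp) has J' = (Re k + 1/2)|y|², a limit at ∞, and J/ρ is integrable (`NF.l2_p`, `lim_zero_of_div`) -/
theorem NF.flux (h0 : 0 < ρ₀) (h1 : NF ν k ρ₀ y p 0) (hy : L2 y) :
    ∀ ρ, ρ₀ ≤ ρ → (conj (y ρ) * p ρ).im = -(k.re + 1 / 2) * ∫ s in Ioi ρ, ‖y s‖ ^ 2 := by
  have cc : ContinuousOn (fun s => conj (y s)) (Ici ρ₀) := continuous_conj.comp_continuousOn h1.cy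
  have hd : ∀ s, ρ₀ < s → HasDerivAt (fun s => (conj (y s) * p s).im)
      ((k.re + 1 / 2) * ‖y s‖ ^ 2) s := by
    intro s hs
    have r0 : s ≠ 0 := (h0.trans hs).ne'
    convert OdeC_im (OdeC_conj_mul (h1.dy s hs) (h1.dp s hs)) using 1
    rw [map_div₀, conj_ofReal, div_mul_eq_mul_div, ← mul_div_assoc, ← add_div, Complex.div_ofReal_im]
    simp only [Complex.sq_norm, Complex.normSq_apply, WW]
    simp [pow_two]
    field_simp
    ring
  have hi : IntegrableOn (fun s => (k.re + 1 / 2) * ‖y s‖ ^ 2) (Ioi ρ₀) :=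
    (hy.on h1.cy).const_mul _
  have ht := tendsto_limUnder_of_hasDerivAt_of_integrableOn_Ioi hd hi
  generalize limUnder atTop (fun s => (conj (y s) * p s).im) = L at ht
  have hL : (L : ℂ) = 0 := by
    refine lim_zero_of_div h0 ((continuous_ofReal.tendsto L).comp ht) ?_
    have l1 : L2 fun s => conj (y s) := by simpa [L2] using hy
    have := (l1.integrable_mul (h1.l2_p h0 hy) cc (h1.cp.div continuous_ofReal.continuousOn
      fun s hs => by exact_mod_cast (h0.trans_le hs).ne')).im.ofReal (𝕜 := ℂ)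
    refine this.congr (Eventually.of_forall fun s => ?_)
    simp only [RCLike.im_to_complex, Function.comp]
    rw [← mul_div_assoc, Complex.div_ofReal_im]
    exact ofReal_div _ _
  rw [ofReal_eq_zero.1 hL] at ht
  intro ρ hρ
  have := integral_Ioi_of_hasDerivAt_of_tendsto (a := ρ)
    (((continuous_im.comp_continuousOn (cc.mul h1.cp)).mono (Ici_subset_Ici.2 hρ)) ρ self_mem_Ici)
    (fun s hs => hd s (hρ.trans_lt hs)) (hi.mono_set (Ioi_subset_Ioi hρ)) ht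
  rw [integral_const_mul] at this
  simp only [Function.comp, Pi.mul_apply] at this
  linarith

/-- with ξ(ρ) = -κ + (δ+κ)(ρ-a)/(b-a), Z = Re(ȳp) - ξ|y|² has
ρ Z' = |p - ξ y|² + (Re W - ρ ξ' - ξ²)|y|² ≥ 0; Re W = ν² - ρ²/4 - ρ Im k -/
theorem NF.window (h0 : 0 < ρ₀) (h1 : NF ν k ρ₀ y p 0) {a b δ κ : ℝ} (ha : ρ₀ ≤ a) (hab : a < b)
    (hW : ∀ ρ ∈ Icc a b, ρ * (δ + κ) / (b - a) + (-κ + (δ + κ) * (ρ - a) / (b - a)) ^ 2 ≤
      ν ^ 2 - ρ ^ 2 / 4 - ρ * k.im)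
    (hb : (conj (y b) * p b).re ≤ δ * ‖y b‖ ^ 2) : (conj (y a) * p a).re ≤ -κ * ‖y a‖ ^ 2 := by
  have hba : b - a ≠ 0 := by linarith
  have cc : ContinuousOn (fun s => conj (y s)) (Ici ρ₀) := continuous_conj.comp_continuousOn h1.cy
  have hsub : Icc a b ⊆ Ici ρ₀ := fun s hs => ha.trans hs.1
  obtain ⟨ξ, hξ⟩ : ∃ ξ : ℝ → ℝ, ξ = fun s => -κ + (δ + κ) * (s - a) / (b - a) := ⟨_, rfl⟩
  have dξ : ∀ s, HasDerivAt ξ ((δ + κ) / (b - a)) s := fun s => by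
    have := ((((hasDerivAt_id s).sub_const a).const_mul (δ + κ)).div_const (b - a)).const_add (-κ)
    rw [hξ]
    simpa using this
  have hm : MonotoneOn (fun s => (conj (y s) * p s).re - ξ s * ‖y s‖ ^ 2) (Icc a b) := by
    refine OdeC_mono (convex_Icc a b) (((continuous_re.comp_continuousOn (cc.mul h1.cp)).sub
      (ContinuousOn.mul (fun s _ => (dξ s).continuousAt.continuousWithinAt)
        (h1.cy.norm.pow 2))).mono hsub)
      (f' := fun s => (‖p s - ξ s * y s‖ ^ 2 + ((ν ^ 2 - s ^ 2 / 4 - s * k.im) -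
        (s * (δ + κ) / (b - a) + ξ s ^ 2)) * ‖y s‖ ^ 2) / s) ?_ ?_
    · intro s hs
      rw [interior_Icc] at hs
      have hs' : ρ₀ < s := ha.trans_lt hs.1
      have r0 : s ≠ 0 := (h0.trans hs').ne'
      refine HasDerivAt.congr_deriv ((OdeC_re (OdeC_conj_mul (h1.dy s hs') (h1.dp s hs'))).sub
        ((dξ s).mul (OdeC_nsq (h1.dy s hs')))) ?_
      rw [map_div₀, conj_ofReal, div_mul_eq_mul_div, ← mul_div_assoc (conj (y s)), ← add_div,
        Complex.div_ofReal_re, OdeC_re_div]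
      simp only [Complex.sq_norm, Complex.normSq_apply, WW]
      simp [pow_two]
      field_simp
      ring
    · intro s hs
      rw [interior_Icc] at hs
      have r0 : 0 < s := h0.trans (ha.trans_lt hs.1)
      have h2 : 0 ≤ (ν ^ 2 - s ^ 2 / 4 - s * k.im) - (s * (δ + κ) / (b - a) + ξ s ^ 2) := by
        rw [hξ, sub_nonneg]
        exact hW s ⟨hs.1.le, hs.2.le⟩
      positivity
  have := hm (left_mem_Icc.2 hab.le) (right_mem_Icc.2 hab.le) hab.le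
  have e1 : ξ a = -κ := by simp [hξ]
  have e2 : ξ b = δ := by
    simp only [hξ]
    field_simp
    ring
  simp only [e1, e2] at this
  linarith

/-- Cauchy–Schwarz -/
theorem norm_integral_mul_sq_le {y z : ℝ → ℂ} {a : ℝ} (hy : ContinuousOn y (Ici a)) (hz : ContinuousOn z (Ici a))
    (h : L2 y) (h' : L2 z) :
    ‖∫ s in Ioi a, y s * z s‖ ^ 2 ≤ (∫ s in Ioi a, ‖y s‖ ^ 2) * ∫ s in Ioi a, ‖z s‖ ^ 2 := by
  have i1 := h.on hy
  have i2 := h'.on hz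
  have i3 : IntegrableOn (fun s => ‖y s‖ * ‖z s‖) (Ioi a) := by
    simpa only [norm_mul, IntegrableOn] using (h.integrable_mul h' hy hz).norm
  have b1 : ‖∫ s in Ioi a, y s * z s‖ ≤ ∫ s in Ioi a, ‖y s‖ * ‖z s‖ := by
    simpa only [norm_mul] using norm_integral_le_integral_norm (μ := volume.restrict (Ioi a))
      fun s => y s * z s
  have b2 := discrim_le_zero (a := ∫ s in Ioi a, ‖y s‖ ^ 2)
    (b := -2 * ∫ s in Ioi a, ‖y s‖ * ‖z s‖) (c := ∫ s in Ioi a, ‖z s‖ ^ 2) fun t => by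
      have e : (∫ s in Ioi a, ‖y s‖ ^ 2) * (t * t) + (-2 * ∫ s in Ioi a, ‖y s‖ * ‖z s‖) * t +
          ∫ s in Ioi a, ‖z s‖ ^ 2 = ∫ s in Ioi a, (t * ‖y s‖ - ‖z s‖) ^ 2 := by
        have : ∀ s, (t * ‖y s‖ - ‖z s‖) ^ 2 =
            (t * t * ‖y s‖ ^ 2 + -2 * t * (‖y s‖ * ‖z s‖)) + ‖z s‖ ^ 2 := fun s => by ring
        simp only [this]
        have i4 : IntegrableOn (fun s => t * t * ‖y s‖ ^ 2 + -2 * t * (‖y s‖ * ‖z s‖)) (Ioi a) :=
          (i1.const_mul _).add (i3.const_mul _)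
        rw [integral_add i4 i2,
          integral_add (i1.const_mul _) (i3.const_mul _), integral_const_mul, integral_const_mul]
        ring
      rw [e]
      exact integral_nonneg fun s => sq_nonneg _
  rw [discrim] at b2
  have := pow_le_pow_left₀ (norm_nonneg _) b1 2
  nlinarith

/-- ω_j' = -i ỹ_j Φ_j (from `NF.flevel`, `NF.level`, `lv_tilde`) -/
theorem om_deriv (h0 : 0 < ρ₀) (h1 : NF ν k ρ₀ y p (fun ρ => -I * ρ * (c * Φ ρ))) (h2 : NF ν ks ρ₀ Φ Q 0)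
    (j : ℕ) {ρ : ℝ} (hρ : ρ₀ < ρ) :
    HasDerivAt (fun ρ => om ν ρ k ks c (y ρ, p ρ) (Φ ρ, Q ρ) j)
      (-I * ((lv ν ρ k ((ks - k) * y ρ + c * Φ ρ, (ks - k) * p ρ + c * Q ρ) j).1 *
        (lv ν ρ ks (Φ ρ, Q ρ) j).1)) ρ := by
  have a := h1.flevel h0 h2 j
  have b := h2.level h0 j
  have rc : (ρ : ℂ) ≠ 0 := by exact_mod_cast (h0.trans hρ).ne'
  refine HasDerivAt.congr_deriv (((a.dp ρ hρ).mul (b.dy ρ hρ)).sub ((a.dy ρ hρ).mul (b.dp ρ hρ))) ?_
  rw [lv_tilde ν ρ k ks c (y ρ, p ρ) (Φ ρ, Q ρ)]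
  simp only [WW, Pi.zero_apply]
  field_simp
  ring

theorem AdmF.tilde (h0 : 0 < ρ₀) (h : AdmF ν k ks c ρ₀ y p Φ Q) :
    AdmH ν k ρ₀ (fun ρ => (ks - k) * y ρ + c * Φ ρ) (fun ρ => (ks - k) * p ρ + c * Q ρ) := by
  refine ⟨h.nf.tilde h0 h.adm.nf, ?_⟩
  have c1 := (h.nf.flevel h0 h.adm.nf 4).cy.mono (Ioi_subset_Ici_self (a := ρ₀))
  have c2 := (h.adm.nf.level h0 4).cy.mono (Ioi_subset_Ici_self (a := ρ₀))
  have := (h.l2.mul (a := fun _ => ks - k) c1 continuousOn_const fun _ _ => le_rfl).add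
    (h.adm.l2.mul (a := fun _ => c) c2 continuousOn_const fun _ _ => le_rfl)
    (continuousOn_const.mul c1) (continuousOn_const.mul c2)
  refine this.congr (ρ₀ := ρ₀) fun ρ _ => ?_
  rw [lv_tilde ν ρ k ks c (y ρ, p ρ) (Φ ρ, Q ρ)]

theorem AdmF.OdeC_int (h0 : 0 < ρ₀) (h : AdmF ν k ks c ρ₀ y p Φ Q) (hk : k.re ≤ 5 / 2)
    (hks : ks.re ≤ 5 / 2) {j : ℕ} (hj : 4 ≤ j) : IntegrableOn (fun ρ =>
      -I * ((lv ν ρ k ((ks - k) * y ρ + c * Φ ρ, (ks - k) * p ρ + c * Q ρ) j).1 *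
        (lv ν ρ ks (Φ ρ, Q ρ) j).1)) (Ioi ρ₀) :=
  (((h.tilde h0).l2_level h0 hk hj).integrable_mul (h.adm.l2_level h0 hks hj)
    ((h.tilde h0).nf.level h0 j).cy (h.adm.nf.level h0 j).cy).const_mul _

/-- ω_j has a limit at ∞ (its derivative is integrable).  j = 4: (y₄Φ₄)' = ω₄/ρ + 2 y₄ Q₄/ρ, `lim_zero_of_deriv`.
j+1: X_j = ω_{j+1} + A ω_j (`om_succ`) has a limit and X_j/ρ is integrable, `lim_zero_of_div`. -/
theorem AdmF.om_tendsto (h0 : 0 < ρ₀) (h : AdmF ν k ks c ρ₀ y p Φ Q) (hk : k.re ≤ 5 / 2) (hks : ks.re ≤ 5 / 2)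
    {j : ℕ} (hj : 4 ≤ j) :
    Tendsto (fun ρ => om ν ρ k ks c (y ρ, p ρ) (Φ ρ, Q ρ) j) atTop (𝓝 0) := by
  have ht := h.tilde h0
  have cd : ∀ {u : ℝ → ℂ}, ContinuousOn u (Ici ρ₀) → ContinuousOn (fun s => u s / s) (Ici ρ₀) :=
    fun hu => hu.div continuous_ofReal.continuousOn fun s hs => by
      exact_mod_cast (h0.trans_le hs).ne'
  have hlim : ∀ j, 4 ≤ j → ∃ L,
      Tendsto (fun ρ => om ν ρ k ks c (y ρ, p ρ) (Φ ρ, Q ρ) j) atTop (𝓝 L) := fun j hj =>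
    ⟨_, tendsto_limUnder_of_hasDerivAt_of_integrableOn_Ioi
      (fun ρ hρ => om_deriv h0 h.nf h.adm.nf j hρ) (h.OdeC_int h0 hk hks hj)⟩
  induction j, hj using Nat.le_induction with
  | base =>
    obtain ⟨L, hL⟩ := hlim 4 le_rfl
    have a := h.nf.flevel h0 h.adm.nf 4
    have b := h.adm.nf.level h0 4
    have i1 := h.l2.integrable_mul (b.l2_p h0 h.adm.l2) a.cy (cd b.cp)
    have := lim_zero_of_deriv h0 hL
      (fun ρ hρ => (om_deriv h0 h.nf h.adm.nf 4 hρ).continuousAt.continuousWithinAt)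
      ((continuousOn_const.mul (a.cy.mul (cd b.cp))).mono Ioi_subset_Ici_self)
      (fun ρ hρ => by
        refine HasDerivAt.congr_deriv ((a.dy ρ hρ).mul (b.dy ρ hρ)) ?_
        simp only [om, Pi.mul_apply]
        ring)
      (h.l2.integrable_mul h.adm.l2 a.cy b.cy) (i1.const_mul 2)
    rwa [this] at hL
  | succ j hj ih =>
    obtain ⟨L, hL⟩ := hlim (j + 1) (by omega)
    have a := ht.nf.level h0 j
    have b := h.adm.nf.level h0 (j + 1)
    have la := ht.l2_level h0 hk hj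
    have lb := h.adm.l2_level h0 hks (j := j + 1) (by omega)
    have i1 := (a.l2_p h0 la).integrable_mul lb (cd a.cp) b.cy
    have i2 := la.integrable_mul lb a.cy b.cy
    have i3 := la.integrable_mul (b.l2_p h0 lb) a.cy (cd b.cp)
    have := lim_zero_of_div h0 (hL.add (ih.const_mul ((ν : ℂ) ^ 2 - (ks - j) ^ 2)))
      (IntegrableOn.congr_fun ((i1.sub (i2.const_mul I)).sub i3) (fun ρ hρ => by
        have rc : (ρ : ℂ) ≠ 0 := by exact_mod_cast (h0.trans hρ).ne'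
        simp only [Pi.sub_apply]
        rw [om_succ]
        field_simp
        ring) measurableSet_Ioi)
    rw [mul_zero, add_zero] at this
    rwa [this] at hL

/-- `integral_Ioi_of_hasDerivAt_of_tendsto` -/
theorem AdmF.om_eq (h0 : 0 < ρ₀) (h : AdmF ν k ks c ρ₀ y p Φ Q) (hk : k.re ≤ 5 / 2) (hks : ks.re ≤ 5 / 2)
    {j : ℕ} (hj : 4 ≤ j) {ρ : ℝ} (hρ : ρ₀ ≤ ρ) :
    om ν ρ k ks c (y ρ, p ρ) (Φ ρ, Q ρ) j = I * ∫ s in Ioi ρ,
      (lv ν s k ((ks - k) * y s + c * Φ s, (ks - k) * p s + c * Q s) j).1 * (lv ν s ks (Φ s, Q s) j).1 := by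
  have a := h.nf.flevel h0 h.adm.nf j
  have b := h.adm.nf.level h0 j
  have hc : ContinuousOn (fun ρ => om ν ρ k ks c (y ρ, p ρ) (Φ ρ, Q ρ) j) (Ici ρ₀) :=
    (a.cp.mul b.cy).sub (a.cy.mul b.cp)
  have := integral_Ioi_of_hasDerivAt_of_tendsto (a := ρ)
    ((hc.mono (Ici_subset_Ici.2 hρ)) ρ self_mem_Ici)
    (fun s hs => om_deriv h0 h.nf h.adm.nf j (hρ.trans_lt hs))
    ((h.OdeC_int h0 hk hks hj).mono_set (Ioi_subset_Ioi hρ)) (h.om_tendsto h0 hk hks hj)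
  rw [integral_const_mul] at this
  linear_combination this

end

end Crest.Agent.R086.N
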