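import Crest.Agent.R086.N.ConvA
import Crest.Agent.R086.N.OdeC

open MeasureTheory Set Filter Topology Complex
open scoped ContDiff ComplexConjugate

namespace Crest.Agent.R086.N

noncomputable section

/-! # From functions of r to the normal form, II -/

variable {R : ℝ} {m : ℕ} {α αs c : ℂ} {F e φ : ℝ → ℂ}

private theorem ConvB_pos (hR : 0 < R) {ρ : ℝ} (hρ : R ^ 2 / 4 < ρ) : 0 < ρ :=
  lt_trans (by positivity) hρ

private theorem ConvB_diff {n : WithTop ℕ∞} (hs : ContDiffOn ℝ n F (Ioi R)) (hn : n ≠ 0) {r : ℝ}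
    (hr : R < r) : DifferentiableAt ℝ F r :=
  (hs.differentiableOn hn).differentiableAt (Ioi_mem_nhds hr)

private theorem ConvB_le (hs : ContDiffOn ℝ 10 F (Ioi R)) {n : ℕ} (hn : n ≤ 10) :
    ContDiffOn ℝ n F (Ioi R) := hs.of_le (by exact_mod_cast hn)

private theorem ConvB_D1_mul (a : ℂ) (φ : ℝ → ℂ) :
    D1 m (fun r => a * φ r) = fun r => a * D1 m φ r := by
  funext r
  simp only [D1, DD, deriv_const_mul_field']
  ring

private theorem ConvB_D1_iter_mul (a : ℂ) (φ : ℝ → ℂ) (j : ℕ) :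
    (D1 m)^[j] (fun r => a * φ r) = fun r => a * (D1 m)^[j] φ r := by
  induction j with
  | zero => rfl
  | succ j ih =>
    rw [Function.iterate_succ_apply', ih, ConvB_D1_mul]
    simp only [Function.iterate_succ_apply']

private theorem ConvB_EE_cont (ρ₀ : ℝ) : Continuous (EE ρ₀) := by
  unfold EE
  fun_prop

private theorem ConvB_yOf_cont (hR : 0 < R) (ρ₀ : ℝ) {G : ℝ → ℂ} (hG : ContinuousOn G (Ioi R)) :
    ContinuousOn (yOf ρ₀ G) (Ioi (R ^ 2 / 4)) :=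
  (ConvB_EE_cont ρ₀).continuousOn.mul (hG.comp (f := fun ρ => 2 * Real.sqrt ρ) (by fun_prop)
    fun _ hρ => lt_two_sqrt hR hρ)

private theorem ConvB_cont4 (hR : 0 < R) (ρ₀ : ℝ) (hs : ContDiffOn ℝ 10 F (Ioi R)) :
    ContinuousOn (yOf ρ₀ ((D1 m)^[4] F)) (Ioi (R ^ 2 / 4)) :=
  ConvB_yOf_cont hR ρ₀
    (contDiffOn_D1_iter (n := 0) (j := 4) hR (ConvB_le hs (by norm_num))).continuousOn

private theorem ConvB_yOf_mul (ρ₀ : ℝ) (a : ℂ) (φ : ℝ → ℂ) (ρ : ℝ) :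
    yOf ρ₀ (fun r => a * φ r) ρ = a * yOf ρ₀ φ ρ := by
  simp only [yOf]; ring

private theorem ConvB_deriv_add {f : ℝ → ℂ} {r : ℝ} (hf : DifferentiableAt ℝ f r)
    (hφ : DifferentiableAt ℝ φ r) (a : ℂ) :
    deriv (fun r => f r + a * φ r) r = deriv f r + a * deriv φ r :=
  (hf.hasDerivAt.add (hφ.hasDerivAt.const_mul a)).deriv

theorem Fr.congr_forcing {e' : ℝ → ℂ} (h : Fr R m α F e) (he : ∀ r, R < r → e r = e' r) : Fr R m α F e' := ⟨h.smooth, fun r hr => by rw [← he r hr]; exact h.ode r hr, h.adm⟩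

/-- `D1_add_smul`, `L2.add`, `L2.mul`, continuity of yOf on (R²/4,∞) -/
theorem Fr.add_smul (hR : 0 < R) (h : Fr R m α F e) (hφ : Fr R m αs φ 0) (a : ℂ) :
    Fr R m α (fun r => F r + a * φ r) (fun r => e r - a * (α - αs) * φ r) := by
  refine ⟨h.smooth.add (contDiffOn_const.mul hφ.smooth), fun r hr => ?_, ?_⟩
  · have h1 := D1_add_smul (m := m) (j := 1) hR (ConvB_le h.smooth (by norm_num))
      (ConvB_le hφ.smooth (by norm_num)) a hr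
    have h2 : I * DD m (fun r => F r + a * φ r) r = I * DD m F r + a * (I * DD m φ r) := h1
    rw [h2, h.ode r hr, hφ.ode r hr, ConvB_deriv_add (ConvB_diff h.smooth (by norm_num) hr)
      (ConvB_diff hφ.smooth (by norm_num) hr)]
    simp only [Pi.zero_apply]
    ring
  · have c1 := ConvB_cont4 (m := m) hR (R ^ 2 / 4) h.smooth
    have c2 := ConvB_cont4 (m := m) hR (R ^ 2 / 4) hφ.smooth
    have h1 := hφ.adm.mul (a := fun _ => a) (C := ‖a‖) c2 continuousOn_const fun _ _ => le_rfl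
    refine (h.adm.add h1 c1 (continuousOn_const.mul c2)).congr (ρ₀ := R ^ 2 / 4) fun ρ hρ => ?_
    have h2 := D1_add_smul (m := m) (j := 4) hR (ConvB_le h.smooth (by norm_num))
      (ConvB_le hφ.smooth (by norm_num)) a (lt_two_sqrt hR hρ)
    simp only [yOf]
    rw [h2]
    ring

theorem Fr.smul (hR : 0 < R) (hφ : Fr R m αs φ 0) (a : ℂ) : Fr R m αs (fun r => a * φ r) 0 := by
  refine ⟨contDiffOn_const.mul hφ.smooth, fun r hr => ?_, ?_⟩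
  · have h2 : I * DD m (fun r => a * φ r) r = a * (I * DD m φ r) :=
      congrFun (ConvB_D1_mul (m := m) a φ) r
    rw [h2, hφ.ode r hr, deriv_const_mul_field]
    simp only [Pi.zero_apply]
    ring
  · have c2 := ConvB_cont4 (m := m) hR (R ^ 2 / 4) hφ.smooth
    have h1 := hφ.adm.mul (a := fun _ => a) (C := ‖a‖) c2 continuousOn_const fun _ _ => le_rfl
    refine h1.congr (ρ₀ := R ^ 2 / 4) fun ρ _ => ?_
    rw [ConvB_D1_iter_mul, ConvB_yOf_mul]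

/-- the equations for the levels j ≤ 4 (`ode_D1`, `contDiffOn_D1_iter`; D1 (c φ) = c D1 φ) -/
theorem ode_iter (hR : 0 < R) (hs : ContDiffOn ℝ 10 F (Ioi R)) (hφ : ContDiffOn ℝ 10 φ (Ioi R))
    (ho : ∀ r : ℝ, R < r → I * DD m F r = α * F r + (r : ℂ) / 2 * deriv F r + c * φ r)
    {j : ℕ} (hj : j ≤ 4) : ∀ r : ℝ, R < r → I * DD m ((D1 m)^[j] F) r =
      (α + j) * (D1 m)^[j] F r + (r : ℂ) / 2 * deriv ((D1 m)^[j] F) r + c * (D1 m)^[j] φ r := by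
  induction j with
  | zero => simpa using ho
  | succ j ih =>
    intro r hr
    have h1 : ContDiffOn ℝ (4 : ℕ) ((D1 m)^[j] F) (Ioi R) :=
      contDiffOn_D1_iter hR (ConvB_le hs (by omega))
    have h2 : ContDiffOn ℝ (2 : ℕ) ((D1 m)^[j] φ) (Ioi R) :=
      contDiffOn_D1_iter hR (ConvB_le hφ (by omega))
    have h3 := ode_D1 (e := fun r => c * (D1 m)^[j] φ r) hR h1 (contDiffOn_const.mul h2)
      (ih (by omega)) r hr
    rw [ConvB_D1_mul] at h3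
    simp only [Function.iterate_succ_apply']
    rw [h3]
    push_cast
    ring

private theorem ConvB_step (hR : 0 < R) (ρ₀ : ℝ) (hs : ContDiffOn ℝ (3 : ℕ) F (Ioi R))
    (hφ : ContDiffOn ℝ (1 : ℕ) φ (Ioi R))
    (ho : ∀ r : ℝ, R < r → I * DD m F r = α * F r + (r : ℂ) / 2 * deriv F r + c * φ r)
    {ρ : ℝ} (hρ : R ^ 2 / 4 < ρ) :
    yOf ρ₀ (D1 m F) ρ = pOf ρ₀ F ρ - kp (5 / 2 - α) ρ * yOf ρ₀ F ρ + c * yOf ρ₀ φ ρ ∧
    pOf ρ₀ (D1 m F) ρ = Wg (nu m) (5 / 2 - α) ρ * yOf ρ₀ F ρ - kp (5 / 2 - α) ρ * pOf ρ₀ F ρ +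
      c * (pOf ρ₀ φ ρ - I * ρ * yOf ρ₀ φ ρ) := by
  have h1 : ∀ s, R ^ 2 / 4 < s →
      yOf ρ₀ (D1 m F) s = pOf ρ₀ F s - kp (5 / 2 - α) s * yOf ρ₀ F s + c * yOf ρ₀ φ s := fun s hs' => by
    rw [yOf_D1 (e := fun r => c * φ r) hR ρ₀ ho hs', ConvB_yOf_mul]
  refine ⟨h1 ρ hρ, ?_⟩
  have h0 := ConvB_pos hR hρ
  have hr := lt_two_sqrt hR hρ
  have hn := nfo_of_ode (e := fun r => c * φ r) hR ρ₀ (hs.of_le (by exact_mod_cast (by norm_num : 2 ≤ 3))) ho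
  have d1 := hasDerivAt_yOf ρ₀ h0
    (ConvB_diff (contDiffOn_D1 (m := m) (n := 1) hR hs) (by norm_num) hr)
  have d2 := hasDerivAt_yOf ρ₀ h0 (ConvB_diff hφ (by norm_num) hr)
  have d3 : HasDerivAt (fun s : ℝ => kp (5 / 2 - α) s) (I / 2) ρ := by
    have := ((Complex.ofRealCLM.hasDerivAt (x := ρ)).const_mul I).div_const 2
    simpa [kp] using this.const_add (5 / 2 - α)
  have d4 := (((hn.dp ρ hρ).sub (d3.mul (hn.dy ρ hρ))).add (d2.const_mul c)).congr_of_eventuallyEq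
    (f₁ := yOf ρ₀ (D1 m F)) (by
      filter_upwards [Ioi_mem_nhds hρ] with s hs'
      exact h1 s hs')
  have h2 := d1.unique d4
  have h3 : (ρ : ℂ) ≠ 0 := by exact_mod_cast h0.ne'
  rw [ConvB_yOf_mul, div_eq_iff h3] at h2
  rw [h2]
  simp only [WW, Wg]
  field_simp
  ring

private theorem ConvB_hom (hR : 0 < R) (ρ₀ : ℝ) (hφ : ContDiffOn ℝ 10 φ (Ioi R))
    (hoφ : ∀ r : ℝ, R < r → I * DD m φ r = αs * φ r + (r : ℂ) / 2 * deriv φ r)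
    {j : ℕ} (hj : j ≤ 4) {ρ : ℝ} (hρ : R ^ 2 / 4 < ρ) :
    (yOf ρ₀ ((D1 m)^[j] φ) ρ, pOf ρ₀ ((D1 m)^[j] φ) ρ) =
      lv (nu m) ρ (5 / 2 - αs) (yOf ρ₀ φ ρ, pOf ρ₀ φ ρ) j := by
  induction j with
  | zero => rfl
  | succ j ih =>
    have h1 : ContDiffOn ℝ (3 : ℕ) ((D1 m)^[j] φ) (Ioi R) :=
      contDiffOn_D1_iter hR (ConvB_le hφ (by omega))
    have h2 : ContDiffOn ℝ (1 : ℕ) ((D1 m)^[j] φ) (Ioi R) :=
      contDiffOn_D1_iter hR (ConvB_le hφ (by omega))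
    obtain ⟨a1, a2⟩ := ConvB_step hR ρ₀ h1 h2 (ode_iter (α := αs) (c := 0) (j := j) hR hφ hφ
      (fun r hr => by rw [hoφ r hr, zero_mul, add_zero]) (by omega)) hρ
    rw [lv, ← ih (by omega), Function.iterate_succ_apply', a1, a2, zero_mul, zero_mul, add_zero,
      add_zero, sub_sub]

/-- induction on j: first component `yOf_D1`; second component by uniqueness of the derivative
(`hasDerivAt_yOf`, and the product rule with `nfo_of_ode` for the levels of F and φ).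
Prove it first for c = 0 (F := φ). -/
theorem levels_eq (hR : 0 < R) (ρ₀ : ℝ) (hs : ContDiffOn ℝ 10 F (Ioi R)) (hφ : ContDiffOn ℝ 10 φ (Ioi R))
    (ho : ∀ r : ℝ, R < r → I * DD m F r = α * F r + (r : ℂ) / 2 * deriv F r + c * φ r)
    (hoφ : ∀ r : ℝ, R < r → I * DD m φ r = αs * φ r + (r : ℂ) / 2 * deriv φ r)
    {j : ℕ} (hj : j ≤ 4) {ρ : ℝ} (hρ : R ^ 2 / 4 < ρ) :
    (yOf ρ₀ ((D1 m)^[j] F) ρ, pOf ρ₀ ((D1 m)^[j] F) ρ) =
      flv (nu m) ρ (5 / 2 - α) (5 / 2 - αs) c (yOf ρ₀ F ρ, pOf ρ₀ F ρ) (yOf ρ₀ φ ρ, pOf ρ₀ φ ρ) j := by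
  induction j with
  | zero => rfl
  | succ j ih =>
    have h1 : ContDiffOn ℝ (3 : ℕ) ((D1 m)^[j] F) (Ioi R) :=
      contDiffOn_D1_iter hR (ConvB_le hs (by omega))
    have h2 : ContDiffOn ℝ (1 : ℕ) ((D1 m)^[j] φ) (Ioi R) :=
      contDiffOn_D1_iter hR (ConvB_le hφ (by omega))
    obtain ⟨a1, a2⟩ := ConvB_step hR ρ₀ h1 h2 (ode_iter (j := j) hR hs hφ ho (by omega)) hρ
    rw [flv, ← ih (by omega), ← ConvB_hom hR ρ₀ hφ hoφ (j := j) (by omega) hρ,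
      Function.iterate_succ_apply', a1, a2, sub_sub]

theorem levels_eq_hom (hR : 0 < R) (ρ₀ : ℝ) (hφ : ContDiffOn ℝ 10 φ (Ioi R))
    (hoφ : ∀ r : ℝ, R < r → I * DD m φ r = αs * φ r + (r : ℂ) / 2 * deriv φ r)
    {j : ℕ} (hj : j ≤ 4) {ρ : ℝ} (hρ : R ^ 2 / 4 < ρ) :
    (yOf ρ₀ ((D1 m)^[j] φ) ρ, pOf ρ₀ ((D1 m)^[j] φ) ρ) =
      lv (nu m) ρ (5 / 2 - αs) (yOf ρ₀ φ ρ, pOf ρ₀ φ ρ) j := ConvB_hom hR ρ₀ hφ hoφ hj hρ

/-- `nfo_of_ode`, `NFo.extend`, `levels_eq_hom` -/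
theorem Fr.admH (hR : 0 < R) (h : Fr R m αs φ 0) : ∃ Φ Q : ℝ → ℂ,
    AdmH (nu m) (5 / 2 - αs) (R ^ 2 / 4) Φ Q ∧
    ∀ ρ, R ^ 2 / 4 < ρ → Φ ρ = yOf (R ^ 2 / 4) φ ρ ∧ Q ρ = pOf (R ^ 2 / 4) φ ρ := by
  have hn := nfo_of_ode hR (R ^ 2 / 4) (ConvB_le (n := 2) h.smooth (by norm_num)) h.ode
  have h0 : (fun ρ : ℝ => -I * ρ * yOf (R ^ 2 / 4) 0 ρ) = 0 := by
    funext ρ; simp [yOf]
  rw [h0] at hn
  obtain ⟨Φ, Q, h1, h2⟩ := hn.extend (by positivity) continuousOn_const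
  refine ⟨Φ, Q, ⟨h1, h.adm.congr (ρ₀ := R ^ 2 / 4) fun ρ hρ => ?_⟩, h2⟩
  rw [(h2 ρ hρ).1, (h2 ρ hρ).2, ← levels_eq_hom hR _ h.smooth
    (fun r hr => by rw [h.ode r hr, Pi.zero_apply, add_zero]) le_rfl hρ]

theorem Fr.admF (hR : 0 < R) (h : Fr R m α F (fun r => c * φ r)) (hφ : Fr R m αs φ 0) {Φ Q : ℝ → ℂ}
    (h1 : AdmH (nu m) (5 / 2 - αs) (R ^ 2 / 4) Φ Q)
    (h2 : ∀ ρ, R ^ 2 / 4 < ρ → Φ ρ = yOf (R ^ 2 / 4) φ ρ ∧ Q ρ = pOf (R ^ 2 / 4) φ ρ) : ∃ y p : ℝ → ℂ,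
    AdmF (nu m) (5 / 2 - α) (5 / 2 - αs) c (R ^ 2 / 4) y p Φ Q ∧
    ∀ ρ, R ^ 2 / 4 < ρ → y ρ = yOf (R ^ 2 / 4) F ρ ∧ p ρ = pOf (R ^ 2 / 4) F ρ := by
  have hn := nfo_of_ode hR (R ^ 2 / 4) (ConvB_le (n := 2) h.smooth (by norm_num)) h.ode
  have hn' : NFo (nu m) (5 / 2 - α) (R ^ 2 / 4) (yOf (R ^ 2 / 4) F) (pOf (R ^ 2 / 4) F)
      (fun ρ => -I * ρ * (c * Φ ρ)) := ⟨hn.dy, fun ρ hρ => by
    have := hn.dp ρ hρ
    rw [ConvB_yOf_mul, ← (h2 ρ hρ).1] at this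
    exact this⟩
  obtain ⟨y, p, h3, h4⟩ := hn'.extend (by positivity)
    ((Continuous.continuousOn (by fun_prop)).mul (continuousOn_const.mul h1.nf.cy))
  refine ⟨y, p, ⟨h3, h.adm.congr (ρ₀ := R ^ 2 / 4) fun ρ hρ => ?_, h1⟩, h4⟩
  rw [(h2 ρ hρ).1, (h2 ρ hρ).2, (h4 ρ hρ).1, (h4 ρ hρ).2, ← levels_eq hR _ h.smooth hφ.smooth h.ode
    (fun r hr => by rw [hφ.ode r hr, Pi.zero_apply, add_zero]) le_rfl hρ]

private theorem ConvB_sqrt {r : ℝ} (hr : 0 < r) : Real.sqrt (r ^ 2 / 4) = r / 2 := by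
  rw [show r ^ 2 / 4 = (r / 2) ^ 2 by ring, Real.sqrt_sq (by positivity)]

private theorem ConvB_EE_self (hR : 0 < R) : EE (R ^ 2 / 4) (R ^ 2 / 4) = (((R / 2) ^ 5 : ℝ) : ℂ) := by
  unfold EE
  rw [ConvB_sqrt hR, sub_self, Complex.ofReal_zero, mul_zero, zero_div, Complex.exp_zero, mul_one]
  congr 1
  ring

private theorem ConvB_lim {a : ℝ} {y z : ℝ → ℂ} (hy : ContinuousOn y (Ici a))
    (h : ∀ ρ, a < ρ → y ρ = z ρ) {v : ℂ} (hz : Tendsto z (𝓝[>] a) (𝓝 v)) : y a = v := by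
  have h1 : Tendsto y (𝓝[>] a) (𝓝 (y a)) :=
    (hy a self_mem_Ici).tendsto.mono_left (nhdsWithin_mono _ Ioi_subset_Ici_self)
  refine tendsto_nhds_unique h1 (hz.congr' ?_)
  filter_upwards [self_mem_nhdsWithin] with ρ hρ
  exact (h ρ hρ).symm

/-- end values: E(ρ₀) = ρ₀²√ρ₀ is real -/
theorem val_of_tendsto (hR : 0 < R) {y p : ℝ → ℂ} (hy : ContinuousOn y (Ici (R ^ 2 / 4)))
    (hp : ContinuousOn p (Ici (R ^ 2 / 4)))
    (h : ∀ ρ, R ^ 2 / 4 < ρ → y ρ = yOf (R ^ 2 / 4) F ρ ∧ p ρ = pOf (R ^ 2 / 4) F ρ) {v v' : ℂ}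
    (h0 : Tendsto F (𝓝[>] R) (𝓝 v)) (h1 : Tendsto (deriv F) (𝓝[>] R) (𝓝 v')) :
    y (R ^ 2 / 4) = (((R / 2) ^ 5 : ℝ) : ℂ) * v ∧
      p (R ^ 2 / 4) = (((R / 2) ^ 5 : ℝ) : ℂ) * ((5 / 2 + I * ((R ^ 2 / 4 : ℝ) : ℂ) / 2) * v + (R : ℂ) / 2 * v') := by
  have hE : Tendsto (EE (R ^ 2 / 4)) (𝓝[>] (R ^ 2 / 4)) (𝓝 (((R / 2) ^ 5 : ℝ) : ℂ)) := by
    rw [← ConvB_EE_self hR]
    exact ((ConvB_EE_cont _).tendsto _).mono_left nhdsWithin_le_nhds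
  have a0 := h0.comp (tendsto_two_sqrt hR)
  have a1 := h1.comp (tendsto_two_sqrt hR)
  have b0 : Tendsto (fun ρ : ℝ => 5 / 2 + I * ρ / 2) (𝓝[>] (R ^ 2 / 4))
      (𝓝 (5 / 2 + I * ((R ^ 2 / 4 : ℝ) : ℂ) / 2)) :=
    ((by fun_prop : Continuous fun ρ : ℝ => 5 / 2 + I * ρ / 2).tendsto _).mono_left
      nhdsWithin_le_nhds
  have b1 : Tendsto (fun ρ : ℝ => (Real.sqrt ρ : ℂ)) (𝓝[>] (R ^ 2 / 4)) (𝓝 ((R : ℂ) / 2)) := by
    have := ((by fun_prop : Continuous fun ρ : ℝ => (Real.sqrt ρ : ℂ)).tendsto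
      (R ^ 2 / 4)).mono_left (nhdsWithin_le_nhds (s := Ioi (R ^ 2 / 4)))
    rwa [ConvB_sqrt hR, Complex.ofReal_div, Complex.ofReal_ofNat] at this
  exact ⟨ConvB_lim hy (fun ρ hρ => (h ρ hρ).1) (hE.mul a0),
    ConvB_lim hp (fun ρ hρ => (h ρ hρ).2) (hE.mul ((b0.mul a0).add (b1.mul a1)))⟩

private theorem ConvB_sq_lt (hR : 0 < R) {r : ℝ} (hr : R < r) : R ^ 2 / 4 < r ^ 2 / 4 := by
  nlinarith

private theorem ConvB_comp (hR : 0 < R) {y : ℝ → ℂ} (hy : ContinuousOn y (Ici (R ^ 2 / 4))) :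
    Tendsto (fun r => y (r ^ 2 / 4)) (𝓝[>] R) (𝓝 (y (R ^ 2 / 4))) := by
  refine (hy _ self_mem_Ici).tendsto.comp (f := fun r : ℝ => r ^ 2 / 4) ?_
  refine tendsto_nhdsWithin_iff.2 ⟨((by fun_prop : Continuous fun r : ℝ => r ^ 2 / 4).tendsto
    R).mono_left nhdsWithin_le_nhds, ?_⟩
  filter_upwards [self_mem_nhdsWithin] with r hr
  exact (ConvB_sq_lt hR hr).le

/-- F(2√ρ) = y/E and F'(2√ρ) = (p - βy)/(E√ρ) have limits at ρ₀+, hence F and F' have limits at R+ -/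
theorem tendsto_of_ext (hR : 0 < R) {y p : ℝ → ℂ} (hy : ContinuousOn y (Ici (R ^ 2 / 4)))
    (hp : ContinuousOn p (Ici (R ^ 2 / 4)))
    (h : ∀ ρ, R ^ 2 / 4 < ρ → y ρ = yOf (R ^ 2 / 4) F ρ ∧ p ρ = pOf (R ^ 2 / 4) F ρ) :
    ∃ v v' : ℂ, Tendsto F (𝓝[>] R) (𝓝 v) ∧ Tendsto (deriv F) (𝓝[>] R) (𝓝 v') := by
  have h0 : (0 : ℝ) < R ^ 2 / 4 := by positivity
  have a0 := ConvB_comp hR hy
  have a1 := ConvB_comp hR hp
  have a2 := ConvB_comp hR (ConvB_EE_cont (R ^ 2 / 4)).continuousOn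
  have a3 := ConvB_comp hR (y := fun ρ : ℝ => 5 / 2 + I * ρ / 2) (by fun_prop)
  have a4 := ConvB_comp hR (y := fun ρ : ℝ => (Real.sqrt ρ : ℂ)) (by fun_prop)
  have n1 := EE_ne_zero (R ^ 2 / 4) h0
  have n2 : ((Real.sqrt (R ^ 2 / 4) : ℝ) : ℂ) ≠ 0 := by
    exact_mod_cast (Real.sqrt_pos.2 h0).ne'
  refine ⟨_, _, (a0.div a2 n1).congr' ?_,
    (((a1.div a2 n1).sub (a3.mul (a0.div a2 n1))).div a4 n2).congr' ?_⟩
  · filter_upwards [self_mem_nhdsWithin] with r hr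
    have hr' := ConvB_sq_lt hR hr
    have n3 := EE_ne_zero (R ^ 2 / 4) (h0.trans hr')
    have e1 : 2 * Real.sqrt (r ^ 2 / 4) = r := by rw [ConvB_sqrt (hR.trans hr)]; ring
    simp only [Pi.div_apply]
    rw [(h _ hr').1, yOf, e1, mul_div_cancel_left₀ _ n3]
  · filter_upwards [self_mem_nhdsWithin] with r hr
    have hr' := ConvB_sq_lt hR hr
    have n3 := EE_ne_zero (R ^ 2 / 4) (h0.trans hr')
    have n4 : ((Real.sqrt (r ^ 2 / 4) : ℝ) : ℂ) ≠ 0 := by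
      exact_mod_cast (Real.sqrt_pos.2 (h0.trans hr')).ne'
    have e1 : 2 * Real.sqrt (r ^ 2 / 4) = r := by rw [ConvB_sqrt (hR.trans hr)]; ring
    simp only [Pi.div_apply]
    rw [(h _ hr').1, (h _ hr').2, yOf, pOf, e1, mul_div_cancel_left₀ _ n3,
      mul_div_cancel_left₀ _ n3, add_sub_cancel_left, mul_div_cancel_left₀ _ n4]

/-- the boundary condition in normal form -/
theorem bc_val (hR : 0 < R) {f G yF pF yG pG : ℝ → ℂ} (hb : BC R m f G)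
    (c1 : ContinuousOn yF (Ici (R ^ 2 / 4))) (c2 : ContinuousOn pF (Ici (R ^ 2 / 4)))
    (c3 : ContinuousOn yG (Ici (R ^ 2 / 4))) (c4 : ContinuousOn pG (Ici (R ^ 2 / 4)))
    (hF : ∀ ρ, R ^ 2 / 4 < ρ → yF ρ = yOf (R ^ 2 / 4) f ρ ∧ pF ρ = pOf (R ^ 2 / 4) f ρ)
    (hG : ∀ ρ, R ^ 2 / 4 < ρ → yG ρ = yOf (R ^ 2 / 4) G ρ ∧ pG ρ = pOf (R ^ 2 / 4) G ρ) :
    yG (R ^ 2 / 4) = -conj (yF (R ^ 2 / 4)) ∧
      pF (R ^ 2 / 4) - conj (pG (R ^ 2 / 4)) = 2 * (nu m : ℂ) * yF (R ^ 2 / 4) := by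
  obtain ⟨v, v', a0, a1⟩ := tendsto_of_ext hR c1 c2 hF
  obtain ⟨w, w', b0, b1⟩ := tendsto_of_ext hR c3 c4 hG
  obtain ⟨e1, e2⟩ := val_of_tendsto hR c1 c2 hF a0 a1
  obtain ⟨e3, e4⟩ := val_of_tendsto hR c3 c4 hG b0 b1
  have hc : ∀ {g : ℝ → ℂ} {u : ℂ}, Tendsto g (𝓝[>] R) (𝓝 u) →
      Tendsto (fun r => conj (g r)) (𝓝[>] R) (𝓝 (conj u)) := fun h =>
    (Complex.continuous_conj.tendsto _).comp h
  have hR' : (R : ℂ) ≠ 0 := by exact_mod_cast hR.ne'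
  have hm : Tendsto (fun r : ℝ => (m : ℂ) / r) (𝓝[>] R) (𝓝 ((m : ℂ) / R)) :=
    (tendsto_const_nhds.div (Complex.continuous_ofReal.tendsto R) hR').mono_left nhdsWithin_le_nhds
  have k0 : v + conj w = 0 := tendsto_nhds_unique (a0.add (hc b0)) hb.b0
  have k1 : (v' - conj w') - (m : ℂ) / R * (v - conj w) = 0 :=
    tendsto_nhds_unique ((a1.sub (hc b1)).sub (hm.mul (a0.sub (hc b0)))) hb.b1
  have k2 : conj w = -v := by linear_combination k0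
  have k3 : conj w' = v' - (m : ℂ) / R * (2 * v) := by rw [k2] at k1; linear_combination -k1
  have k4 : w = -conj v := by rw [← map_neg, ← k2, Complex.conj_conj]
  constructor
  · rw [e1, e3, map_mul, Complex.conj_ofReal, k4]; ring
  · rw [e1, e2, e4]
    simp only [map_mul, map_add, map_div₀, Complex.conj_ofReal, Complex.conj_I, map_ofNat, k2, k3, nu]
    push_cast
    field_simp
    ring

theorem eq_zero_of_yOf (hR : 0 < R) (ρ₀ : ℝ) (h : ∀ ρ, R ^ 2 / 4 < ρ → yOf ρ₀ F ρ = 0) :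
    ∀ r, R < r → F r = 0 := by
  intro r hr
  have hr' := ConvB_sq_lt hR hr
  have e1 : 2 * Real.sqrt (r ^ 2 / 4) = r := by rw [ConvB_sqrt (hR.trans hr)]; ring
  have h1 := h _ hr'
  rw [yOf, e1] at h1
  exact (mul_eq_zero.1 h1).resolve_left (EE_ne_zero ρ₀ (ConvB_pos hR hr'))

theorem BC.add_smul {f G : ℝ → ℂ} (hR : 0 < R) (h : BC R m f G) (hφ : BC R m φ φ)
    (df : ContDiffOn ℝ 1 f (Ioi R)) (dG : ContDiffOn ℝ 1 G (Ioi R)) (dφ : ContDiffOn ℝ 1 φ (Ioi R)) (a : ℂ) :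
    BC R m (fun r => f r + a * φ r) (fun r => G r + conj a * φ r) := by
  constructor
  · have := h.b0.add (hφ.b0.const_mul a)
    rw [mul_zero, add_zero] at this
    refine this.congr fun r => ?_
    simp only [map_add, map_mul, Complex.conj_conj]
    ring
  · have := h.b1.add (hφ.b1.const_mul a)
    rw [mul_zero, add_zero] at this
    refine this.congr' ?_
    filter_upwards [self_mem_nhdsWithin] with r hr
    rw [ConvB_deriv_add (ConvB_diff df one_ne_zero hr) (ConvB_diff dφ one_ne_zero hr),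
      ConvB_deriv_add (ConvB_diff dG one_ne_zero hr) (ConvB_diff dφ one_ne_zero hr)]
    simp only [map_add, map_mul, Complex.conj_conj]
    ring

end

end Crest.Agent.R086.N
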