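import Crest.Agent.R086.N.OdeC
import Crest.Agent.R086.N.Alg

open MeasureTheory Set Filter Topology Complex
open scoped ContDiff ComplexConjugate

namespace Crest.Agent.R086.N

noncomputable section

/-! # From admissible solutions to point data -/

variable {ν ρ₀ : ℝ} {k ks c : ℂ} {y p Φ Q : ℝ → ℂ}

theorem dat_disc (h0 : 0 < ρ₀) (h1 : AdmH ν k ρ₀ y p) (hk : k.re ≤ 5 / 2) {ρ : ℝ} (hρ : ρ₀ ≤ ρ) (j : ℕ)
    (hj : 4 ≤ j) : ‖(lv ν ρ k (y ρ, p ρ) (j + 1)).1‖ ≤ ‖(ν : ℂ) + (k - j)‖ * ‖(lv ν ρ k (y ρ, p ρ) j).1‖ := by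
  have hj' : (4 : ℝ) ≤ j := by exact_mod_cast hj
  exact (h1.nf.level h0 j).disc h0 (by rw [Complex.sub_re, Complex.natCast_re]; linarith)
    (h1.l2_level h0 hk hj) (h1.l2_level h0 hk (j := j + 1) (by omega)) ρ hρ

theorem dat_win (h0 : 0 < ρ₀) (h1 : AdmH ν k ρ₀ y p) (j : ℕ) {a b δ κ m : ℝ} (ha : ρ₀ ≤ a) (hab : a < b)
    (hm : δ + κ = m * (b - a))
    (e1 : a * m + κ ^ 2 ≤ ν ^ 2 - a ^ 2 / 4 - a * k.im) (e2 : b * m + δ ^ 2 ≤ ν ^ 2 - b ^ 2 / 4 - b * k.im)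
    (hb : (conj (lv ν b k (y b, p b) j).1 * (lv ν b k (y b, p b) j).2).re ≤ δ * ‖(lv ν b k (y b, p b) j).1‖ ^ 2) :
    (conj (lv ν a k (y a, p a) j).1 * (lv ν a k (y a, p a) j).2).re ≤ -κ * ‖(lv ν a k (y a, p a) j).1‖ ^ 2 := by
  refine (h1.nf.level h0 j).window h0 ha hab (fun s hs => ?_) hb
  have hba : 0 < b - a := sub_pos.2 hab
  have q1 : s * (δ + κ) / (b - a) = s * m := by rw [hm]; field_simp
  have q2 : (δ + κ) * (s - a) / (b - a) = m * (s - a) := by rw [hm]; field_simp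
  have hδ : δ = m * (b - a) - κ := by linarith
  rw [q1, q2, Complex.sub_im, Complex.natCast_im, sub_zero]
  subst hδ
  refine le_of_mul_le_mul_left ?_ hba
  have t1 := mul_le_mul_of_nonneg_left e1 (sub_nonneg.2 hs.2)
  have t2 := mul_le_mul_of_nonneg_left e2 (sub_nonneg.2 hs.1)
  have t3 : 0 ≤ (s - a) * (b - s) * (b - a) * (m ^ 2 + 1 / 4) :=
    mul_nonneg (mul_nonneg (mul_nonneg (sub_nonneg.2 hs.1) (sub_nonneg.2 hs.2)) hba.le) (by positivity)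
  nlinarith

theorem dat_step (ν a : ℝ) (k : ℂ) (v : ℂ × ℂ) (j : ℕ) {κ g δ : ℝ} (hg : k.re - j ≤ g) (hκ : g < κ) (hκ0 : 0 ≤ κ)
    (hδ : g * κ / (κ - g) = δ)
    (h : (conj (lv ν a k v (j + 1)).1 * (lv ν a k v (j + 1)).2).re ≤ -κ * ‖(lv ν a k v (j + 1)).1‖ ^ 2) :
    (conj (lv ν a k v j).1 * (lv ν a k v j).2).re ≤ δ * ‖(lv ν a k v j).1‖ ^ 2 := by
  rw [← hδ]
  exact (step_re' (ν := ν) (ρ := a) (k := k - j) rfl rfl
    (by rw [Complex.sub_re, Complex.natCast_re]; exact hg) hκ hκ0 h).1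

/-- Re(ȳ₃p₃) ≤ 0 on [ρ₀,∞) (`NF.level`, `AdmH.l2_level`, `NF.disc`, `re_nonpos`) -/
theorem AdmH.re3 (h0 : 0 < ρ₀) (hν : 0 < ν) (h1 : AdmH ν k ρ₀ y p) (hk : k.re ≤ 5 / 2) {ρ : ℝ} (hρ : ρ₀ ≤ ρ) :
    (conj (lv ν ρ k (y ρ, p ρ) 3).1 * (lv ν ρ k (y ρ, p ρ) 3).2).re ≤ 0 := by
  exact re_nonpos (y := fun j => (lv ν ρ k (y ρ, p ρ) j).1) (p := fun j => (lv ν ρ k (y ρ, p ρ) j).2) hν
    (fun _ => rfl) (fun _ => rfl) (dat_disc h0 h1 hk hρ) (j := 3) (by push_cast; linarith)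

/-- Four windows (`NF.window` for the levels 3,2,1,0, `step_re'` between them), t' = -k.im ≥ 0 so that
ν² - s k.im ≥ 48 for s ≥ 2.7:
level 3: (δ,κ,Δ) = (0,1,0.2) at every a ∈ [ρ, ρ+3.6];  step (g = 1/2) gives δ = 1;
level 2: (1,3,1) at a ∈ [ρ, ρ+2.6];  step (g = 3/2) gives δ = 3;
level 1: (3,5,1.6) at a ∈ [ρ, ρ+1];  step (g = 5/2) gives δ = 5;  level 0: (5,0,1) at a = ρ.
The window condition is convex in the point, so it is enough at the two ends (nlinarith). -/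
theorem AdmH.evP (h0 : 0 < ρ₀) (hν : 0 < ν) (h1 : AdmH ν k ρ₀ y p) (hk : k.re ≤ 5 / 2) {ρ : ℝ} (hρ : ρ₀ ≤ ρ)
    (hρ' : ρ ∈ Icc (2.7 : ℝ) 2.71) (hi : k.im ≤ 0) (hb : 48 ≤ ν ^ 2 - 2.7 * k.im) :
    (conj (y ρ) * p ρ).re ≤ 0 := by
  obtain ⟨r1, r2⟩ := hρ'
  have key : ∀ s : ℝ, ρ ≤ s → 48 ≤ ν ^ 2 - s * k.im := fun s hs => by nlinarith
  have s3 := dat_win h0 h1 3 (a := ρ + 3.6) (b := ρ + 3.8) (δ := 0) (κ := 1) (m := 5) (by linarith)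
    (by linarith) (by ring) (by have := key (ρ + 3.6) (by linarith); nlinarith)
    (by have := key (ρ + 3.8) (by linarith); nlinarith)
    (by rw [zero_mul]; exact h1.re3 h0 hν hk (by linarith))
  have s2 := dat_win h0 h1 2 (a := ρ + 2.6) (b := ρ + 3.6) (δ := 1) (κ := 3) (m := 4) (by linarith)
    (by linarith) (by ring) (by have := key (ρ + 2.6) (by linarith); nlinarith)
    (by have := key (ρ + 3.6) (by linarith); nlinarith)
    (dat_step ν _ k _ 2 (g := 1 / 2) (by push_cast; linarith) (by norm_num) (by norm_num) (by norm_num) s3)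
  have s1 := dat_win h0 h1 1 (a := ρ + 1) (b := ρ + 2.6) (δ := 3) (κ := 5) (m := 5) (by linarith)
    (by linarith) (by ring) (by have := key (ρ + 1) (by linarith); nlinarith)
    (by have := key (ρ + 2.6) (by linarith); nlinarith)
    (dat_step ν _ k _ 1 (g := 3 / 2) (by push_cast; linarith) (by norm_num) (by norm_num) (by norm_num) s2)
  have s0 := dat_win h0 h1 0 (a := ρ) (b := ρ + 1) (δ := 5) (κ := 0) (m := 5) hρ
    (by linarith) (by ring) (by have := key ρ le_rfl; nlinarith)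
    (by have := key (ρ + 1) (by linarith); nlinarith)
    (dat_step ν _ k _ 0 (g := 5 / 2) (by push_cast; linarith) (by norm_num) (by norm_num) (by norm_num) s1)
  rw [neg_zero, zero_mul] at s0
  exact s0

/-- Three windows: level 3: (0,1,0.07) at a ∈ [ρ, ρ+0.85]; level 2: (1,5/2,0.25) at a ∈ [ρ, ρ+0.6];
step (g = 3/2) gives δ = 15/4; level 1: (15/4,4,0.6) at a = ρ.  All points are ≤ 3.63. -/
theorem AdmH.evN (h0 : 0 < ρ₀) (hν : 0 < ν) (h1 : AdmH ν k ρ₀ y p) (hk : k.re ≤ 5 / 2) {ρ : ℝ} (hρ : ρ₀ ≤ ρ)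
    (hρ' : ρ ∈ Icc (2.7 : ℝ) 2.71) (hb : 3.7 * |k.im| + 62 ≤ ν ^ 2) :
    (conj (lv ν ρ k (y ρ, p ρ) 1).1 * (lv ν ρ k (y ρ, p ρ) 1).2).re ≤ -4 * ‖(lv ν ρ k (y ρ, p ρ) 1).1‖ ^ 2 := by
  obtain ⟨r1, r2⟩ := hρ'
  have key : ∀ s : ℝ, ρ ≤ s → s ≤ ρ + 0.92 → 62 ≤ ν ^ 2 - s * k.im := fun s hs hs' => by
    have := mul_le_mul_of_nonneg_left (le_abs_self k.im) (show 0 ≤ s by linarith)
    have := mul_le_mul_of_nonneg_right (show s ≤ 3.7 by linarith) (abs_nonneg k.im)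
    linarith
  have s3 := dat_win h0 h1 3 (a := ρ + 0.85) (b := ρ + 0.92) (δ := 0) (κ := 1) (m := 100 / 7) (by linarith)
    (by linarith) (by ring) (by have := key (ρ + 0.85) (by linarith) (by linarith); nlinarith)
    (by have := key (ρ + 0.92) (by linarith) (by linarith); nlinarith)
    (by rw [zero_mul]; exact h1.re3 h0 hν hk (by linarith))
  have s2 := dat_win h0 h1 2 (a := ρ + 0.6) (b := ρ + 0.85) (δ := 1) (κ := 5 / 2) (m := 14) (by linarith)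
    (by linarith) (by ring) (by have := key (ρ + 0.6) (by linarith) (by linarith); nlinarith)
    (by have := key (ρ + 0.85) (by linarith) (by linarith); nlinarith)
    (dat_step ν _ k _ 2 (g := 1 / 2) (by push_cast; linarith) (by norm_num) (by norm_num) (by norm_num) s3)
  exact dat_win h0 h1 1 (a := ρ) (b := ρ + 0.6) (δ := 15 / 4) (κ := 4) (m := 155 / 12) hρ
    (by linarith) (by ring) (by have := key ρ le_rfl (by linarith); nlinarith)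
    (by have := key (ρ + 0.6) (by linarith) (by linarith); nlinarith)
    (dat_step ν _ k _ 1 (g := 3 / 2) (by push_cast; linarith) (by norm_num) (by norm_num) (by norm_num) s2)

theorem dat_flux (h0 : 0 < ρ₀) (h1 : AdmH ν k ρ₀ y p) (hk : k.re ≤ 5 / 2) {ρ : ℝ} (hρ : ρ₀ ≤ ρ) (j : ℕ)
    (hj : 4 ≤ j) : ((j : ℝ) - 3) * ∫ s in Ioi ρ, ‖(lv ν s k (y s, p s) j).1‖ ^ 2 ≤
      (conj (lv ν ρ k (y ρ, p ρ) j).1 * (lv ν ρ k (y ρ, p ρ) j).2).im := by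
  rw [(h1.nf.level h0 j).flux h0 (h1.l2_level h0 hk hj) ρ hρ, Complex.sub_re, Complex.natCast_re]
  exact mul_le_mul_of_nonneg_right (by linarith) (integral_nonneg fun s => by positivity)

theorem AdmH.dat (h0 : 0 < ρ₀) (hν : 0 < ν) (h1 : AdmH ν k ρ₀ y p) (hk : k.re ≤ 5 / 2) {ρ : ℝ} (hρ : ρ₀ ≤ ρ)
    (hρ' : ρ ∈ Icc (2.7 : ℝ) 2.71) :
    Dat ν ρ k (fun j => (lv ν ρ k (y ρ, p ρ) j).1) (fun j => (lv ν ρ k (y ρ, p ρ) j).2) := by
  refine ⟨fun _ => rfl, fun _ => rfl, dat_disc h0 h1 hk hρ, fun j hj => ?_,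
    h1.evP h0 hν hk hρ hρ', h1.evN h0 hν hk hρ hρ'⟩
  have hj' : (4 : ℝ) ≤ j := by exact_mod_cast hj
  exact le_trans (mul_nonneg (by linarith) (integral_nonneg fun s => by positivity))
    (dat_flux h0 h1 hk hρ j hj)

/-- `om_succ`, `AdmF.om_eq`, `norm_integral_mul_sq_le`, `NF.flux` (−(Re(k−j)+1/2) ≥ j − 3) -/
theorem AdmF.dat2 (h0 : 0 < ρ₀) (hν : 0 < ν) (h : AdmF ν k ks c ρ₀ y p Φ Q) (hk : k.re ≤ 5 / 2)
    (hks : ks.re ≤ 5 / 2) {ρ : ℝ} (hρ : ρ₀ ≤ ρ) (hρ' : ρ ∈ Icc (2.7 : ℝ) 2.71) :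
    Dat2 ν ρ k ks (fun j => (lv ν ρ k ((ks - k) * y ρ + c * Φ ρ, (ks - k) * p ρ + c * Q ρ) j).1)
      (fun j => (lv ν ρ k ((ks - k) * y ρ + c * Φ ρ, (ks - k) * p ρ + c * Q ρ) j).2)
      (fun j => (lv ν ρ ks (Φ ρ, Q ρ) j).1) (fun j => (lv ν ρ ks (Φ ρ, Q ρ) j).2)
      (fun j => om ν ρ k ks c (y ρ, p ρ) (Φ ρ, Q ρ) j) := by
  have ht := h.tilde h0
  refine ⟨ht.dat h0 hν hk hρ hρ', h.adm.dat h0 hν hks hρ hρ', fun j => om_succ ν ρ k ks c _ _ j,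
    fun j hj => ?_⟩
  have hj' : (4 : ℝ) ≤ j := by exact_mod_cast hj
  have f1 := dat_flux h0 ht hk hρ j hj
  have f2 := dat_flux h0 h.adm hks hρ j hj
  have cs := norm_integral_mul_sq_le ((ht.nf.level h0 j).cy.mono (Ici_subset_Ici.2 hρ))
    ((h.adm.nf.level h0 j).cy.mono (Ici_subset_Ici.2 hρ)) (ht.l2_level h0 hk hj) (h.adm.l2_level h0 hks hj)
  have n1 : 0 ≤ ((j : ℝ) - 3) * ∫ s in Ioi ρ, ‖(lv ν s k ((ks - k) * y s + c * Φ s,
      (ks - k) * p s + c * Q s) j).1‖ ^ 2 := mul_nonneg (by linarith) (integral_nonneg fun s => by positivity)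
  have n2 : 0 ≤ ((j : ℝ) - 3) * ∫ s in Ioi ρ, ‖(lv ν s ks (Φ s, Q s) j).1‖ ^ 2 :=
    mul_nonneg (by linarith) (integral_nonneg fun s => by positivity)
  refine le_trans ?_ (mul_le_mul f1 f2 n2 (n1.trans f1))
  rw [h.om_eq h0 hk hks hj hρ, norm_mul, Complex.norm_I, one_mul]
  refine (mul_le_mul_of_nonneg_left cs (sq_nonneg _)).trans (le_of_eq ?_)
  ring

end

end Crest.Agent.R086.N
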