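import Crest.Agent.R086.Defs

open MeasureTheory Set Filter Topology Complex
open scoped ContDiff ComplexConjugate

namespace Crest.Agent.R086.N

noncomputable section

/-! # Part N: definitions.
Normal form: ρ = r²/4, θ = ρ∂_ρ, y = E F, p = θ y, θ p = W y + h, k = 5/2 - α = g - i t', ν = (5+m)/2.
Ladder: Y = p - k' y, P = W_g y - k' p is the normal form of i𝒟F (k ↦ k - 1); P = A y - k' Y, A = ν² - k². -/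

def WW (ν : ℝ) (k : ℂ) (ρ : ℝ) : ℂ := (ν : ℂ) ^ 2 - (ρ : ℂ) ^ 2 / 4 + I * ρ * (k + 1 / 2)
def Wg (ν : ℝ) (k : ℂ) (ρ : ℝ) : ℂ := (ν : ℂ) ^ 2 - (ρ : ℂ) ^ 2 / 4 + I * ρ * k
def kp (k : ℂ) (ρ : ℝ) : ℂ := k + I * ρ / 2

/-- normal form on the open half line -/
structure NFo (ν : ℝ) (k : ℂ) (ρ₀ : ℝ) (y p h : ℝ → ℂ) : Prop where
  dy : ∀ ρ, ρ₀ < ρ → HasDerivAt y (p ρ / ρ) ρ
  dp : ∀ ρ, ρ₀ < ρ → HasDerivAt p ((WW ν k ρ * y ρ + h ρ) / ρ) ρ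

/-- normal form, continuous up to the end point -/
structure NF (ν : ℝ) (k : ℂ) (ρ₀ : ℝ) (y p h : ℝ → ℂ) : Prop extends NFo ν k ρ₀ y p h where
  cy : ContinuousOn y (Ici ρ₀)
  cp : ContinuousOn p (Ici ρ₀)

/-- square integrable near ∞ -/
def L2 (y : ℝ → ℂ) : Prop := ∃ ρ₁ : ℝ, IntegrableOn (fun ρ => ‖y ρ‖ ^ 2) (Ioi ρ₁)

/-- the levels of a homogeneous solution at the point ρ -/
def lv (ν ρ : ℝ) (k : ℂ) (v : ℂ × ℂ) : ℕ → ℂ × ℂ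
  | 0 => v
  | j + 1 => ((lv ν ρ k v j).2 - kp (k - j) ρ * (lv ν ρ k v j).1,
      Wg ν (k - j) ρ * (lv ν ρ k v j).1 - kp (k - j) ρ * (lv ν ρ k v j).2)

/-- the levels of a solution forced by c φ, where φ has data `w` and parameter `ks` -/
def flv (ν ρ : ℝ) (k ks c : ℂ) (v w : ℂ × ℂ) : ℕ → ℂ × ℂ
  | 0 => v
  | j + 1 => ((flv ν ρ k ks c v w j).2 - kp (k - j) ρ * (flv ν ρ k ks c v w j).1 + c * (lv ν ρ ks w j).1,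
      Wg ν (k - j) ρ * (flv ν ρ k ks c v w j).1 - kp (k - j) ρ * (flv ν ρ k ks c v w j).2
        + c * ((lv ν ρ ks w j).2 - I * ρ * (lv ν ρ ks w j).1))

/-- Wronskian of the forced solution with φ at level j -/
def om (ν ρ : ℝ) (k ks c : ℂ) (v w : ℂ × ℂ) (j : ℕ) : ℂ :=
  (flv ν ρ k ks c v w j).2 * (lv ν ρ ks w j).1 - (flv ν ρ k ks c v w j).1 * (lv ν ρ ks w j).2

/-- admissible homogeneous solution -/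
structure AdmH (ν : ℝ) (k : ℂ) (ρ₀ : ℝ) (y p : ℝ → ℂ) : Prop where
  nf : NF ν k ρ₀ y p 0
  l2 : L2 (fun ρ => (lv ν ρ k (y ρ, p ρ) 4).1)

/-- admissible forced solution -/
structure AdmF (ν : ℝ) (k ks c : ℂ) (ρ₀ : ℝ) (y p Φ Q : ℝ → ℂ) : Prop where
  nf : NF ν k ρ₀ y p (fun ρ => -I * ρ * (c * Φ ρ))
  l2 : L2 (fun ρ => (flv ν ρ k ks c (y ρ, p ρ) (Φ ρ, Q ρ) 4).1)
  adm : AdmH ν ks ρ₀ Φ Q

/-- everything the algebraic part knows about an admissible solution at one point ρ -/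
structure Dat (ν ρ : ℝ) (k : ℂ) (y p : ℕ → ℂ) : Prop where
  lad1 : ∀ j : ℕ, y (j + 1) = p j - kp (k - j) ρ * y j
  lad2 : ∀ j : ℕ, p (j + 1) = Wg ν (k - j) ρ * y j - kp (k - j) ρ * p j
  disc : ∀ j : ℕ, 4 ≤ j → ‖y (j + 1)‖ ≤ ‖(ν : ℂ) + (k - j)‖ * ‖y j‖
  flux : ∀ j : ℕ, 4 ≤ j → 0 ≤ (conj (y j) * p j).im
  evP : k.im ≤ 0 → 48 ≤ ν ^ 2 - 2.7 * k.im → (conj (y 0) * p 0).re ≤ 0
  evN : 3.7 * |k.im| + 62 ≤ ν ^ 2 → (conj (y 1) * p 1).re ≤ -4 * ‖y 1‖ ^ 2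

/-- data for the analysis near an eigenvalue: (y,p) = μ u + c φ at k, (Φ,Q) = φ at ks, w the Wronskian of u and φ -/
structure Dat2 (ν ρ : ℝ) (k ks : ℂ) (y p Φ Q w : ℕ → ℂ) : Prop where
  d1 : Dat ν ρ k y p
  d2 : Dat ν ρ ks Φ Q
  rc : ∀ j : ℕ, w (j + 1) = -((ν : ℂ) ^ 2 - (ks - j) ^ 2) * w j
    + (p j - I * ρ * y j) * Φ (j + 1) - y j * Q (j + 1)
  bnd : ∀ j : ℕ, 4 ≤ j → ((j : ℝ) - 3) ^ 2 * ‖w j‖ ^ 2 ≤ (conj (y j) * p j).im * (conj (Φ j) * Q j).im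

/-- the factor E, real and positive at ρ₀ -/
def EE (ρ₀ ρ : ℝ) : ℂ := ((ρ ^ 2 * Real.sqrt ρ : ℝ) : ℂ) * Complex.exp (I * ((ρ - ρ₀ : ℝ) : ℂ) / 2)
def yOf (ρ₀ : ℝ) (F : ℝ → ℂ) (ρ : ℝ) : ℂ := EE ρ₀ ρ * F (2 * Real.sqrt ρ)
def pOf (ρ₀ : ℝ) (F : ℝ → ℂ) (ρ : ℝ) : ℂ := EE ρ₀ ρ *
  ((5 / 2 + I * ρ / 2) * F (2 * Real.sqrt ρ) + (Real.sqrt ρ : ℂ) * deriv F (2 * Real.sqrt ρ))

/-- i 𝒟 -/
def D1 (m : ℕ) (F : ℝ → ℂ) (r : ℝ) : ℂ := I * DD m F r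

/-- ν = (5+m)/2 -/
def nu (m : ℕ) : ℝ := (5 + (m : ℝ)) / 2

/-- a convenient weakening of `Free` -/
structure Fr (R : ℝ) (m : ℕ) (α : ℂ) (F e : ℝ → ℂ) : Prop where
  smooth : ContDiffOn ℝ 10 F (Ioi R)
  ode : ∀ r : ℝ, R < r → I * DD m F r = α * F r + (r : ℂ) / 2 * deriv F r + e r
  adm : L2 (yOf (R ^ 2 / 4) ((D1 m)^[4] F))

/-- the boundary condition -/
structure BC (R : ℝ) (m : ℕ) (f G : ℝ → ℂ) : Prop where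
  b0 : Tendsto (fun r => f r + conj (G r)) (𝓝[>] R) (𝓝 0)
  b1 : Tendsto (fun r => (deriv f r - conj (deriv G r)) - (m : ℂ) / r * (f r - conj (G r))) (𝓝[>] R) (𝓝 0)

/-- the three eigenvalues: i = 0: (m, λ*) = (0,0); i = 1: (0,1); i = 2: (1,1/2) -/
def mi : Fin 3 → ℕ := ![0, 0, 1]
def li : Fin 3 → ℝ := ![0, 1, 1 / 2]
/-- half side of the square around λ* -/
def ri : Fin 3 → ℝ := ![1 / 16, 1 / 4, 1 / 4]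
/-- direction of i𝒟φ(R) -/
def psi0 (b ρ : ℝ) : Fin 3 → ℂ := ![1, (b : ℂ) + ρ + I, 1]
def Zone (i : Fin 3) (σ τ : ℝ) : Prop := |σ - li i| ≤ ri i ∧ |τ| ≤ ri i

/-- the box for (b, ρ) -/
def Box (b ρ : ℝ) : Prop := b ∈ Icc (0.334766 : ℝ) 0.334786 ∧ ρ ∈ Icc (2.70497 : ℝ) 2.70517

/-- k on the F side (t' = τ - b); the G side is `kk σ (-τ) b` -/
def kk (σ τ b : ℝ) : ℂ := 5 / 2 - ((σ : ℂ) + I * ((τ : ℂ) - b))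

/-- the data of a mode at the point ρ: both sides and the boundary condition -/
structure Md (ν σ τ b ρ : ℝ) (yF pF yG pG : ℕ → ℂ) : Prop where
  dF : Dat ν ρ (kk σ τ b) yF pF
  dG : Dat ν ρ (kk σ (-τ) b) yG pG
  h1 : yG 0 = -conj (yF 0)
  h2 : pF 0 - conj (pG 0) = 2 * ν * yF 0

/-- **algebraic mode stability away from the eigenvalues** -/
def FarStmt : Prop :=
  ∀ (m : ℕ) (σ τ b ρ : ℝ) (yF pF yG pG : ℕ → ℂ), Box b ρ → 0 ≤ σ → σ ≤ 33 / 10 →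
    (∀ i : Fin 3, mi i = m → ¬ Zone i σ τ) → Md (nu m) σ τ b ρ yF pF yG pG →
    yF 0 = 0 ∧ pF 0 = 0 ∧ pG 0 = 0

/-- the compact part of `FarStmt` (kernel computation) -/
def FarNum : Prop :=
  ∀ (m : ℕ) (σ τ b ρ : ℝ) (yF pF yG pG : ℕ → ℂ), Box b ρ → 0 ≤ σ → σ ≤ 33 / 10 → 0 ≤ τ → τ ≤ 30 → m ≤ 23 →
    (∀ i : Fin 3, mi i = m → ¬ Zone i σ τ) → Md (nu m) σ τ b ρ yF pF yG pG →
    yF 0 = 0 ∧ pF 0 = 0 ∧ pG 0 = 0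

/-- **algebraic mode stability near an eigenvalue**, for τ ≥ 0 if `pos` -/
def NearStmt (pos : Bool) : Prop :=
  ∀ (i : Fin 3) (σ τ b ρ t : ℝ) (yF pF yG pG Φ Q wF wG : ℕ → ℂ), Box b ρ → 0 ≤ σ → Zone i σ τ →
    (pos = true → 0 ≤ τ) → Md (nu (mi i)) σ τ b ρ yF pF yG pG →
    Dat2 (nu (mi i)) ρ (kk σ τ b) (kk (li i) 0 b) yF pF Φ Q wF →
    Dat2 (nu (mi i)) ρ (kk σ (-τ) b) (kk (li i) 0 b) yG pG Φ Q wG →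
    wF 0 + conj (wG 0) = 0 → t ≠ 0 → Φ 1 = t * psi0 b ρ i →
    yF 0 = 0 ∧ pF 0 = 0 ∧ pG 0 = 0

end

end Crest.Agent.R086.N
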