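import Crest.Agent.R086.N.Eng

open MeasureTheory Set Filter Topology Complex
open scoped ContDiff ComplexConjugate

namespace Crest.Agent.R086.N

noncomputable section

/-! # Soundness of the engine I: Gaussian integers -/

theorem SS_pos : (0 : ℝ) < (SS : ℝ) := by norm_num [SS]
theorem SS_val : (SS : ℝ) = 1099511627776 := by norm_num [SS]
theorem SS_ne : ((SS : ℕ) : ℂ) ≠ 0 := by norm_num [SS]

theorem toC_re (z : CI) : z.toC.re = (z.re : ℝ) := by simp [CI.toC]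
theorem toC_im (z : CI) : z.toC.im = (z.im : ℝ) := by simp [CI.toC]
theorem toC_add (z w : CI) : (z.add w).toC = z.toC + w.toC := by
  show (((z.re + w.re : ℤ) : ℂ) + ((z.im + w.im : ℤ) : ℂ) * I) = _
  simp only [CI.toC]; push_cast; ring
theorem toC_sub (z w : CI) : (z.sub w).toC = z.toC - w.toC := by
  show (((z.re - w.re : ℤ) : ℂ) + ((z.im - w.im : ℤ) : ℂ) * I) = _
  simp only [CI.toC]; push_cast; ring
theorem toC_mul (z w : CI) : (z.mul w).toC = z.toC * w.toC := by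
  show (((z.re * w.re - z.im * w.im : ℤ) : ℂ) + ((z.re * w.im + z.im * w.re : ℤ) : ℂ) * I) = _
  simp only [CI.toC]; push_cast
  linear_combination (-(z.im : ℂ) * w.im) * I_mul_I
theorem toC_cj (z : CI) : z.cj.toC = conj z.toC := by
  show (((z.re : ℤ) : ℂ) + ((-z.im : ℤ) : ℂ) * I) = _
  simp [CI.toC]
theorem toC_sm (n : ℕ) (z : CI) : (CI.sm n z).toC = (n : ℂ) * z.toC := by
  show ((((n : ℤ) * z.re : ℤ) : ℂ) + (((n : ℤ) * z.im : ℤ) : ℂ) * I) = _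
  simp only [CI.toC]; push_cast; ring
theorem toC_ofN (n : ℕ) : (CI.ofN n).toC = (n : ℂ) := by
  show ((((n : ℤ) : ℤ) : ℂ) + (((0 : ℕ) : ℤ) : ℂ) * I) = _
  simp
theorem toC_iN (n : ℕ) : (CI.iN n).toC = I * (n : ℂ) := by
  show (((((0 : ℕ) : ℤ) : ℤ) : ℂ) + ((n : ℤ) : ℂ) * I) = _
  simp [mul_comm]
theorem nsq_eq (z : CI) : (z.nsq : ℝ) = ‖z.toC‖ ^ 2 := by
  rw [← Complex.normSq_eq_norm_sq, Complex.normSq_apply, toC_re, toC_im]
  show ((z.re.natAbs * z.re.natAbs + z.im.natAbs * z.im.natAbs : ℕ) : ℝ) = _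
  push_cast
  simp only [Nat.cast_natAbs, Int.cast_abs, abs_mul_abs_self]

theorem ediv_err (x : ℤ) {n : ℕ} (hn : 0 < n) : |((x / (n : ℤ) : ℤ) : ℝ) - (x : ℝ) / n| ≤ 1 := by
  have hn' : (0 : ℝ) < n := by exact_mod_cast hn
  have hz : (0 : ℤ) < n := by exact_mod_cast hn
  have h1 := Int.mul_ediv_add_emod x (n : ℤ)
  have h2 := Int.emod_nonneg x hz.ne'
  have h3 := Int.emod_lt_of_pos x hz
  have e1 : (n : ℝ) * ((x / (n : ℤ) : ℤ) : ℝ) + ((x % (n : ℤ) : ℤ) : ℝ) = x := by exact_mod_cast h1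
  have e2 : (0 : ℝ) ≤ ((x % (n : ℤ) : ℤ) : ℝ) := by exact_mod_cast h2
  have e3 : ((x % (n : ℤ) : ℤ) : ℝ) < n := by exact_mod_cast h3
  have e4 : ((x / (n : ℤ) : ℤ) : ℝ) - (x : ℝ) / n = -(((x % (n : ℤ) : ℤ) : ℝ) / n) := by
    field_simp
    linarith
  rw [e4, abs_neg, abs_of_nonneg (div_nonneg e2 hn'.le), div_le_one hn']
  exact e3.le

/-- each component is off by less than 1 -/
theorem dv_err (z : CI) {n : ℕ} (hn : 0 < n) : ‖(z.dv n).toC - z.toC / (n : ℂ)‖ ≤ 2 := by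
  have h1 : ((z.dv n).toC - z.toC / (n : ℂ)).re = ((z.re / (n : ℤ) : ℤ) : ℝ) - (z.re : ℝ) / n := by
    rw [Complex.sub_re, Complex.div_natCast_re, toC_re, toC_re]; rfl
  have h2 : ((z.dv n).toC - z.toC / (n : ℂ)).im = ((z.im / (n : ℤ) : ℤ) : ℝ) - (z.im : ℝ) / n := by
    rw [Complex.sub_im, Complex.div_natCast_im, toC_im, toC_im]; rfl
  have h3 := Complex.norm_le_abs_re_add_abs_im ((z.dv n).toC - z.toC / (n : ℂ))
  rw [h1, h2] at h3
  have := ediv_err z.re hn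
  have := ediv_err z.im hn
  linarith

theorem le_div_succ_mul (x : ℕ) {n : ℕ} (hn : 0 < n) : x ≤ (x / n + 1) * n := by
  have h1 := Nat.div_add_mod x n
  have h2 := Nat.mod_lt x hn
  nlinarith

/-- x/n < (x div n) + 1 -/
theorem div_lt_succ (x : ℕ) {n : ℕ} (hn : 0 < n) : (x : ℝ) / n ≤ ((Nat.succ (Nat.div x n) : ℕ) : ℝ) := by
  have hn' : (0 : ℝ) < n := by exact_mod_cast hn
  rw [div_le_iff₀ hn']
  have h : x ≤ (x / n + 1) * n := by
    have := le_div_succ_mul x hn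
    exact this
  exact_mod_cast h

theorem newton_ge (s : ℕ) {x : ℕ} (hx : 0 < x) :
    Real.sqrt (s : ℝ) ≤ ((Nat.succ (Nat.div (Nat.add x (Nat.div s x)) 2) : ℕ) : ℝ) := by
  have hx' : (0 : ℝ) < x := by exact_mod_cast hx
  have h1 := div_lt_succ s hx
  have h2 : x + s / x + 1 ≤ 2 * ((x + s / x) / 2 + 1) := by omega
  have h3 : (x : ℝ) + ((s / x : ℕ) : ℝ) + 1 ≤ 2 * ((((x + s / x) / 2 : ℕ) : ℝ) + 1) := by exact_mod_cast h2
  have h4 : (s : ℝ) / x ≤ ((s / x : ℕ) : ℝ) + 1 := by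
    have : ((Nat.succ (Nat.div s x) : ℕ) : ℝ) = ((s / x : ℕ) : ℝ) + 1 := by
      rw [Nat.cast_succ]; rfl
    rwa [this] at h1
  have h5 : ((Nat.succ (Nat.div (Nat.add x (Nat.div s x)) 2) : ℕ) : ℝ) = (((x + s / x) / 2 : ℕ) : ℝ) + 1 := by
    rw [Nat.cast_succ]; rfl
  rw [h5]
  have h6 : 2 * Real.sqrt s ≤ x + (s : ℝ) / x := by
    have hs := Real.mul_self_sqrt (Nat.cast_nonneg s : (0 : ℝ) ≤ s)
    rw [← sub_nonneg]
    have : (x : ℝ) + (s : ℝ) / x - 2 * Real.sqrt s = ((x : ℝ) - Real.sqrt s) ^ 2 / x := by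
      field_simp
      nlinarith
    rw [this]
    positivity
  linarith

/-- for any guess x > 0, s = a²+b²: t = x + ⌊s/x⌋ > x + s/x - 1 ≥ 2√s - 1, ⌊t/2⌋ + 1 ≥ (t+1)/2 > √s -/
theorem absN_ge (a b : ℕ) : Real.sqrt ((a : ℝ) ^ 2 + (b : ℝ) ^ 2) ≤ (absN a b : ℝ) := by
  have e : (a : ℝ) ^ 2 + (b : ℝ) ^ 2 = ((Nat.add (Nat.mul a a) (Nat.mul b b) : ℕ) : ℝ) := by
    show _ = ((a * a + b * b : ℕ) : ℝ)
    push_cast; ring
  rw [e, absN, frN_eq]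
  refine newton_ge _ ?_
  cases Nat.ble a b <;> exact Nat.succ_pos _

theorem norm_le_absN {z : ℂ} {a b : ℕ} (ha : |z.re| ≤ (a : ℝ)) (hb : |z.im| ≤ (b : ℝ)) :
    ‖z‖ ≤ (absN a b : ℝ) := by
  refine le_trans ?_ (absN_ge a b)
  rw [Complex.norm_eq_sqrt_sq_add_sq]
  refine Real.sqrt_le_sqrt (add_le_add ?_ ?_)
  · exact sq_le_sq' (abs_le.1 ha).1 (abs_le.1 ha).2
  · exact sq_le_sq' (abs_le.1 hb).1 (abs_le.1 hb).2

theorem absU_ge (z : CI) : ‖z.toC‖ ≤ (absU z : ℝ) := by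
  rw [absU, frN_eq, frN_eq]
  refine norm_le_absN ?_ ?_
  · rw [toC_re]; simp [Nat.cast_natAbs]
  · rw [toC_im]; simp [Nat.cast_natAbs]

/-- ⌊|z|²/absU z⌋ ≤ |z| -/
theorem absL_le (z : CI) : (absL z : ℝ) ≤ ‖z.toC‖ := by
  have h1 := absU_ge z
  have h2 := nsq_eq z
  have h0 := norm_nonneg z.toC
  have h3 : ((absL z : ℕ) : ℝ) ≤ (z.nsq : ℝ) / (absU z : ℝ) := Nat.cast_div_le
  refine h3.trans ?_
  rw [h2]
  rcases eq_or_lt_of_le (Nat.cast_nonneg (absU z) : (0 : ℝ) ≤ (absU z : ℝ)) with h | h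
  · rw [← h, div_zero]; exact h0
  · rw [div_le_iff₀ h]; nlinarith

end

end Crest.Agent.R086.N
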