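import Crest.Agent.R086.N.EA

open MeasureTheory Set Filter Topology Complex
open scoped ContDiff ComplexConjugate

namespace Crest.Agent.R086.N

noncomputable section

/-! # Soundness of the engine II: balls -/

private theorem mem_iff {a : Bl} {z : ℂ} : a.Mem z ↔ ‖(SS : ℂ) * z - a.c.toC‖ ≤ (a.r : ℝ) := by
  have h : z - a.c.toC / SS = ((SS : ℂ) * z - a.c.toC) / SS := by
    have := SS_ne
    field_simp
  rw [Bl.Mem, h, norm_div, Complex.norm_natCast, div_le_div_iff_of_pos_right SS_pos]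

theorem Bl.mem_one : Bl.one.Mem 1 := by
  rw [mem_iff]
  simp [Bl.one, toC_ofN]
theorem Bl.Mem.add {a b : Bl} {x z : ℂ} (ha : a.Mem x) (hb : b.Mem z) : (a.add b).Mem (x + z) := by
  rw [mem_iff] at *
  simp only [Bl.add, toC_add, Nat.add_eq, Nat.cast_add]
  refine le_trans (le_of_eq ?_) ((norm_add_le _ _).trans (add_le_add ha hb))
  congr 1
  ring
theorem Bl.Mem.sub {a b : Bl} {x z : ℂ} (ha : a.Mem x) (hb : b.Mem z) : (a.sub b).Mem (x - z) := by
  rw [mem_iff] at *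
  simp only [Bl.sub, toC_sub, Nat.add_eq, Nat.cast_add]
  refine le_trans (le_of_eq ?_) ((norm_sub_le _ _).trans (add_le_add ha hb))
  congr 1
  ring
theorem Bl.Mem.cj {a : Bl} {x : ℂ} (ha : a.Mem x) : a.cj.Mem (conj x) := by
  rw [mem_iff] at *
  simp only [Bl.cj, toC_cj]
  rw [← Complex.norm_conj, map_sub, map_mul, Complex.conj_conj, Complex.conj_conj, map_natCast]
  exact ha

/-- |xz - a b| ≤ |a| r_b + |b| r_a + r_a r_b; rounding: `dv_err` (2) and the floor (1) -/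
theorem Bl.Mem.mul {a b : Bl} {x z : ℂ} (ha : a.Mem x) (hb : b.Mem z) : (a.mul b).Mem (x * z) := by
  rw [mem_iff] at *
  have hS : 0 < SS := by norm_num [SS]
  have h1 := dv_err (a.c.mul b.c) hS
  have h2 := div_lt_succ (absU a.c * b.r + absU b.c * a.r + a.r * b.r) hS
  have h3 : (SS : ℂ) * (x * z) - ((a.c.mul b.c).dv SS).toC =
      (a.c.toC * (SS * z - b.c.toC) + b.c.toC * (SS * x - a.c.toC) +
        (SS * x - a.c.toC) * (SS * z - b.c.toC)) / SS -
      (((a.c.mul b.c).dv SS).toC - (a.c.mul b.c).toC / SS) := by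
    have := SS_ne
    rw [toC_mul]
    field_simp
    ring
  have h4 : ‖a.c.toC * (SS * z - b.c.toC) + b.c.toC * (SS * x - a.c.toC) +
      (SS * x - a.c.toC) * (SS * z - b.c.toC)‖ ≤ absU a.c * b.r + absU b.c * a.r + a.r * b.r := by
    refine norm_add₃_le.trans ?_
    rw [norm_mul, norm_mul, norm_mul]
    have := absU_ge a.c
    have := absU_ge b.c
    gcongr
  simp only [Bl.mul, Nat.add_eq, Nat.mul_eq]
  rw [h3]
  refine (norm_sub_le _ _).trans ?_
  rw [norm_div, Complex.norm_natCast]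
  have h5 := div_le_div_of_nonneg_right h4 SS_pos.le
  push_cast at h2 ⊢
  linarith

theorem Bl.Mem.ne0 {a : Bl} {x : ℂ} (ha : a.Mem x) (h : a.ne0 = true) : x ≠ 0 := by
  rintro rfl
  rw [mem_iff, mul_zero, zero_sub, norm_neg] at ha
  have h1 : (a.r : ℝ) < absL a.c := by exact_mod_cast Nat.blt_eq ▸ h
  linarith [absL_le a.c]

/-- |z| ≥ (L - r_u)/SS > 0 and |x - (c/SS) z| ≤ (|n SS - c u| + SS r_n + |c| r_u)/SS² for ANY c -/
theorem Bl.div_sound {n u : Bl} {K : Bl → Bool} {x z : ℂ} (hn : n.Mem x) (hu : u.Mem z)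
    (h : Bl.div n u K = true) : z ≠ 0 ∧ ∃ q : Bl, K q = true ∧ q.Mem (x / z) := by
  rw [mem_iff] at hn hu
  simp only [Bl.div, frN_eq, frC_eq] at h
  cases hb : Nat.ble (absL u.c) u.r with
  | true => rw [hb] at h; exact absurd h Bool.false_ne_true
  | false =>
    rw [hb] at h
    have h1 : u.r < absL u.c := not_le.1 fun h' => by
      rw [Nat.ble_eq_true_of_le h'] at hb
      exact absurd hb (by decide)
    have h2 : ((absL u.c - u.r : ℕ) : ℝ) ≤ ‖(SS : ℂ) * z‖ := by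
      have := norm_sub_norm_le u.c.toC (SS * z)
      rw [norm_sub_rev] at this
      rw [Nat.cast_sub h1.le]
      linarith [absL_le u.c]
    have h3 : (0 : ℝ) < ((absL u.c - u.r : ℕ) : ℝ) := by exact_mod_cast Nat.sub_pos_of_lt h1
    have hz : z ≠ 0 := by
      rintro rfl
      rw [mul_zero, norm_zero] at h2
      linarith
    refine ⟨hz, _, h, ?_⟩
    rw [mem_iff]
    generalize ((n.c.mul u.c.cj).sm SS).dv u.c.nsq = c
    refine le_trans ?_ (div_lt_succ _ (Nat.sub_pos_of_lt h1))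
    have h4 : (SS : ℂ) * (x / z) - c.toC = (((n.c.sm SS).sub (c.mul u.c)).toC +
        SS * (SS * x - n.c.toC) - c.toC * (SS * z - u.c.toC)) / (SS * z) := by
      have := SS_ne
      rw [toC_sub, toC_sm, toC_mul]
      field_simp
      ring
    show ‖(SS : ℂ) * (x / z) - c.toC‖ ≤ _
    rw [h4, norm_div]
    refine div_le_div₀ (Nat.cast_nonneg _) ?_ h3 h2
    refine (norm_sub_le _ _).trans ((add_le_add (norm_add_le _ _) le_rfl).trans ?_)
    simp only [Nat.add_eq, Nat.mul_eq, Nat.cast_add, Nat.cast_mul, norm_mul, Complex.norm_natCast]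
    have := absU_ge c
    have := absU_ge ((n.c.sm SS).sub (c.mul u.c))
    gcongr

/-- 274877906944 = SS/4 -/
theorem nuB_mem {a b : ℕ} {ν : ℝ} (ha : (a : ℝ) ≤ 2 * ν) (hb : 2 * ν ≤ (b : ℝ)) : (nuB a b).Mem (ν : ℂ) := by
  have hab : a ≤ b := by exact_mod_cast ha.trans hb
  rw [mem_iff]
  simp only [nuB, toC_ofN, Nat.add_eq, Nat.mul_eq, Nat.sub_eq]
  have h1 : (SS : ℂ) * ν - (((a + b) * 274877906944 : ℕ) : ℂ) =
      ((SS * ν - (a + b) * 274877906944 : ℝ) : ℂ) := by push_cast; ring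
  rw [h1, Complex.norm_real, Real.norm_eq_abs, SS_val, abs_le]
  push_cast [Nat.cast_sub hab]
  constructor <;> linarith

/-- chart `false`: p = ζ y with ζ in the disc (ζ = centre if y = 0) -/
theorem holds_false {c : CI} {r : ℕ} {y p : ℂ} (h : Holds false c r y p) :
    ∃ ζ : ℂ, (⟨c, r⟩ : Bl).Mem ζ ∧ p = ζ * y := by
  have h' : ‖p - c.toC / SS * y‖ ≤ (r : ℝ) / SS * ‖y‖ := h
  by_cases hy : y = 0
  · subst hy
    refine ⟨c.toC / SS, ?_, by simpa using h'⟩
    rw [Bl.Mem, sub_self, norm_zero]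
    positivity
  · refine ⟨p / y, ?_, (div_mul_cancel₀ p hy).symm⟩
    have h1 : p / y - c.toC / SS = (p - c.toC / SS * y) / y := by field_simp
    rw [Bl.Mem, h1, norm_div, div_le_iff₀ (norm_pos_iff.2 hy)]
    exact h'

theorem holds_vec {ch : Bool} {c : CI} {r : ℕ} {y p : ℂ} (h : Holds ch c r y p) :
    ∃ a b : ℂ, (vecA ch c r).Mem a ∧ (vecB ch c r).Mem b ∧ a * p = b * y := by
  cases ch with
  | false =>
    obtain ⟨ζ, h1, h2⟩ := holds_false h
    exact ⟨1, ζ, Bl.mem_one, h1, by rw [one_mul, h2]⟩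
  | true =>
    obtain ⟨ζ, h1, h2⟩ := holds_false (c := c) (r := r) (y := p) (p := y) h
    exact ⟨ζ, 1, h1, Bl.mem_one, by rw [one_mul, h2]⟩

/-- a_F p_F = b_F y_F and (conjugate, h1, h2) ā_G p_F = (2ν ā_G - b̄_G) y_F; the determinant of this system is
(b_F - ν a_F) ā_G + a_F conj(b_G - ν a_G) -/
theorem dtest_sound {a b : ℕ} {chF chG : Bool} {cF cG : CI} {rF rG : ℕ} {ν : ℝ} {yF pF yG pG : ℂ}
    (ha : (a : ℝ) ≤ 2 * ν) (hb : 2 * ν ≤ (b : ℝ)) (hF : Holds chF cF rF yF pF) (hG : Holds chG cG rG yG pG)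
    (h1 : yG = -conj yF) (h2 : pF - conj pG = 2 * ν * yF) (h : dtest a b chF cF rF chG cG rG = true) :
    yF = 0 ∧ pF = 0 ∧ pG = 0 := by
  obtain ⟨aF, bF, m1, m2, e1⟩ := holds_vec hF
  obtain ⟨aG, bG, m3, m4, e2⟩ := holds_vec hG
  simp only [dtest, frB_eq] at h
  have hν := nuB_mem ha hb
  have hd := (((m2.sub (hν.mul m1)).mul m3.cj).add (m1.mul (m4.sub (hν.mul m3)).cj)).ne0 h
  have e3 := congrArg conj e2
  rw [h1, map_mul, map_mul, map_neg, Complex.conj_conj] at e3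
  rw [map_sub, map_mul, Complex.conj_ofReal] at hd
  have hy : yF = 0 := by
    refine (mul_eq_zero.1 ?_).resolve_left hd
    linear_combination (-conj aG) * e1 + aF * e3 + aF * conj aG * h2
  have hp : pF = 0 := by
    refine (mul_eq_zero.1 ?_).resolve_left hd
    rw [hy] at e1 e3 h2
    linear_combination (conj bG - ν * conj aG) * e1 + (bF - ν * aF) * e3 +
      (bF - ν * aF) * conj aG * h2
  refine ⟨hy, hp, ?_⟩
  rw [hy, hp, mul_zero, zero_sub, neg_eq_zero, map_eq_zero] at h2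
  exact h2

end

end Crest.Agent.R086.N
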