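import Crest.Agent.R086.N.EA

open MeasureTheory Set Filter Topology Complex
open scoped ContDiff ComplexConjugate

namespace Crest.Agent.R086.N

noncomputable section

/-! # Soundness of the engine III: one step -/

private theorem eb_bil {S dk r a1 a2 a3 : ℝ} (hS : 0 < S) {A1 A2 A3 d e : ℂ} (hd : ‖d‖ ≤ dk / S)
    (he : ‖e‖ ≤ r / S) (h1 : ‖A1‖ ≤ a1) (h2 : ‖A2‖ ≤ a2) (h3 : ‖A3‖ ≤ a3) :
    ‖A1 * d + A2 * e + A3 * (d * e)‖ ≤ (S * dk * a1 + S * r * a2 + r * dk * a3) / S ^ 2 := by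
  have b1 : ‖A1 * d‖ ≤ a1 * (dk / S) := norm_mul_le_of_le h1 hd
  have b2 : ‖A2 * e‖ ≤ a2 * (r / S) := norm_mul_le_of_le h2 he
  have b3 : ‖A3 * (d * e)‖ ≤ a3 * (dk / S * (r / S)) := norm_mul_le_of_le h3 (norm_mul_le_of_le hd he)
  refine (norm_add₃_le.trans (add_le_add (add_le_add b1 b2) b3)).trans_eq ?_
  field_simp

private theorem eb_low {S dk r a0 a1 a2 a3 eD : ℝ} (hS : 0 < S) {D0 D1 D2 D3 d e u : ℂ}
    (hd : ‖d‖ ≤ dk / S) (he : ‖e‖ ≤ r / S) (h0 : a0 ≤ ‖D0‖) (h1 : ‖D1‖ ≤ a1) (h2 : ‖D2‖ ≤ a2)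
    (h3 : ‖D3‖ ≤ a3) (hu : ‖u - (D0 + D1 * d + D2 * e + D3 * (d * e)) / (S : ℂ) ^ 2‖ ≤ eD / S ^ 2) :
    (S * S * a0 - (S * dk * a1 + S * r * a2 + r * dk * a3 + S * S * eD)) / S ^ 4 ≤ ‖u‖ := by
  have b := eb_bil hS hd he h1 h2 h3
  have hS' : (S : ℂ) ≠ 0 := by exact_mod_cast hS.ne'
  have e1 : D0 = (S : ℂ) ^ 2 * u - (S : ℂ) ^ 2 * (u - (D0 + D1 * d + D2 * e + D3 * (d * e)) / (S : ℂ) ^ 2)
      - (D1 * d + D2 * e + D3 * (d * e)) := by
    field_simp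
    ring
  have hn : ‖(S : ℂ) ^ 2‖ = S ^ 2 := by rw [norm_pow, Complex.norm_real, Real.norm_of_nonneg hS.le]
  have b2 : ‖D0‖ ≤ S ^ 2 * ‖u‖ + S ^ 2 * (eD / S ^ 2)
      + (S * dk * a1 + S * r * a2 + r * dk * a3) / S ^ 2 := by
    rw [e1]
    refine (norm_sub_le _ _).trans (add_le_add ((norm_sub_le _ _).trans (add_le_add ?_ ?_)) b)
    · rw [norm_mul, hn]
    · exact norm_mul_le_of_le hn.le hu
  rw [div_le_iff₀ (by positivity)]
  have b3 := mul_le_mul_of_nonneg_left (h0.trans b2) (sq_nonneg S)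
  have e2 : S ^ 2 * (S ^ 2 * ‖u‖ + S ^ 2 * (eD / S ^ 2)
      + (S * dk * a1 + S * r * a2 + r * dk * a3) / S ^ 2)
      = ‖u‖ * S ^ 4 + (S * dk * a1 + S * r * a2 + r * dk * a3 + S * S * eD) := by
    field_simp
    ring
  rw [e2] at b3
  linarith

private theorem eb_up {S dk r a0 a1 a2 a3 ac eN eD : ℝ} (hS : 0 < S)
    {N0 N1 N2 N3 D0 D1 D2 D3 c d e n u : ℂ} (hd : ‖d‖ ≤ dk / S) (he : ‖e‖ ≤ r / S)
    (h0 : ‖S * N0 - c * D0‖ ≤ a0) (h1 : ‖S * N1 - c * D1‖ ≤ a1) (h2 : ‖S * N2 - c * D2‖ ≤ a2)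
    (h3 : ‖S * N3 - c * D3‖ ≤ a3) (hc : ‖c‖ ≤ ac)
    (hn : ‖n - (N0 + N1 * d + N2 * e + N3 * (d * e)) / (S : ℂ) ^ 2‖ ≤ eN / S ^ 2)
    (hu : ‖u - (D0 + D1 * d + D2 * e + D3 * (d * e)) / (S : ℂ) ^ 2‖ ≤ eD / S ^ 2) :
    ‖n - c / S * u‖ ≤ (S * S * a0 + S * dk * a1 + S * r * a2 + r * dk * a3 + S * (S * S) * eN
      + S * S * ac * eD) / S ^ 5 := by
  have b := eb_bil hS hd he h1 h2 h3
  have hS' : (S : ℂ) ≠ 0 := by exact_mod_cast hS.ne'
  have hn1 : ‖(S : ℂ)‖ = S := by rw [Complex.norm_real, Real.norm_of_nonneg hS.le]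
  have e1 : n - c / S * u = (n - (N0 + N1 * d + N2 * e + N3 * (d * e)) / (S : ℂ) ^ 2)
      - c / S * (u - (D0 + D1 * d + D2 * e + D3 * (d * e)) / (S : ℂ) ^ 2)
      + ((S * N0 - c * D0) + ((S * N1 - c * D1) * d + (S * N2 - c * D2) * e
        + (S * N3 - c * D3) * (d * e))) / (S : ℂ) ^ 3 := by
    field_simp
    ring
  have b1 : ‖c / S‖ ≤ ac / S := by
    rw [norm_div, hn1]
    exact div_le_div_of_nonneg_right hc hS.le
  have b2 : ‖((S * N0 - c * D0) + ((S * N1 - c * D1) * d + (S * N2 - c * D2) * e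
        + (S * N3 - c * D3) * (d * e))) / (S : ℂ) ^ 3‖
      ≤ (a0 + (S * dk * a1 + S * r * a2 + r * dk * a3) / S ^ 2) / S ^ 3 := by
    rw [norm_div, norm_pow, hn1]
    exact div_le_div_of_nonneg_right ((norm_add_le _ _).trans (add_le_add h0 b)) (by positivity)
  rw [e1]
  refine ((norm_add_le _ _).trans (add_le_add ((norm_sub_le _ _).trans
    (add_le_add hn (norm_mul_le_of_le b1 hu))) b2)).trans_eq ?_
  field_simp
  ring

/-- |u| ≥ (pos - neg)/SS⁴ > 0; for ANY c: n - (c/SS) u = Σ (N_i SS - c D_i)/SS³ · (1, d, e, de) + errors, of norm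
≤ num/SS⁵; `div_lt_succ` -/
theorem quot_sound {N0 N1 N2 N3 D0 D1 D2 D3 : CI} {eN eD dk r : ℕ} {K : CI → ℕ → Bool} {d e n u : ℂ}
    (hd : ‖d‖ ≤ (dk : ℝ) / SS) (he : ‖e‖ ≤ (r : ℝ) / SS)
    (hn : ‖n - (N0.toC + N1.toC * d + N2.toC * e + N3.toC * (d * e)) / (SS : ℂ) ^ 2‖ ≤ (eN : ℝ) / (SS : ℝ) ^ 2)
    (hu : ‖u - (D0.toC + D1.toC * d + D2.toC * e + D3.toC * (d * e)) / (SS : ℂ) ^ 2‖ ≤ (eD : ℝ) / (SS : ℝ) ^ 2)
    (h : quot N0 N1 N2 N3 eN D0 D1 D2 D3 eD dk r K = true) :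
    u ≠ 0 ∧ ∃ c r', K c r' = true ∧ ‖n - c.toC / SS * u‖ ≤ (r' : ℝ) / SS * ‖u‖ := by
  simp only [quot, frN_eq, frC_eq] at h
  generalize hpos : Nat.mul (Nat.mul SS SS) (absL D0) = pos at h
  generalize hneg : Nat.add (Nat.add (Nat.add (Nat.mul (Nat.mul SS dk) (absU D1))
    (Nat.mul (Nat.mul SS r) (absU D2))) (Nat.mul (Nat.mul r dk) (absU D3)))
    (Nat.mul (Nat.mul SS SS) eD) = neg at h
  generalize ((N0.mul D0.cj).sm SS).dv D0.nsq = c at h
  cases hb : Nat.ble pos neg with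
  | true => rw [hb] at h; exact absurd h (by simp)
  | false =>
    rw [hb] at h
    have hlt : neg < pos := by
      by_contra hc
      rw [Nat.ble_eq_true_of_le (not_lt.1 hc)] at hb
      exact absurd hb (by simp)
    have hS := SS_pos
    have hcast : ((SS : ℕ) : ℂ) = (((SS : ℕ) : ℝ) : ℂ) := (Complex.ofReal_natCast _).symm
    have hab : ∀ N D : CI, ‖(((SS : ℕ) : ℝ) : ℂ) * N.toC - c.toC * D.toC‖
        ≤ (absU ((N.sm SS).sub (c.mul D)) : ℝ) := fun N D => by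
      have := absU_ge ((N.sm SS).sub (c.mul D))
      rwa [toC_sub, toC_sm, toC_mul, hcast] at this
    rw [hcast] at hn hu
    have hlo := eb_low hS hd he (absL_le D0) (absU_ge D1) (absU_ge D2) (absU_ge D3) hu
    have hup := eb_up hS hd he (hab N0 D0) (hab N1 D1) (hab N2 D2) (hab N3 D3) (absU_ge c) hn hu
    have hq : ((Nat.sub pos neg : ℕ) : ℝ) = (SS : ℝ) * SS * (absL D0 : ℝ) - ((SS : ℝ) * dk * (absU D1 : ℝ)
        + (SS : ℝ) * r * (absU D2 : ℝ) + (r : ℝ) * dk * (absU D3 : ℝ) + (SS : ℝ) * SS * eD) := by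
      rw [Nat.sub_eq, Nat.cast_sub hlt.le, ← hpos, ← hneg]
      simp only [Nat.add_eq, Nat.mul_eq, Nat.cast_add, Nat.cast_mul]
    have hq0 : 0 < Nat.sub pos neg := Nat.sub_pos_of_lt hlt
    have hq1 : (0 : ℝ) < (Nat.sub pos neg : ℕ) := by exact_mod_cast hq0
    rw [← hq] at hlo
    refine ⟨norm_pos_iff.1 (lt_of_lt_of_le (by positivity) hlo), c, _, h, ?_⟩
    rw [hcast]
    refine hup.trans (le_trans (le_of_eq ?_) (mul_le_mul
      (div_le_div_of_nonneg_right (div_lt_succ _ hq0) hS.le) hlo (by positivity) (by positivity)))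
    simp only [Nat.add_eq, Nat.mul_eq, Nat.cast_add, Nat.cast_mul]
    field_simp

private theorem eb_div {x u w y p : ℂ} {t : ℝ} (hu : u ≠ 0) (hup : u * p = w * y)
    (h : ‖w - x * u‖ ≤ t * ‖u‖) : ‖p - x * y‖ ≤ t * ‖y‖ := by
  refine le_of_mul_le_mul_right ?_ (norm_pos_iff.2 hu)
  have e : (p - x * y) * u = (w - x * u) * y := by linear_combination hup
  rw [← norm_mul, e, norm_mul, mul_right_comm]
  exact mul_le_mul_of_nonneg_right h (norm_nonneg _)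

/-- out = false: (p - c y) u = (w - c u) y; out = true: (y - c p) w = (u - c w) p -/
theorem outq_sound {out : Bool} {U0 U1 U2 U3 W0 W1 W2 W3 : CI} {eU eW dk r : ℕ} {K : CI → ℕ → Bool}
    {d e u w y p : ℂ} (hd : ‖d‖ ≤ (dk : ℝ) / SS) (he : ‖e‖ ≤ (r : ℝ) / SS)
    (hu : ‖u - (U0.toC + U1.toC * d + U2.toC * e + U3.toC * (d * e)) / (SS : ℂ) ^ 2‖ ≤ (eU : ℝ) / (SS : ℝ) ^ 2)
    (hw : ‖w - (W0.toC + W1.toC * d + W2.toC * e + W3.toC * (d * e)) / (SS : ℂ) ^ 2‖ ≤ (eW : ℝ) / (SS : ℝ) ^ 2)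
    (hup : u * p = w * y) (h : outq out U0 U1 U2 U3 eU W0 W1 W2 W3 eW dk r K = true) :
    ∃ c r', K c r' = true ∧ Holds out c r' y p := by
  cases out with
  | false =>
    obtain ⟨h0, c, r', hK, h1⟩ := quot_sound hd he hw hu h
    exact ⟨c, r', hK, eb_div h0 hup h1⟩
  | true =>
    obtain ⟨h0, c, r', hK, h1⟩ := quot_sound hd he hu hw h
    exact ⟨c, r', hK, eb_div h0 hup.symm h1⟩

private theorem eb_ex {x Y P : ℂ} {t : ℝ} (ht : 0 ≤ t) (h : ‖P - x * Y‖ ≤ t * ‖Y‖) :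
    ∃ e : ℂ, ‖e‖ ≤ t ∧ P = (x + e) * Y := by
  by_cases hY : Y = 0
  · refine ⟨0, by simpa using ht, ?_⟩
    simpa [hY] using h
  · refine ⟨(P - x * Y) / Y, ?_, by field_simp; ring⟩
    rwa [norm_div, div_le_iff₀ (norm_pos_iff.2 hY)]

/-- there is e, |e| ≤ r/SS, with a P = b Y, (a,b) = (1, c/SS+e) (chart false) or (c/SS+e, 1) (chart true); then
u p = w y for u = k' a + b, w = W' a + k' b.  The errors are ε_k a and ε_W a + ε_k b, |c/SS+e| ≤ B/SS. -/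
theorem step_sound {ch out : Bool} {c kq W : CI} {r rho dk ek eW : ℕ} {K : CI → ℕ → Bool}
    {k' W' d y p Y P : ℂ} (hd : ‖d‖ ≤ (dk : ℝ) / SS) (hk : ‖k' - (kq.toC / SS + d)‖ ≤ (ek : ℝ) / SS)
    (hW : ‖W' - (W.toC / SS + I * (rho : ℂ) / SS * d)‖ ≤ (eW : ℝ) / SS)
    (hY : Y = p - k' * y) (hP : P = W' * y - k' * p) (hH : Holds ch c r Y P)
    (h : step ch c r kq W rho dk ek eW out K = true) :
    ∃ c' r', K c' r' = true ∧ Holds out c' r' y p := by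
  have hS := SS_pos
  have hS' := SS_ne
  obtain ⟨εk, hεk⟩ : ∃ x, k' = kq.toC / SS + d + x := ⟨k' - (kq.toC / SS + d), by ring⟩
  obtain ⟨εW, hεW⟩ : ∃ x, W' = W.toC / SS + I * (rho : ℂ) / SS * d + x :=
    ⟨W' - (W.toC / SS + I * (rho : ℂ) / SS * d), by ring⟩
  rw [hεk, add_sub_cancel_left] at hk
  rw [hεW, add_sub_cancel_left] at hW
  have hB : ∀ e : ℂ, ‖e‖ ≤ (r : ℝ) / SS → ‖c.toC / SS + e‖ ≤ ((absU c : ℝ) + r) / SS := by
    intro e he
    rw [add_div]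
    refine (norm_add_le _ _).trans (add_le_add ?_ he)
    rw [norm_div, Complex.norm_natCast]
    exact div_le_div_of_nonneg_right (absU_ge c) hS.le
  simp only [step, frN_eq, frC_eq] at h
  cases ch with
  | false =>
    obtain ⟨e, he, hPe⟩ := eb_ex (by positivity) hH
    refine outq_sound (u := k' + (c.toC / SS + e)) (w := W' + k' * (c.toC / SS + e)) hd he ?_ ?_ ?_ h
    · simp only [toC_sm, toC_add, toC_ofN, Nat.mul_eq, Nat.cast_mul, Nat.cast_zero]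
      refine le_trans (le_of_eq (congrArg norm ?_)) (hk.trans_eq ?_)
      · rw [hεk]
        field_simp
        ring
      · field_simp
    · simp only [toC_sm, toC_add, toC_mul, toC_ofN, toC_iN, Nat.mul_eq, Nat.add_eq, Nat.cast_mul,
        Nat.cast_add]
      refine le_trans (le_of_eq (congrArg norm ?_)) (((norm_add_le εW (εk * (c.toC / SS + e))).trans
        (add_le_add hW (norm_mul_le_of_le hk (hB e he)))).trans_eq ?_)
      · rw [hεk, hεW]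
        field_simp
        ring
      · field_simp
    · rw [hY, hP] at hPe
      linear_combination -hPe
  | true =>
    obtain ⟨e, he, hPe⟩ := eb_ex (by positivity) hH
    refine outq_sound (u := k' * (c.toC / SS + e) + 1) (w := W' * (c.toC / SS + e) + k') hd he
      ?_ ?_ ?_ h
    · simp only [toC_sm, toC_add, toC_mul, toC_ofN, Nat.mul_eq, Nat.add_eq, Nat.cast_mul, Nat.cast_add]
      refine le_trans (le_of_eq (congrArg norm ?_)) ((norm_mul_le_of_le hk (hB e he)).trans_eq ?_)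
      · rw [hεk]
        field_simp
        ring
      · field_simp
    · simp only [toC_sm, toC_add, toC_mul, toC_ofN, toC_iN, Nat.mul_eq, Nat.add_eq, Nat.cast_mul,
        Nat.cast_add]
      refine le_trans (le_of_eq (congrArg norm ?_)) (((norm_add_le (εW * (c.toC / SS + e)) εk).trans
        (add_le_add (norm_mul_le_of_le hW (hB e he)) hk)).trans_eq ?_)
      · rw [hεk, hεW]
        field_simp
        ring
      · field_simp
    · rw [hY, hP] at hPe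
      linear_combination hPe

end

end Crest.Agent.R086.N
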