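import Crest.Agent.R086.N.EA2
import Crest.Agent.R086.N.EB

open MeasureTheory Set Filter Topology Complex
open scoped ContDiff ComplexConjugate

namespace Crest.Agent.R086.N

noncomputable section

/-! # Soundness of the engine IV: a run -/

variable {P : Pm} {ν ρ : ℝ} {k : ℂ}

theorem EC_div_le (x : ℕ) {n : ℕ} (_hn : 0 < n) : ((Nat.div x n : ℕ) : ℝ) ≤ (x : ℝ) / n :=
  Nat.cast_div_le

theorem EC_le_div (x : ℕ) {n : ℕ} (hn : 0 < n) : (x : ℝ) / n ≤ ((Nat.div x n : ℕ) : ℝ) + 1 := by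
  have := div_lt_succ x hn
  rwa [Nat.cast_succ] at this

theorem EC_SSpos : 0 < SS := by unfold SS; norm_num

theorem EC_nr {x b : ℝ} (h : |x| ≤ b) : ‖(x : ℂ)‖ ≤ b := by
  rwa [norm_real, Real.norm_eq_abs]

theorem EC_le {z w : ℂ} {b : ℝ} (h : ‖z‖ ≤ b) (e : w = z) : ‖w‖ ≤ b := e ▸ h

theorem Pm.In.kq_err (h : P.In ν ρ k) :
    ‖kp k ρ - (P.kq.toC / SS + (k - P.k0.toC / SS))‖ ≤ (P.ek : ℝ) / SS := by
  have hS := SS_pos
  have hc := SS_ne
  have e : kp k ρ - (P.kq.toC / SS + (k - P.k0.toC / SS)) =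
      I * ((ρ / 2 - ((Nat.div P.rho 2 : ℕ) : ℝ) / SS : ℝ) : ℂ) := by
    simp only [kp, Pm.kq, toC_add, toC_iN]
    push_cast
    field_simp
    ring
  have h1 := EC_div_le P.rho (n := 2) (by norm_num)
  have h2 := EC_le_div P.rho (n := 2) (by norm_num)
  have h3 := EC_le_div P.drho (n := 2) (by norm_num)
  have h4 := h.hr
  rw [e, norm_mul, norm_I, one_mul, norm_real, Real.norm_eq_abs, Pm.ek, Nat.add_eq]
  have e2 : ρ - (P.rho : ℝ) / SS = (SS * ρ - P.rho) / SS := by field_simp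
  have e3 : ρ / 2 - ((Nat.div P.rho 2 : ℕ) : ℝ) / SS =
      (SS * ρ / 2 - ((Nat.div P.rho 2 : ℕ) : ℝ)) / SS := by field_simp
  rw [e2, abs_div, abs_of_pos hS, div_le_div_iff_of_pos_right hS, abs_le] at h4
  rw [e3, abs_div, abs_of_pos hS, div_le_div_iff_of_pos_right hS, abs_le]
  push_cast at h1 h2 h3 ⊢
  constructor <;> linarith [h4.1, h4.2]

/-- ν² ∈ (a²+b²)/8 ± (b²-a²)/8 (137438953472 = SS/8); ρ = ρ₀ + δ: ρ²/4 = ρ₀²/4 + δ(ρ₀/2 + δ/4),
iρk = iρ₀k₀ + iρ₀d + iδ(k₀ + d); roundings 1 + 2 + 1 ≤ 5 -/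
theorem Pm.In.W0_err (h : P.In ν ρ k) :
    ‖Wg ν k ρ - (P.W0.toC / SS + I * (P.rho : ℂ) / SS * (k - P.k0.toC / SS))‖ ≤ (P.eW0 : ℝ) / SS := by
  have hS := SS_pos
  have hc := SS_ne
  have hab : P.a ≤ P.b := by exact_mod_cast h.ha.trans h.hb
  obtain ⟨δ, hδ⟩ : ∃ δ : ℝ, δ = ρ - (P.rho : ℝ) / SS := ⟨_, rfl⟩
  obtain ⟨d, hd⟩ : ∃ d : ℂ, d = k - P.k0.toC / SS := ⟨_, rfl⟩
  obtain ⟨q, hq⟩ : ∃ q : ℕ, q = Nat.div (Nat.mul P.rho P.rho) (Nat.mul 4 SS) := ⟨_, rfl⟩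
  obtain ⟨w, hw⟩ : ∃ w : CI, w = ((CI.iN P.rho).mul P.k0).dv SS := ⟨_, rfl⟩
  have hρ : ρ = δ + (P.rho : ℝ) / SS := by rw [hδ]; ring
  have hk : k = d + P.k0.toC / SS := by rw [hd]; ring
  have S8 : (137438953472 : ℂ) = (SS : ℂ) / 8 := by unfold SS; norm_num
  have S8' : (137438953472 : ℝ) = (SS : ℝ) / 8 := by unfold SS; norm_num
  have e : Wg ν k ρ - (P.W0.toC / SS + I * (P.rho : ℂ) / SS * (k - P.k0.toC / SS)) =
      ((ν ^ 2 - ((P.a : ℝ) ^ 2 + (P.b : ℝ) ^ 2) / 8 : ℝ) : ℂ) -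
        ((((P.rho : ℝ) * P.rho / (4 * SS) - q) / SS : ℝ) : ℂ) -
        ((δ * ((P.rho : ℝ) / SS / 2 + δ / 4) : ℝ) : ℂ) -
        (w.toC - ((CI.iN P.rho).mul P.k0).toC / SS) / SS + I * δ * (P.k0.toC / SS + d) := by
    rw [← hd, Pm.W0, ← hq, ← hw]
    simp only [Wg, toC_add, toC_sub, toC_ofN, toC_mul, toC_iN, Nat.add_eq, Nat.mul_eq]
    rw [hρ, hk]
    push_cast
    rw [S8]
    field_simp
    ring
  have b1 : |ν ^ 2 - ((P.a : ℝ) ^ 2 + (P.b : ℝ) ^ 2) / 8| ≤ ((P.b : ℝ) ^ 2 - (P.a : ℝ) ^ 2) / 8 := by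
    have a0 : (0 : ℝ) ≤ P.a := Nat.cast_nonneg _
    have t1 := pow_le_pow_left₀ a0 h.ha 2
    have t2 := pow_le_pow_left₀ (a0.trans h.ha) h.hb 2
    rw [abs_le]
    constructor <;> nlinarith
  have b2 : |((P.rho : ℝ) * P.rho / (4 * SS) - q) / SS| ≤ 1 / SS := by
    have h4 : 0 < Nat.mul 4 SS := Nat.mul_pos (by norm_num) EC_SSpos
    have h1 := EC_div_le (Nat.mul P.rho P.rho) h4
    have h2 := EC_le_div (Nat.mul P.rho P.rho) h4
    rw [← hq] at h1 h2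
    simp only [Nat.mul_eq] at h1 h2
    push_cast at h1 h2
    rw [abs_div, abs_of_pos hS, div_le_div_iff_of_pos_right hS, abs_le]
    constructor <;> linarith
  have bδ : |δ| ≤ (P.drho : ℝ) / SS := hδ ▸ h.hr
  have bd : ‖d‖ ≤ (P.dk : ℝ) / SS := hd ▸ h.hk
  have b3 : |δ * ((P.rho : ℝ) / SS / 2 + δ / 4)| ≤
      (P.drho : ℝ) / SS * ((P.rho : ℝ) / SS + (P.drho : ℝ) / SS) := by
    rw [abs_mul]
    refine mul_le_mul bδ ?_ (abs_nonneg _) (by positivity)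
    have t1 : (0 : ℝ) ≤ (P.rho : ℝ) / SS := by positivity
    have t2 : (0 : ℝ) ≤ (P.drho : ℝ) / SS := by positivity
    rw [abs_le] at bδ ⊢
    constructor <;> linarith [bδ.1, bδ.2]
  have b4 : ‖(w.toC - ((CI.iN P.rho).mul P.k0).toC / SS) / SS‖ ≤ 2 / SS := by
    rw [norm_div, Complex.norm_natCast, div_le_div_iff_of_pos_right hS, hw]
    exact dv_err _ EC_SSpos
  have b5 : ‖I * δ * (P.k0.toC / SS + d)‖ ≤
      (P.drho : ℝ) / SS * ((absU P.k0 : ℝ) / SS + (P.dk : ℝ) / SS) := by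
    rw [norm_mul, norm_mul, norm_I, one_mul, norm_real, Real.norm_eq_abs]
    refine mul_le_mul bδ ((norm_add_le _ _).trans (add_le_add ?_ bd)) (norm_nonneg _) (by positivity)
    rw [norm_div, Complex.norm_natCast, div_le_div_iff_of_pos_right hS]
    exact absU_ge _
  have b6 := EC_le_div (Nat.mul P.drho (Nat.add (Nat.add (Nat.add P.rho P.drho) (absU P.k0)) P.dk))
    EC_SSpos
  rw [e, Pm.eW0]
  generalize Nat.div (Nat.mul P.drho (Nat.add (Nat.add (Nat.add P.rho P.drho) (absU P.k0)) P.dk)) SS = u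
    at b6 ⊢
  simp only [Nat.add_eq, Nat.mul_eq, Nat.sub_eq] at b6 ⊢
  refine ((norm_add_le _ _).trans (add_le_add ((norm_sub_le _ _).trans (add_le_add
    ((norm_sub_le _ _).trans (add_le_add ((norm_sub_le _ _).trans (add_le_add (EC_nr b1) (EC_nr b2)))
      (EC_nr b3))) b4)) b5)).trans ?_
  push_cast [Nat.cast_sub (Nat.mul_le_mul hab hab)] at b6 ⊢
  have b7 := div_le_div_of_nonneg_right b6 hS.le
  rw [S8']
  have t1 : (0 : ℝ) < 1 / SS := by positivity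
  have e1 : (((P.b : ℝ) * P.b - P.a * P.a) * (SS / 8) + u + 5) / SS =
    ((P.b : ℝ) ^ 2 - (P.a : ℝ) ^ 2) / 8 + (u + 1) / SS + 4 * (1 / SS) := by field_simp; ring
  have e2 : (P.drho : ℝ) * (P.rho + P.drho + absU P.k0 + P.dk) / SS / SS =
    (P.drho : ℝ) / SS * ((P.rho : ℝ) / SS + (P.drho : ℝ) / SS) +
      (P.drho : ℝ) / SS * ((absU P.k0 : ℝ) / SS + (P.dk : ℝ) / SS) := by field_simp; ring
  have e3 : (2 : ℝ) / SS = 2 * (1 / SS) := by ring
  rw [e1, e3]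
  rw [e2] at b7
  linarith

theorem Pm.In.mem_k (h : P.In ν ρ k) : (⟨P.k0, P.dk⟩ : Bl).Mem k := by
  exact h.hk
theorem Pm.In.mem_kp0 (h : P.In ν ρ k) : (⟨P.kq, Nat.add P.dk P.ek⟩ : Bl).Mem (kp k ρ) := by
  have := (norm_add_le _ _).trans (add_le_add h.hk h.kq_err)
  simp only [Bl.Mem, Nat.add_eq]
  push_cast
  rw [add_div]
  exact EC_le this (by ring)
theorem Pm.In.mem_kp (h : P.In ν ρ k) (j : ℕ) :
    (⟨P.kq.sub (CI.ofN (Nat.mul j SS)), Nat.add P.dk P.ek⟩ : Bl).Mem (kp (k - j) ρ) := by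
  have := h.mem_kp0
  have hc := SS_ne
  simp only [Bl.Mem, toC_sub, toC_ofN, Nat.mul_eq] at this ⊢
  convert this using 2
  simp only [kp]
  push_cast
  field_simp
  ring
theorem Pm.In.mem_rho (h : P.In ν ρ k) : (⟨CI.iN P.rho, P.drho⟩ : Bl).Mem (I * ρ) := by
  have e : I * ρ - (CI.iN P.rho).toC / SS = I * ((ρ - (P.rho : ℝ) / SS : ℝ) : ℂ) := by
    rw [toC_iN]
    push_cast
    ring
  simp only [Bl.Mem]
  rw [e, norm_mul, norm_I, one_mul, norm_real, Real.norm_eq_abs]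
  exact h.hr

/-- `step_sound` with d = k - k₀; kp (k-j) = kp k - j, Wg (k-j) = Wg k - iρj -/
theorem stepJ_sound (h : P.In ν ρ k) {j : ℕ} {ch out : Bool} {c : CI} {r : ℕ} {K : CI → ℕ → Bool}
    {y p Y Q : ℂ} (hY : Y = p - kp (k - j) ρ * y) (hQ : Q = Wg ν (k - j) ρ * y - kp (k - j) ρ * p)
    (hH : Holds ch c r Y Q)
    (hs : stepJ P.kq P.W0 P.rho P.drho P.dk P.ek P.eW0 j ch c r out K = true) :
    ∃ c' r', K c' r' = true ∧ Holds out c' r' y p := by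
  have hc := SS_ne
  simp only [stepJ, frC_eq, frN_eq] at hs
  refine step_sound (d := k - P.k0.toC / SS) h.hk ?_ ?_ hY hQ hH hs
  · convert h.kq_err using 2
    simp only [kp, toC_sub, toC_ofN, Nat.mul_eq]
    push_cast
    field_simp
    ring
  · have h1 : ‖(j : ℂ) * (I * ρ - (CI.iN P.rho).toC / SS)‖ ≤ j * ((P.drho : ℝ) / SS) := by
      rw [norm_mul, Complex.norm_natCast]
      exact mul_le_mul_of_nonneg_left h.mem_rho (Nat.cast_nonneg _)
    have := (norm_sub_le _ _).trans (add_le_add h.W0_err h1)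
    simp only [Nat.add_eq, Nat.mul_eq]
    push_cast
    rw [add_div, mul_div_assoc (j : ℝ)]
    refine EC_le this ?_
    simp only [Wg, toC_sub, toC_iN]
    push_cast
    field_simp
    ring

/-- p_N - k'_N y_N = y_{N+1} and `disc`; |ν + k - N| ≤ |k₀ + (a+b)/4 - N| + (b-a)/4 + dk, `mem_kp` -/
theorem start_sound (h : P.In ν ρ k) {y p : ℕ → ℂ} (hD : Dat ν ρ k y p) {N : ℕ} (hN : 4 ≤ N) :
    Holds false (P.kq.sub (CI.ofN (Nat.mul N SS))) (P.r0 N) (y N) (p N) := by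
  have hc := SS_ne
  have hS := SS_pos
  have h1 := h.mem_kp N
  have h2 := nuB_mem h.ha h.hb
  have h3 := absU_ge ((P.k0.add (CI.ofN (Nat.mul (Nat.add P.a P.b) 274877906944))).sub
    (CI.ofN (Nat.mul N SS)))
  have h4 : ‖(ν : ℂ) + (k - N)‖ ≤ ((absU ((P.k0.add (CI.ofN (Nat.mul (Nat.add P.a P.b) 274877906944))).sub
      (CI.ofN (Nat.mul N SS))) : ℕ) : ℝ) / SS + ((Nat.mul (Nat.sub P.b P.a) 274877906944 : ℕ) : ℝ) / SS +
      (P.dk : ℝ) / SS := by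
    have h5 := div_le_div_of_nonneg_right h3 hS.le
    rw [← Complex.norm_natCast SS, ← norm_div, Complex.norm_natCast SS] at h5
    have := (norm_add_le _ _).trans (add_le_add ((norm_add_le _ _).trans (add_le_add h5 h2)) h.hk)
    refine EC_le this ?_
    simp only [nuB, toC_add, toC_sub, toC_ofN, Nat.mul_eq]
    push_cast
    field_simp
    ring
  show ‖p N - (P.kq.sub (CI.ofN (Nat.mul N SS))).toC / SS * y N‖ ≤ (P.r0 N : ℝ) / SS * ‖y N‖
  have e : p N - (P.kq.sub (CI.ofN (Nat.mul N SS))).toC / SS * y N =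
      y (N + 1) + (kp (k - N) ρ - (P.kq.sub (CI.ofN (Nat.mul N SS))).toC / SS) * y N := by
    rw [hD.lad1]
    ring
  rw [e]
  refine (norm_add_le _ _).trans ?_
  rw [norm_mul]
  refine (add_le_add ((hD.disc N hN).trans (mul_le_mul_of_nonneg_right h4 (norm_nonneg _)))
    (mul_le_mul_of_nonneg_right h1 (norm_nonneg _))).trans (le_of_eq ?_)
  rw [Pm.r0]
  generalize absU ((P.k0.add (CI.ofN (Nat.mul (Nat.add P.a P.b) 274877906944))).sub
    (CI.ofN (Nat.mul N SS))) = u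
  generalize Nat.mul (Nat.sub P.b P.a) 274877906944 = v
  simp only [Nat.add_eq, Nat.mul_eq]
  push_cast
  ring

/-- induction on n -/
theorem loop_sound (h : P.In ν ρ k) {y p : ℕ → ℂ} (hD : Dat ν ρ k y p) {mask : ℕ} {K : Bool → CI → ℕ → Bool}
    (n : ℕ) (ch : Bool) (c : CI) (r : ℕ) (hH : Holds ch c r (y n) (p n))
    (hs : loop P.kq P.W0 P.rho P.drho P.dk P.ek P.eW0 mask K n ch c r = true) :
    ∃ ch' c' r', K ch' c' r' = true ∧ Holds ch' c' r' (y 0) (p 0) := by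
  induction n generalizing ch c r with
  | zero => exact ⟨ch, c, r, hs, hH⟩
  | succ n ih =>
    have hs' : Bool.rec
        (stepJ P.kq P.W0 P.rho P.drho P.dk P.ek P.eW0 n ch c r false
          (loop P.kq P.W0 P.rho P.drho P.dk P.ek P.eW0 mask K n false))
        (stepJ P.kq P.W0 P.rho P.drho P.dk P.ek P.eW0 n ch c r true
          (loop P.kq P.W0 P.rho P.drho P.dk P.ek P.eW0 mask K n true)) (bit mask n) = true := by
      refine Eq.trans ?_ hs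
      exact (frN_eq (α := Bool) n fun j' => Bool.rec (motive := fun _ => Bool)
        (stepJ P.kq P.W0 P.rho P.drho P.dk P.ek P.eW0 j' ch c r false
          (loop P.kq P.W0 P.rho P.drho P.dk P.ek P.eW0 mask K n false))
        (stepJ P.kq P.W0 P.rho P.drho P.dk P.ek P.eW0 j' ch c r true
          (loop P.kq P.W0 P.rho P.drho P.dk P.ek P.eW0 mask K n true)) (bit mask j')).symm
    cases hb : bit mask n <;> rw [hb] at hs'
    · obtain ⟨c', r', h1, h2⟩ := stepJ_sound h (hD.lad1 n) (hD.lad2 n) hH hs'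
      exact ih _ _ _ h2 h1
    · obtain ⟨c', r', h1, h2⟩ := stepJ_sound h (hD.lad1 n) (hD.lad2 n) hH hs'
      exact ih _ _ _ h2 h1

theorem run_sound (h : P.In ν ρ k) {y p : ℕ → ℂ} (hD : Dat ν ρ k y p) {N mask : ℕ} {K : Bool → CI → ℕ → Bool}
    (hs : run P N mask K = true) : ∃ ch c r, K ch c r = true ∧ Holds ch c r (y 0) (p 0) := by
  simp only [run, frC_eq, frN_eq, Bool.and_eq_true, Nat.ble_eq] at hs
  exact loop_sound h hD N false _ _ (start_sound h hD hs.1.1) hs.2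

end

end Crest.Agent.R086.N
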