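import Crest.Agent.R086.N.Alg

open MeasureTheory Set Filter Topology Complex
open scoped ContDiff ComplexConjugate

namespace Crest.Agent.R086.N

noncomputable section

/-! # The non-compact region, and the symmetry τ ↦ -τ -/

theorem Far_ev {ν ρ : ℝ} {k : ℂ} {y p : ℕ → ℂ} (h : Dat ν ρ k y p) (hk : k.re ≤ 5 / 2)
    (hA : 3.7 * |k.im| + 62 ≤ ν ^ 2) :
    (conj (y 0) * p 0).re ≤ 20 / 3 * ‖y 0‖ ^ 2 ∧ (y 0 = 0 → p 0 = 0) := by
  have := step_re' (h.lad1 0) (h.lad2 0) (κ := 4) (g := 5 / 2) (by simpa using hk) (by norm_num)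
    (by norm_num) (h.evN hA)
  rwa [show (5 / 2 * 4 / (4 - 5 / 2) : ℝ) = 20 / 3 by norm_num] at this

theorem Far_im {ν ρ : ℝ} {k : ℂ} {y p : ℕ → ℂ} (h : Dat ν ρ k y p) (j : ℕ) {V μ' μ : ℝ} (hV : 0 < V)
    (h1 : -μ' * ‖y (j + 1)‖ ^ 2 ≤ (conj (y (j + 1)) * p (j + 1)).im) (h2 : V + μ' ≤ k.im + ρ / 2)
    (hμ : ν ^ 2 + k.im ^ 2 ≤ V * (μ + (k.im + ρ / 2))) :
    -μ * ‖y j‖ ^ 2 ≤ (conj (y j) * p j).im ∧ (y j = 0 → p j = 0) := by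
  have e : (k - j).im = k.im := by simp
  refine step_im (h.lad1 j) (h.lad2 j) hV (le_trans ?_ h1) (by rwa [e])
  rw [e]
  exact mul_le_mul_of_nonneg_right (by linarith) (by positivity)

theorem Far_re {ν ρ : ℝ} {k : ℂ} {y p : ℕ → ℂ} (h : Dat ν ρ k y p) (j : ℕ) {V μ' δ' δ g : ℝ} (hV : 0 < V)
    (hν : 5 / 2 ≤ ν) (hk : k.re - j ≤ g) (hg : 0 < g) (hg' : g ≤ 5 / 2) (hT : 0 ≤ k.im) (hδ' : 0 ≤ δ')
    (hδ : g ≤ δ)
    (h1 : -μ' * ‖y (j + 1)‖ ^ 2 ≤ (conj (y (j + 1)) * p (j + 1)).im) (h2 : V + μ' ≤ k.im + ρ / 2)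
    (h3 : (conj (y (j + 1)) * p (j + 1)).re ≤ δ' * ‖y (j + 1)‖ ^ 2)
    (b0 : δ' * (ν ^ 2 + k.im ^ 2) ≤ δ * V ^ 2)
    (b1 : (δ' + g) * (ν ^ 2 + k.im ^ 2) - 2 * g * k.im * V ≤ (δ - g) * V ^ 2) :
    (conj (y j) * p j).re ≤ δ * ‖y j‖ ^ 2 := by
  rcases lt_or_ge (k.re - j) 0 with h0 | h0
  · exact (re_nonpos (by linarith) h.lad1 h.lad2 h.disc h0).trans
      (mul_nonneg (by linarith) (by positivity))
  have e : (k - j).im = k.im := by simp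
  have e' : (k - j).re = k.re - j := by simp
  refine step_osc (h.lad1 j) (h.lad2 j) hV (by rwa [e']) (by rw [e']; linarith) (by rwa [e]) hδ'
    (by rw [e']; linarith) (le_trans ?_ h1) h3 ?_
  · rw [e]
    exact mul_le_mul_of_nonneg_right (by linarith) (by positivity)
  · rw [e, e']
    refine le_of_mul_le_mul_left ?_ hg
    nlinarith [mul_le_mul_of_nonneg_left b0 (sub_nonneg.2 hk), mul_le_mul_of_nonneg_left b1 h0]

theorem Far_re3 {ν ρ : ℝ} {k : ℂ} {y p : ℕ → ℂ} (h : Dat ν ρ k y p) (hν : 5 / 2 ≤ ν) (hk : k.re ≤ 5 / 2) :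
    (conj (y 3) * p 3).re ≤ 0 * ‖y 3‖ ^ 2 := by
  rw [zero_mul]
  exact re_nonpos (by linarith) h.lad1 h.lad2 h.disc (by push_cast; linarith)

theorem Far_swap {ν σ τ b ρ : ℝ} {yF pF yG pG : ℕ → ℂ} (h : Md ν σ τ b ρ yF pF yG pG)
    (h' : yG 0 = 0 ∧ pG 0 = 0 ∧ pF 0 = 0) : yF 0 = 0 ∧ pF 0 = 0 ∧ pG 0 = 0 :=
  ⟨by simpa [h'.1] using h.h1, h'.2.2, h'.2.1⟩

/-- both sides evanescent: `evN`, `step_re'` (g = 5/2, κ = 4) gives δ = 20/3 < ν -/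
theorem far_ev {ν σ τ b ρ : ℝ} {yF pF yG pG : ℕ → ℂ} (hb : Box b ρ) (h0 : 0 ≤ σ) (hν : 0 < ν)
    (h : Md ν σ τ b ρ yF pF yG pG) (hA : 3.7 * (|τ| + 0.335) + 62 ≤ ν ^ 2) :
    yF 0 = 0 ∧ pF 0 = 0 ∧ pG 0 = 0 := by
  obtain ⟨⟨hb0, hb1⟩, -⟩ := hb
  have h1 := le_abs_self τ
  have h2 := neg_abs_le τ
  have hF := Far_ev h.dF (by rw [kk_re]; linarith) (by
    rw [kk_im]
    have : |b - τ| ≤ |τ| + 0.335 := abs_le.2 ⟨by linarith, by linarith⟩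
    linarith)
  have hG := Far_ev h.dG (by rw [kk_re]; linarith) (by
    rw [kk_im]
    have : |b - -τ| ≤ |τ| + 0.335 := abs_le.2 ⟨by linarith, by linarith⟩
    linarith)
  exact h.zero_of_re hF.1 hG.1 (by nlinarith [abs_nonneg τ]) hG.2

/-- Oscillatory side, T = k.im, s = T + ρ/2 ∈ [T+1.35, T+1.36], case ν² ≤ 2.7 T: `step_im` with V = s, μ = 0 from level 4
down to 0; real parts δ₃ = 0 (`re_nonpos`), δ₂ = 1/2, δ₁ = 3/2, δ₀ = 5/2 by `step_osc` when Re(k-j) ≥ 0 (the condition is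
linear in g = Re(k-j) ∈ [0, g_max]) and by `re_nonpos` when Re(k-j) < 0. -/
theorem osc_small {ν ρ : ℝ} {k : ℂ} {y p : ℕ → ℂ} (h : Dat ν ρ k y p) (hν : 5 / 2 ≤ ν) (hk : k.re ≤ 5 / 2)
    (hρ : ρ ∈ Icc (2.7 : ℝ) 2.71) (hT : 30 ≤ k.im) (hs : ν ^ 2 ≤ 2.7 * k.im) :
    (conj (y 0) * p 0).re ≤ 5 / 2 * ‖y 0‖ ^ 2 ∧ (y 0 = 0 → p 0 = 0) := by
  obtain ⟨hρ0, hρ1⟩ := hρ
  obtain ⟨V, hV⟩ : ∃ V, V = k.im + 1.35 := ⟨_, rfl⟩
  have hV0 : 0 < V := by linarith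
  have hB : ν ^ 2 + k.im ^ 2 ≤ V ^ 2 := by rw [hV]; nlinarith
  have h2 : V + 0 ≤ k.im + ρ / 2 := by linarith
  have hμ : ν ^ 2 + k.im ^ 2 ≤ V * (0 + (k.im + ρ / 2)) := by nlinarith
  have i4 : -0 * ‖y 4‖ ^ 2 ≤ (conj (y 4) * p 4).im := by simpa using h.flux 4 le_rfl
  have i3 := (Far_im h 3 hV0 i4 h2 hμ).1
  have i2 := (Far_im h 2 hV0 i3 h2 hμ).1
  have i1 := (Far_im h 1 hV0 i2 h2 hμ).1
  have r2 := Far_re h 2 (δ := 1 / 2) (g := 1 / 2) hV0 hν (by push_cast; linarith) (by norm_num)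
    (by norm_num) (by linarith) le_rfl le_rfl i3 h2 (Far_re3 h hν hk) (by nlinarith) (by nlinarith)
  have r1 := Far_re h 1 (δ := 3 / 2) (g := 3 / 2) hV0 hν (by push_cast; linarith) (by norm_num)
    (by norm_num) (by linarith) (by norm_num) le_rfl i2 h2 r2 (by nlinarith) (by nlinarith)
  exact ⟨Far_re h 0 (δ := 5 / 2) (g := 5 / 2) hV0 hν (by push_cast; linarith) (by norm_num)
    (by norm_num) (by linarith) (by norm_num) le_rfl i1 h2 r1 (by nlinarith) (by nlinarith),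
    (Far_im h 0 hV0 i1 h2 hμ).2⟩

/-- case ν² ≤ 3.7 T + 63: μ₃ = 3, μ₂ = 7, μ₁ = 13.5 with V = T+1.35, T-1.65, T-5.65 (steps 4→3, 3→2, 2→1) and V = T-12.15 (1→0);
δ₂ = 1/2, δ₁ = 3/2, δ₀ = 9 -/
theorem osc_big {ν ρ : ℝ} {k : ℂ} {y p : ℕ → ℂ} (h : Dat ν ρ k y p) (hν : 5 / 2 ≤ ν) (hk : k.re ≤ 5 / 2)
    (hρ : ρ ∈ Icc (2.7 : ℝ) 2.71) (hT : 30 ≤ k.im) (hs : ν ^ 2 ≤ 3.7 * k.im + 63) :
    (conj (y 0) * p 0).re ≤ 9 * ‖y 0‖ ^ 2 ∧ (y 0 = 0 → p 0 = 0) := by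
  obtain ⟨hρ0, hρ1⟩ := hρ
  have i4 : -0 * ‖y 4‖ ^ 2 ≤ (conj (y 4) * p 4).im := by simpa using h.flux 4 le_rfl
  have i3 := (Far_im h 3 (V := k.im + 1.35) (μ := 3) (by linarith) i4 (by linarith) (by nlinarith)).1
  have i2 := (Far_im h 2 (V := k.im - 1.65) (μ := 7) (by linarith) i3 (by linarith) (by nlinarith)).1
  have i1 := (Far_im h 1 (V := k.im - 5.65) (μ := 13.5) (by linarith) i2 (by linarith) (by nlinarith)).1
  have r2 := Far_re h 2 (V := k.im - 1.65) (δ := 1 / 2) (g := 1 / 2) (by linarith) hν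
    (by push_cast; linarith) (by norm_num) (by norm_num) (by linarith) le_rfl le_rfl i3 (by linarith)
    (Far_re3 h hν hk) (by nlinarith) (by nlinarith)
  have r1 := Far_re h 1 (V := k.im - 5.65) (δ := 3 / 2) (g := 3 / 2) (by linarith) hν
    (by push_cast; linarith) (by norm_num) (by norm_num) (by linarith) (by norm_num) le_rfl i2
    (by linarith) r2 (by nlinarith) (by nlinarith)
  exact ⟨Far_re h 0 (V := k.im - 12.15) (δ := 9) (g := 5 / 2) (by linarith) hν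
    (by push_cast; linarith) (by norm_num) (by norm_num) (by linarith) (by norm_num) (by norm_num) i1
    (by linarith) r1 (by nlinarith) (by nlinarith),
    (Far_im h 0 (V := k.im - 12.15) (μ := 40) (by linarith) i1 (by linarith) (by nlinarith)).2⟩

/-- τ ≥ 30: `far_ev`, or `evP` on the F side (δ = 0) and `osc_small` / `osc_big` (then ν² ≥ 81) on the G side -/
theorem far_large {ν σ τ b ρ : ℝ} {yF pF yG pG : ℕ → ℂ} (hb : Box b ρ) (h0 : 0 ≤ σ) (hν : 5 / 2 ≤ ν)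
    (h : Md ν σ τ b ρ yF pF yG pG) (hτ : 30 ≤ τ) : yF 0 = 0 ∧ pF 0 = 0 ∧ pG 0 = 0 := by
  rcases le_or_gt (3.7 * (|τ| + 0.335) + 62) (ν ^ 2) with hA | hA
  · exact far_ev hb h0 (by linarith) h hA
  rw [abs_of_nonneg (by linarith)] at hA
  obtain ⟨⟨hb0, hb1⟩, hρ0, hρ1⟩ := hb
  have hF : (conj (yF 0) * pF 0).re ≤ 0 * ‖yF 0‖ ^ 2 := by
    rw [zero_mul]
    exact h.dF.evP (by rw [kk_im]; linarith) (by rw [kk_im]; nlinarith)
  have hk : (kk σ (-τ) b).re ≤ 5 / 2 := by rw [kk_re]; linarith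
  have hT : (kk σ (-τ) b).im = b + τ := by rw [kk_im]; ring
  have hρ : ρ ∈ Icc (2.7 : ℝ) 2.71 := ⟨by linarith, by linarith⟩
  rcases le_or_gt (ν ^ 2) (2.7 * (b + τ)) with hs | hs
  · have hG := osc_small h.dG hν hk hρ (by linarith) (by rwa [hT])
    exact h.zero_of_re hF hG.1 (by linarith) hG.2
  · have hG := osc_big h.dG hν hk hρ (by linarith) (by rw [hT]; linarith)
    exact h.zero_of_re hF hG.1 (by nlinarith) hG.2

/-- τ ≥ 0: `far_large`, or `far_ev` (m ≥ 24, τ ≤ 30: ν² ≥ 210), or `FarNum`;  τ < 0 by `Md.swap` -/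
theorem far_of_num (h : FarNum) : FarStmt := by
  have key : ∀ (m : ℕ) (σ τ b ρ : ℝ) (yF pF yG pG : ℕ → ℂ), Box b ρ → 0 ≤ σ → σ ≤ 33 / 10 → 0 ≤ τ →
      (∀ i : Fin 3, mi i = m → ¬ Zone i σ τ) → Md (nu m) σ τ b ρ yF pF yG pG →
      yF 0 = 0 ∧ pF 0 = 0 ∧ pG 0 = 0 := fun m σ τ b ρ yF pF yG pG hb h0 h1 hτ hz hM => by
    have hm : (0 : ℝ) ≤ m := m.cast_nonneg
    rcases le_total 30 τ with h30 | h30
    · exact far_large hb h0 (by unfold nu; linarith) hM h30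
    rcases le_or_gt m 23 with h23 | h23
    · exact h m σ τ b ρ yF pF yG pG hb h0 h1 hτ h30 h23 hz hM
    · have h24 : (24 : ℝ) ≤ m := by exact_mod_cast h23
      refine far_ev hb h0 (by unfold nu; linarith) hM ?_
      rw [abs_of_nonneg hτ]
      unfold nu
      nlinarith
  intro m σ τ b ρ yF pF yG pG hb h0 h1 hz hM
  rcases le_total 0 τ with hτ | hτ
  · exact key m σ τ b ρ yF pF yG pG hb h0 h1 hτ hz hM
  · exact Far_swap hM (key m σ (-τ) b ρ yG pG yF pF hb h0 h1 (by linarith)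
      (fun i hi hZ => hz i hi ⟨hZ.1, abs_neg τ ▸ hZ.2⟩) hM.swap)

/-- `Md.swap` -/
theorem near_of_pos (h : NearStmt true) : NearStmt false := by
  intro i σ τ b ρ t yF pF yG pG Φ Q wF wG hb h0 hZ _ hM dF dG hw ht hΦ
  rcases le_total 0 τ with hτ | hτ
  · exact h i σ τ b ρ t yF pF yG pG Φ Q wF wG hb h0 hZ (fun _ => hτ) hM dF dG hw ht hΦ
  · refine Far_swap hM (h i σ (-τ) b ρ t yG pG yF pF Φ Q wG wF hb h0 ⟨hZ.1, (abs_neg τ).symm ▸ hZ.2⟩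
      (fun _ => by linarith) hM.swap dG (by rwa [neg_neg]) ?_ ht hΦ)
    have := congrArg conj hw
    rwa [map_add, Complex.conj_conj, map_zero, add_comm] at this

end

end Crest.Agent.R086.N
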