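import Crest.Agent.R086.N.EC
import Crest.Agent.R086.N.Far

open MeasureTheory Set Filter Topology Complex
open scoped ContDiff ComplexConjugate

namespace Crest.Agent.R086.N

noncomputable section

/-! # Soundness of the engine V: away from the eigenvalues -/

private theorem ED_mid {a b : ℕ} {x : ℝ} (h1 : (a : ℝ) ≤ x) (h2 : x ≤ (b : ℝ)) :
    |x - ((Nat.div (Nat.add a b) 2 : ℕ) : ℝ)| ≤ ((Nat.succ (Nat.div (Nat.sub b a) 2) : ℕ) : ℝ) := by
  have hab : a ≤ b := by exact_mod_cast h1.trans h2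
  have e1 : b ≤ (a + b) / 2 + ((b - a) / 2 + 1) := by omega
  have e2 : (a + b) / 2 ≤ a + ((b - a) / 2 + 1) := by omega
  have e1' : (b : ℝ) ≤ (((a + b) / 2 : ℕ) : ℝ) + (((b - a) / 2 + 1 : ℕ) : ℝ) := by exact_mod_cast e1
  have e2' : (((a + b) / 2 : ℕ) : ℝ) ≤ (a : ℝ) + (((b - a) / 2 + 1 : ℕ) : ℝ) := by exact_mod_cast e2
  show |x - (((a + b) / 2 : ℕ) : ℝ)| ≤ (((b - a) / 2 + 1 : ℕ) : ℝ)
  rw [abs_le]
  constructor <;> linarith

private theorem ED_ball {k : ℂ} {c : CI} {A B : ℕ} (h1 : |SS * k.re - c.re| ≤ (A : ℝ))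
    (h2 : |SS * k.im - c.im| ≤ (B : ℝ)) : ‖k - c.toC / SS‖ ≤ (absN A B : ℝ) / SS := by
  have e : k - c.toC / SS = ((SS : ℂ) * k - c.toC) / SS := by
    have := SS_ne
    field_simp
  rw [e, norm_div, Complex.norm_natCast]
  refine div_le_div_of_nonneg_right (norm_le_absN ?_ ?_) SS_pos.le
  · simpa [toC_re] using h1
  · simpa [toC_im] using h2

/-- kk σ τ b = 5/2 - σ + i(b - τ) (`kk_re`, `kk_im`), 2748779069440 = 5 SS/2, `norm_le_absN` -/
theorem pmOf_in {sa sb ta tb a a' : ℕ} {ν σ τ b ρ : ℝ} (hb : Box b ρ) (h1 : (sa : ℝ) ≤ SS * σ)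
    (h2 : SS * σ ≤ (sb : ℝ)) (h3 : (ta : ℝ) ≤ SS * τ) (h4 : SS * τ ≤ (tb : ℝ)) (ha : (a : ℝ) ≤ 2 * ν)
    (ha' : 2 * ν ≤ (a' : ℝ)) :
    (pmOf sa sb ta tb a a' false).In ν ρ (kk σ τ b) ∧ (pmOf sa sb ta tb a a' true).In ν ρ (kk σ (-τ) b) := by
  have m1 := ED_mid h1 h2
  have m2 := ED_mid h3 h4
  obtain ⟨⟨b1, b2⟩, r1, r2⟩ := hb
  have hr : |ρ - (rho0 : ℝ) / SS| ≤ (drho0 : ℝ) / SS := by
    rw [SS_val, rho0, drho0, abs_le]
    constructor <;> push_cast <;> linarith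
  have hbb : |SS * b - (b0 : ℝ)| ≤ (db : ℝ) := by
    rw [SS_val, b0, db, abs_le]
    constructor <;> push_cast <;> linarith
  have hre : ∀ t : ℝ, |SS * (kk σ t b).re -
      ((Int.sub (Int.ofNat 2748779069440) (Int.ofNat (Nat.div (Nat.add sa sb) 2)) : ℤ) : ℝ)| ≤
      ((Nat.succ (Nat.div (Nat.sub sb sa) 2) : ℕ) : ℝ) := fun t => by
    refine le_trans (le_of_eq ?_) m1
    rw [← abs_neg, kk_re]
    congr 1
    show _ = SS * σ - _
    rw [show ∀ u v : ℤ, Int.sub u v = u - v from fun _ _ => rfl, Int.ofNat_eq_natCast,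
      Int.ofNat_eq_natCast, Int.cast_sub, Int.cast_natCast, Int.cast_natCast, SS_val]
    push_cast
    ring
  rw [abs_le] at m2 hbb
  refine ⟨⟨ED_ball (hre τ) ?_, ha, ha', hr⟩, ⟨ED_ball (hre (-τ)) ?_, ha, ha', hr⟩⟩
  · show |SS * (kk σ τ b).im - (((b0 : ℤ) - ((Nat.div (Nat.add ta tb) 2 : ℕ) : ℤ) : ℤ) : ℝ)| ≤
      ((Nat.succ (Nat.div (Nat.sub tb ta) 2) + db : ℕ) : ℝ)
    rw [kk_im, Int.cast_sub, Int.cast_natCast, Int.cast_natCast, Nat.cast_add, abs_le]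
    constructor <;> linarith [m2.1, m2.2, hbb.1, hbb.2]
  · show |SS * (kk σ (-τ) b).im - (((b0 : ℤ) + ((Nat.div (Nat.add ta tb) 2 : ℕ) : ℤ) : ℤ) : ℝ)| ≤
      ((Nat.succ (Nat.div (Nat.sub tb ta) 2) + db : ℕ) : ℝ)
    rw [kk_im, Int.cast_add, Int.cast_natCast, Int.cast_natCast, Nat.cast_add, abs_le]
    constructor <;> linarith [m2.1, m2.2, hbb.1, hbb.2]

/-- the box is outside the region or inside one of the three zones: contradiction -/
theorem skip_sound {sa sb ta tb ma mb : ℕ} (h : skipOK sa sb ta tb ma mb = true) : FarBox sa sb ta tb ma mb := by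
  intro m σ τ b ρ yF pF yG pG _ s0 s1 t0 t1 a1 a2 a3 a4 m1 m2 hz _
  exfalso
  have hS := SS_val
  simp only [skipOK, Bool.or_eq_true, Bool.and_eq_true, Nat.blt_eq, Nat.ble_eq, Nat.beq_eq,
    Nat.mul_eq] at h
  rcases h with (((h | h) | ⟨⟨h0, h1⟩, h2⟩) | ⟨⟨⟨h0, h1⟩, h2⟩, h3⟩) | ⟨⟨⟨⟨h0, h0'⟩, h1⟩, h2⟩, h3⟩
  · have h' : (33 : ℝ) * SS < 10 * sa := by exact_mod_cast h
    rw [hS] at h' a1
    linarith
  · have h' : (30 : ℝ) * SS < ta := by exact_mod_cast h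
    rw [hS] at h' a3
    linarith
  · have h1' : (16 : ℝ) * sb ≤ SS := by exact_mod_cast h1
    have h2' : (16 : ℝ) * tb ≤ SS := by exact_mod_cast h2
    rw [hS] at h1' h2' a2 a4
    refine hz 0 (by show 0 = m; omega) ⟨?_, ?_⟩
    · show |σ - 0| ≤ 1 / 16
      rw [abs_le]; constructor <;> linarith
    · show |τ| ≤ 1 / 16
      rw [abs_le]; constructor <;> linarith
  · have h1' : (3 : ℝ) * SS ≤ 4 * sa := by exact_mod_cast h1
    have h2' : (4 : ℝ) * sb ≤ 5 * SS := by exact_mod_cast h2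
    have h3' : (4 : ℝ) * tb ≤ SS := by exact_mod_cast h3
    rw [hS] at h1' h2' h3' a1 a2 a4
    refine hz 1 (by show 0 = m; omega) ⟨?_, ?_⟩
    · show |σ - 1| ≤ 1 / 4
      rw [abs_le]; constructor <;> linarith
    · show |τ| ≤ 1 / 4
      rw [abs_le]; constructor <;> linarith
  · have h1' : (SS : ℝ) ≤ 4 * sa := by exact_mod_cast h1
    have h2' : (4 : ℝ) * sb ≤ 3 * SS := by exact_mod_cast h2
    have h3' : (4 : ℝ) * tb ≤ SS := by exact_mod_cast h3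
    rw [hS] at h1' h2' h3' a1 a2 a4
    refine hz 2 (by show 1 = m; omega) ⟨?_, ?_⟩
    · show |σ - 1 / 2| ≤ 1 / 4
      rw [abs_le]; constructor <;> linarith
    · show |τ| ≤ 1 / 4
      rw [abs_le]; constructor <;> linarith

private theorem ED_nu {ma m : ℕ} (h : ma ≤ m) :
    ((5 : ℝ) + ma) * (5 + ma) ≤ 4 * nu m ^ 2 ∧ ((Nat.add 5 ma : ℕ) : ℝ) ≤ 2 * nu m := by
  have h' : (ma : ℝ) ≤ m := by exact_mod_cast h
  have h0 : (0 : ℝ) ≤ ma := Nat.cast_nonneg _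
  constructor
  · unfold nu; nlinarith
  · rw [Nat.add_eq, nu]; push_cast; linarith

private theorem ED_nu' {mb m : ℕ} (h : m ≤ mb) : 2 * nu m ≤ ((Nat.add 5 mb : ℕ) : ℝ) := by
  have h' : (m : ℝ) ≤ mb := by exact_mod_cast h
  rw [Nat.add_eq, nu]; push_cast; linarith

/-- `far_ev` -/
theorem leafA_sound {sa sb ta tb ma mb : ℕ} (h : leafA tb ma = true) : FarBox sa sb ta tb ma mb := by
  intro m σ τ b ρ yF pF yG pG hb s0 s1 t0 t1 a1 a2 a3 a4 m1 m2 hz hM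
  simp only [leafA, Nat.ble_eq, Nat.mul_eq, Nat.add_eq] at h
  have h' : (4 : ℝ) * (37000 * tb + 632395 * SS) ≤ 10000 * ((5 + ma) * (5 + ma)) * SS := by
    exact_mod_cast h
  have h1 := (ED_nu m1).1
  rw [SS_val] at h' a4
  refine far_ev hb s0 (by unfold nu; positivity) hM ?_
  rw [abs_of_nonneg t0]
  linarith

/-- `pmOf_in`, `run_sound` twice, `dtest_sound` -/
theorem leafD_sound {N mF mG sa sb ta tb ma mb : ℕ} (h : leafD N mF mG sa sb ta tb ma mb = true) :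
    FarBox sa sb ta tb ma mb := by
  intro m σ τ b ρ yF pF yG pG hb s0 s1 t0 t1 a1 a2 a3 a4 m1 m2 hz hM
  obtain ⟨iF, iG⟩ := pmOf_in hb a1 a2 a3 a4 (ED_nu m1).2 (ED_nu' m2)
  simp only [leafD, frP_eq] at h
  obtain ⟨chF, cF, rF, h1, hF⟩ := run_sound iF hM.dF h
  obtain ⟨chG, cG, rG, h2, hG⟩ := run_sound iG hM.dG h1
  exact dtest_sound iF.ha iF.hb hF hG hM.h1 hM.h2 h2

/-- `Md.zero_of_re` with δF = 0 (`evP`), δG = (Re c + r)/SS (`holds_false`) -/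
theorem leafR_sound {N mG sa sb ta tb ma mb : ℕ} (h : leafR N mG sa sb ta tb ma mb = true) :
    FarBox sa sb ta tb ma mb := by
  intro m σ τ b ρ yF pF yG pG hb s0 s1 t0 t1 a1 a2 a3 a4 m1 m2 hz hM
  obtain ⟨-, iG⟩ := pmOf_in hb a1 a2 a3 a4 (ED_nu m1).2 (ED_nu' m2)
  simp only [leafR, frP_eq, Bool.and_eq_true] at h
  obtain ⟨⟨h1, h2⟩, h3⟩ := h
  obtain ⟨chG, cG, rG, h4, hG⟩ := run_sound iG hM.dG h3
  simp only [Bool.and_eq_true, Bool.not_eq_true', decide_eq_true_eq] at h4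
  obtain ⟨rfl, h5⟩ := h4
  obtain ⟨ζ, hζ, hp⟩ := holds_false hG
  simp only [Nat.ble_eq, Nat.mul_eq, Nat.add_eq] at h1 h2
  have h1' : (335 : ℝ) * SS ≤ 1000 * ta := by exact_mod_cast h1
  have h2' : (1956180 : ℝ) * SS ≤ 10000 * ((5 + ma) * (5 + ma)) * SS + 108000 * ta := by
    exact_mod_cast h2
  have h5' : (cG.re : ℝ) + rG < ((Nat.add 5 ma : ℕ) : ℝ) * SS := by
    have : cG.re + (rG : ℤ) < ((Nat.add 5 ma * SS : ℕ) : ℤ) := h5
    exact_mod_cast this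
  have n1 := (ED_nu m1).1
  have n2 := (ED_nu m1).2
  have b2 := hb.1.2
  have hre : ζ.re ≤ ((cG.re : ℝ) + rG) / SS := by
    have e1 : (ζ - cG.toC / SS).re ≤ (rG : ℝ) / SS := (Complex.re_le_norm _).trans hζ
    rw [Complex.sub_re, Complex.div_natCast_re, toC_re] at e1
    rw [add_div]
    linarith
  refine hM.zero_of_re (δF := 0) (δG := ((cG.re : ℝ) + rG) / SS) ?_ ?_ ?_ ?_
  · rw [zero_mul]
    rw [SS_val] at h1' h2' a3
    refine hM.dF.evP ?_ ?_ <;> rw [kk_im] <;> linarith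
  · rw [hp, show conj (yG 0) * (ζ * yG 0) = ζ * (conj (yG 0) * yG 0) by ring, Complex.conj_mul',
      ← Complex.ofReal_pow, Complex.re_mul_ofReal]
    exact mul_le_mul_of_nonneg_right hre (by positivity)
  · rw [zero_add, div_lt_iff₀ SS_pos]
    exact h5'.trans_le (mul_le_mul_of_nonneg_right n2 SS_pos.le)
  · intro h0
    rw [hp, h0, mul_zero]

theorem FarBox.sS {sa x sb ta tb ma mb : ℕ} (l : FarBox sa x ta tb ma mb) (r : FarBox x sb ta tb ma mb) :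
    FarBox sa sb ta tb ma mb := by
  intro m σ τ b ρ yF pF yG pG hb s0 s1 t0 t1 a1 a2 a3 a4 m1 m2 hz hM
  rcases le_total (SS * σ) x with h | h
  · exact l m σ τ b ρ yF pF yG pG hb s0 s1 t0 t1 a1 h a3 a4 m1 m2 hz hM
  · exact r m σ τ b ρ yF pF yG pG hb s0 s1 t0 t1 h a2 a3 a4 m1 m2 hz hM
theorem FarBox.sT {sa sb ta x tb ma mb : ℕ} (l : FarBox sa sb ta x ma mb) (r : FarBox sa sb x tb ma mb) :
    FarBox sa sb ta tb ma mb := by
  intro m σ τ b ρ yF pF yG pG hb s0 s1 t0 t1 a1 a2 a3 a4 m1 m2 hz hM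
  rcases le_total (SS * τ) x with h | h
  · exact l m σ τ b ρ yF pF yG pG hb s0 s1 t0 t1 a1 a2 a3 h m1 m2 hz hM
  · exact r m σ τ b ρ yF pF yG pG hb s0 s1 t0 t1 a1 a2 h a4 m1 m2 hz hM
theorem FarBox.sM {sa sb ta tb ma x x' mb : ℕ} (l : FarBox sa sb ta tb ma x) (r : FarBox sa sb ta tb x' mb)
    (hx : x' = x + 1) : FarBox sa sb ta tb ma mb := by
  intro m σ τ b ρ yF pF yG pG hb s0 s1 t0 t1 a1 a2 a3 a4 m1 m2 hz hM
  rcases le_or_gt m x with h | h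
  · exact l m σ τ b ρ yF pF yG pG hb s0 s1 t0 t1 a1 a2 a3 a4 m1 h hz hM
  · exact r m σ τ b ρ yF pF yG pG hb s0 s1 t0 t1 a1 a2 a3 a4 (by omega) m2 hz hM

/-- induction on the tree -/
theorem chkFar_sound (t : Tr) (sa sb ta tb ma mb : ℕ) (h : chkFar t sa sb ta tb ma mb = true) :
    FarBox sa sb ta tb ma mb := by
  induction t generalizing sa sb ta tb ma mb with
  | skip => exact skip_sound h
  | A => exact leafA_sound h
  | D N mF mG => exact leafD_sound h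
  | R N mG => exact leafR_sound h
  | X N m0 => exact absurd h Bool.false_ne_true
  | sS l r ihl ihr =>
    have h' : frN (Nat.div (Nat.add sa sb) 2) (fun x =>
      chkFar l sa x ta tb ma mb && chkFar r x sb ta tb ma mb) = true := h
    rw [frN_eq, Bool.and_eq_true] at h'
    exact (ihl _ _ _ _ _ _ h'.1).sS (ihr _ _ _ _ _ _ h'.2)
  | sT l r ihl ihr =>
    have h' : frN (Nat.div (Nat.add ta tb) 2) (fun x =>
      chkFar l sa sb ta x ma mb && chkFar r sa sb x tb ma mb) = true := h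
    rw [frN_eq, Bool.and_eq_true] at h'
    exact (ihl _ _ _ _ _ _ h'.1).sT (ihr _ _ _ _ _ _ h'.2)
  | sM l r ihl ihr =>
    have h' : frN (Nat.div (Nat.add ma mb) 2) (fun x =>
      chkFar l sa sb ta tb ma x && chkFar r sa sb ta tb (Nat.succ x) mb) = true := h
    rw [frN_eq, Bool.and_eq_true] at h'
    exact (ihl _ _ _ _ _ _ h'.1).sM (ihr _ _ _ _ _ _ h'.2) rfl

/-- 4 SS and 32 SS -/
theorem farNum_of (h : FarBox 0 4398046511104 0 35184372088832 0 23) : FarNum := by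
  intro m σ τ b ρ yF pF yG pG hb s0 s1 t0 t1 hm hz hM
  refine h m σ τ b ρ yF pF yG pG hb s0 s1 t0 t1 ?_ ?_ ?_ ?_ (Nat.zero_le _) hm hz hM <;>
    rw [SS_val] <;> push_cast <;> linarith

end

end Crest.Agent.R086.N
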