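import Crest.Agent.R086.N.EC

open MeasureTheory Set Filter Topology Complex
open scoped ContDiff ComplexConjugate

namespace Crest.Agent.R086.N

noncomputable section

/-! # Soundness of the engine VI: the divided difference χ = w/(yΦ) -/

/-- the state at level j -/
def StX (y p Φ Q w : ℕ → ℂ) (j : ℕ) (ct : CI) (rt : ℕ) (cs : CI) (rs : ℕ) (x : Bl) : Prop :=
  Holds false ct rt (y j) (p j) ∧ Holds false cs rs (Φ j) (Q j) ∧ ∃ χ : ℂ, x.Mem χ ∧ w j = χ * (y j * Φ j)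

variable {P Ps : Pm} {ν ρ : ℝ} {k ks : ℂ} {y p Φ Q w : ℕ → ℂ}

/-- `rc` solved for w_j -/
theorem Dat2.level (hD : Dat2 ν ρ k ks y p Φ Q w) (j : ℕ) {χ ζ : ℂ} (hw : w (j + 1) = χ * (y (j + 1) * Φ (j + 1)))
    (hQ : Q (j + 1) = ζ * Φ (j + 1)) :
    ((ν : ℂ) ^ 2 - (ks - j) ^ 2) * w j
      = Φ (j + 1) * ((1 - χ) * p j + (χ * kp (k - j) ρ - I * ρ - ζ) * y j) := by
  have h1 := hD.rc j
  rw [hw, hQ, hD.d1.lad1 j] at h1
  linear_combination h1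

/-- A* Φ_j = Q_{j+1} + k'* Φ_{j+1} = (ζ + k'*) Φ_{j+1} (Wg - kp² = ν² - k²) and A* = (ν - ks + j)(ν + ks - j) ≠ 0;
with `Dat2.level`: A* (ζ + k'*) w_j = A* Φ_j y_j (…) -/
theorem Dat2.chi (hD : Dat2 ν ρ k ks y p Φ Q w) (hks : ks.im ≠ 0) (j : ℕ) {χ ζ ζt : ℂ}
    (hw : w (j + 1) = χ * (y (j + 1) * Φ (j + 1))) (hQ : Q (j + 1) = ζ * Φ (j + 1)) (hp : p j = ζt * y j)
    (hne : ζ + kp (ks - j) ρ ≠ 0) :
    w j = (ζt - I * ρ - ζ - χ * (ζt - kp (k - j) ρ)) / (ζ + kp (ks - j) ρ) * (y j * Φ j) := by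
  have h1 := hD.level j hw hQ
  have h2 : ((ν : ℂ) ^ 2 - (ks - j) ^ 2) * Φ j = (ζ + kp (ks - j) ρ) * Φ (j + 1) := by
    have a := hD.d2.lad1 j
    have b := hD.d2.lad2 j
    rw [hQ] at b
    rw [add_mul, b, a]
    unfold Wg kp
    linear_combination ((ρ : ℂ) ^ 2 / 4 * Φ j) * I_mul_I
  have hA : (ν : ℂ) ^ 2 - (ks - j) ^ 2 ≠ 0 := by
    rw [sq_sub_sq]
    refine mul_ne_zero (fun h => hks ?_) (fun h => hks ?_) <;>
    · have := congrArg Complex.im h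
      simpa using this
  rw [div_mul_eq_mul_div, eq_div_iff hne]
  refine mul_left_cancel₀ hA ?_
  rw [hp] at h1
  linear_combination (ζ + kp (ks - j) ρ) * h1 -
    (ζt - I * ρ - ζ - χ * (ζt - kp (k - j) ρ)) * y j * h2

private theorem loopX_succ (P Ps : Pm) (kq W0 : CI) (ek eW0 : ℕ) (kqs W0s : CI) (eks eW0s : ℕ)
    (K : CI → ℕ → CI → ℕ → Bl → Bool) (i : ℕ) (ct : CI) (rt : ℕ) (cs : CI) (rs : ℕ) (x : Bl) :
    loopX P Ps kq W0 ek eW0 kqs W0s eks eW0s K (i + 1) ct rt cs rs x = frN (Nat.succ i) fun j =>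
      stepJ kq W0 P.rho P.drho P.dk ek eW0 j false ct rt false fun ct' rt' =>
      stepJ kqs W0s Ps.rho Ps.drho Ps.dk eks eW0s j false cs rs false fun cs' rs' =>
      frB ((⟨ct', rt'⟩ : Bl).sub ⟨kq.sub (CI.ofN (Nat.mul j SS)), Nat.add P.dk ek⟩) fun u1 =>
      frB ((((⟨ct', rt'⟩ : Bl).sub ⟨CI.iN P.rho, P.drho⟩).sub ⟨cs, rs⟩).sub (x.mul u1)) fun nn =>
      frB ((⟨cs, rs⟩ : Bl).add ⟨kqs.sub (CI.ofN (Nat.mul j SS)), Nat.add Ps.dk eks⟩) fun uu =>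
      Bl.div nn uu fun x' => loopX P Ps kq W0 ek eW0 kqs W0s eks eW0s K i ct' rt' cs' rs' x' := rfl

/-- induction on n: `stepJ_sound` twice, `holds_false`, ball lemmas, `Bl.div_sound`, `Dat2.chi` -/
theorem loopX_sound (hP : P.In ν ρ k) (hPs : Ps.In ν ρ ks) (hks : ks.im ≠ 0) (hD : Dat2 ν ρ k ks y p Φ Q w)
    {K : CI → ℕ → CI → ℕ → Bl → Bool} (n : ℕ) (ct : CI) (rt : ℕ) (cs : CI) (rs : ℕ) (x : Bl)
    (hS : StX y p Φ Q w (n + 1) ct rt cs rs x)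
    (h : loopX P Ps P.kq P.W0 P.ek P.eW0 Ps.kq Ps.W0 Ps.ek Ps.eW0 K n ct rt cs rs x = true) :
    ∃ ct' rt' cs' rs' x', K ct' rt' cs' rs' x' = true ∧ StX y p Φ Q w 1 ct' rt' cs' rs' x' := by
  induction n generalizing ct rt cs rs x with
  | zero => exact ⟨ct, rt, cs, rs, x, h, hS⟩
  | succ i ih =>
    rw [loopX_succ] at h
    simp only [frN_eq, frB_eq] at h
    obtain ⟨h1, h2, χ, hχ, hw⟩ := hS
    obtain ⟨ct', rt', h, h3⟩ := stepJ_sound hP (hD.d1.lad1 (i + 1)) (hD.d1.lad2 (i + 1)) h1 h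
    obtain ⟨cs', rs', h, h4⟩ := stepJ_sound hPs (hD.d2.lad1 (i + 1)) (hD.d2.lad2 (i + 1)) h2 h
    obtain ⟨ζ, hζ, hQ⟩ := holds_false h2
    obtain ⟨ζt, hζt, hp⟩ := holds_false h3
    obtain ⟨hne, q, hq, hm⟩ := Bl.div_sound
      (((hζt.sub hP.mem_rho).sub hζ).sub (hχ.mul (hζt.sub (hP.mem_kp (i + 1)))))
      (hζ.add (hPs.mem_kp (i + 1))) h
    exact ih ct' rt' cs' rs' q ⟨h3, h4, _, hm, hD.chi hks (i + 1) hw hQ hp hne⟩ hq

private theorem im_le {c : CI} {r : ℕ} {y p : ℂ} (h : Holds false c r y p) :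
    (conj y * p).im ≤ ((Nat.add c.im.natAbs r : ℕ) : ℝ) / SS * ‖y‖ ^ 2 := by
  obtain ⟨ζ, hζ, rfl⟩ := holds_false h
  have e : (conj y * (ζ * y)).im = ζ.im * ‖y‖ ^ 2 := by
    rw [Complex.sq_norm, Complex.normSq_apply]
    simp
    ring
  rw [e]
  refine mul_le_mul_of_nonneg_right ?_ (sq_nonneg _)
  have h1 := (le_abs_self _).trans ((Complex.abs_im_le_norm _).trans hζ)
  rw [Complex.sub_im, Complex.div_natCast_im, toC_im] at h1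
  have h2 : (c.im : ℝ) ≤ (c.im.natAbs : ℝ) := by
    rw [Nat.cast_natAbs, Int.cast_abs]
    exact le_abs_self _
  rw [Nat.add_eq, Nat.cast_add, add_div]
  have h3 := div_le_div_of_nonneg_right h2 SS_pos.le
  simp only at h1
  linarith

/-- start (level N = n+1 ≥ 4): 0 ≤ Im(ȳp) ≤ α|y|², α = (|Im c| + r)/SS, the same for Φ with β (`flux`,
`holds_false`); `bnd` gives (n-2)|w| ≤ √(αβ)|y||Φ| ≤ (α+β)/2 |y||Φ| -/
theorem startX (hD : Dat2 ν ρ k ks y p Φ Q w) {n : ℕ} (hn : 3 ≤ n) {c cs : CI} {r rs : ℕ}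
    (h1 : Holds false c r (y (n + 1)) (p (n + 1))) (h2 : Holds false cs rs (Φ (n + 1)) (Q (n + 1))) :
    StX y p Φ Q w (n + 1) c r cs rs ⟨CI.ofN 0, Nat.succ (Nat.div (Nat.add (Nat.add c.im.natAbs r)
      (Nat.add cs.im.natAbs rs)) (Nat.mul 2 (Nat.sub n 2)))⟩ := by
  refine ⟨h1, h2, holds_false ?_⟩
  have a1 := im_le h1
  have a2 := im_le h2
  have b1 := hD.d1.flux (n + 1) (by omega)
  have b2 := hD.d2.flux (n + 1) (by omega)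
  have hb := hD.bnd (n + 1) (by omega)
  have hn' : (3 : ℝ) ≤ n := by exact_mod_cast hn
  have hd := div_lt_succ (Nat.add (Nat.add c.im.natAbs r) (Nat.add cs.im.natAbs rs))
    (n := Nat.mul 2 (Nat.sub n 2)) (by simp only [Nat.mul_eq, Nat.sub_eq]; omega)
  set R : ℕ := Nat.succ (Nat.div (Nat.add (Nat.add c.im.natAbs r) (Nat.add cs.im.natAbs rs))
    (Nat.mul 2 (Nat.sub n 2)))
  have e : ((Nat.mul 2 (Nat.sub n 2) : ℕ) : ℝ) = 2 * ((n : ℝ) - 2) := by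
    simp only [Nat.mul_eq, Nat.sub_eq]
    rw [Nat.cast_mul, Nat.cast_sub (by omega)]
    norm_num
  rw [e, div_le_iff₀ (by linarith), Nat.add_eq, Nat.cast_add] at hd
  set α : ℝ := ((Nat.add c.im.natAbs r : ℕ) : ℝ)
  set β : ℝ := ((Nat.add cs.im.natAbs rs : ℕ) : ℝ)
  have hα : 0 ≤ α := Nat.cast_nonneg _
  have hβ : 0 ≤ β := Nat.cast_nonneg _
  have hS := SS_pos
  show ‖w (n + 1) - (CI.ofN 0).toC / SS * (y (n + 1) * Φ (n + 1))‖ ≤ (R : ℝ) / SS * ‖y (n + 1) * Φ (n + 1)‖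
  rw [toC_ofN, Nat.cast_zero, zero_div, zero_mul, sub_zero, norm_mul]
  have h3 := hb.trans (mul_le_mul a1 a2 b2 (by positivity))
  have h4 : α * β ≤ (((n : ℝ) - 2) * R) ^ 2 := by
    have : (α + β) ^ 2 ≤ ((R : ℝ) * (2 * ((n : ℝ) - 2))) ^ 2 := pow_le_pow_left₀ (by positivity) hd 2
    nlinarith [sq_nonneg (α - β)]
  refine (pow_le_pow_iff_left₀ (norm_nonneg _) (by positivity) two_ne_zero).1 ?_
  refine le_of_mul_le_mul_left (a := ((n : ℝ) - 2) ^ 2) ?_ (pow_pos (by linarith) 2)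
  calc ((n : ℝ) - 2) ^ 2 * ‖w (n + 1)‖ ^ 2 = (((n + 1 : ℕ) : ℝ) - 3) ^ 2 * ‖w (n + 1)‖ ^ 2 := by
        push_cast; ring
    _ ≤ _ := h3
    _ = α * β * (‖y (n + 1)‖ * ‖Φ (n + 1)‖ / SS) ^ 2 := by ring
    _ ≤ (((n : ℝ) - 2) * R) ^ 2 * (‖y (n + 1)‖ * ‖Φ (n + 1)‖ / SS) ^ 2 :=
        mul_le_mul_of_nonneg_right h4 (sq_nonneg _)
    _ = _ := by ring

theorem runX_sound (hP : P.In ν ρ k) (hPs : Ps.In ν ρ ks) (hks : ks.im ≠ 0) (hD : Dat2 ν ρ k ks y p Φ Q w)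
    {K : CI → ℕ → CI → ℕ → Bl → Bool} {n : ℕ} (h : runX P Ps n K = true) :
    ∃ ct rt cs rs x, K ct rt cs rs x = true ∧ StX y p Φ Q w 1 ct rt cs rs x := by
  simp only [runX, frN_eq, frC_eq, Bool.and_eq_true, Nat.ble_eq] at h
  obtain ⟨⟨⟨hn, -⟩, -⟩, h⟩ := h
  exact loopX_sound hP hPs hks hD n _ _ _ _ _ (startX hD hn
    (start_sound hP hD.d1 (N := n + 1) (by omega)) (start_sound hPs hD.d2 (N := n + 1) (by omega))) h

end

end Crest.Agent.R086.N
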