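import Crest.Agent.R086.N.EX
import Crest.Agent.R086.N.ED

open MeasureTheory Set Filter Topology Complex
open scoped ContDiff ComplexConjugate

namespace Crest.Agent.R086.N

noncomputable section

/-! # Soundness of the engine VII: near the eigenvalues -/

/-- multiply eF by conj A*, and conjugate eG times A*: with θ = ψ conj A*, t ≠ 0 real,
θ((1-χF) pF + TF yF) + conj(θ((1-χG) pG + TG yG)) = 0, i.e. X pF + Y yF = 0 by h1, h2; `holds_vec` gives
a pF = b yF; the determinant is X b + Y a -/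
theorem xtest_sound {nb psi zs xF xG : Bl} {PF PG Ps : Pm} {ch : Bool} {c : CI} {r : ℕ} {ν ρ t : ℝ}
    {kF kG ks ψ ζ χF χG yF pF yG pG wF wG : ℂ} (hν : nb.Mem (ν : ℂ)) (hψ : psi.Mem ψ) (hF : PF.In ν ρ kF)
    (hG : PG.In ν ρ kG) (hs : Ps.In ν ρ ks) (hH : Holds ch c r yF pF) (hζ : zs.Mem ζ) (hxF : xF.Mem χF)
    (hxG : xG.Mem χG)
    (eF : ((ν : ℂ) ^ 2 - ks ^ 2) * wF = t * ψ * ((1 - χF) * pF + (χF * kp kF ρ - I * ρ - ζ) * yF))
    (eG : ((ν : ℂ) ^ 2 - ks ^ 2) * wG = t * ψ * ((1 - χG) * pG + (χG * kp kG ρ - I * ρ - ζ) * yG))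
    (hw : wF + conj wG = 0) (ht : t ≠ 0) (h1 : yG = -conj yF) (h2 : pF - conj pG = 2 * ν * yF)
    (h : xtest nb psi PF PG Ps ch c r zs xF xG = true) : yF = 0 ∧ pF = 0 ∧ pG = 0 := by
  simp only [xtest, frB_eq] at h
  obtain ⟨a, b, ha, hb, hab⟩ := holds_vec hH
  have mA := (hν.mul hν).sub (hs.mem_k.mul hs.mem_k)
  have mθ := hψ.mul mA.cj
  have mTF := ((hxF.mul hF.mem_kp0).sub hF.mem_rho).sub hζ
  have mTG := ((hxG.mul hG.mem_kp0).sub hG.mem_rho).sub hζ
  have mu := mθ.mul (Bl.mem_one.sub hxF)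
  have mv := (mθ.mul (Bl.mem_one.sub hxG)).cj
  have hd := (((mu.add mv).mul hb).add
    ((((mθ.mul mTF).sub (mθ.mul mTG).cj).sub ((hν.add hν).mul mv)).mul ha)).ne0 h
  have hA : (ν : ℂ) * ν - ks * ks = (ν : ℂ) ^ 2 - ks ^ 2 := by ring
  rw [hA] at hd
  generalize (ν : ℂ) ^ 2 - ks ^ 2 = A at *
  generalize χF * kp kF ρ - I * ρ - ζ = TF at *
  generalize χG * kp kG ρ - I * ρ - ζ = TG at *
  have ht' : (t : ℂ) ≠ 0 := by exact_mod_cast ht
  have eG' := congrArg conj eG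
  have hy : conj yG = -yF := by rw [h1, map_neg, Complex.conj_conj]
  have hp : conj pG = pF - 2 * ν * yF := by linear_combination -h2
  simp only [map_mul, map_add, Complex.conj_ofReal, Complex.conj_conj, hy, hp] at eG' hd
  generalize conj (1 - χG) = z at *
  have key : (ψ * conj A * (1 - χF) + conj ψ * A * z) * pF +
      (ψ * conj A * TF - conj ψ * A * conj TG - (ν + ν) * (conj ψ * A * z)) * yF = 0 := by
    refine mul_left_cancel₀ ht' ?_
    linear_combination (-conj A) * eF - A * eG' + A * conj A * hw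
  have y0 : yF = 0 := by
    refine mul_left_cancel₀ hd ?_
    linear_combination a * key - (ψ * conj A * (1 - χF) + conj ψ * A * z) * hab
  have p0 : pF = 0 := by
    refine mul_left_cancel₀ hd ?_
    linear_combination b * key +
      (ψ * conj A * TF - conj ψ * A * conj TG - (ν + ν) * (conj ψ * A * z)) * hab
  refine ⟨y0, p0, ?_⟩
  rw [y0, p0, mul_zero, sub_zero] at hp
  simpa using hp

theorem psiB_mem {b ρ : ℝ} (hb : Box b ρ) (i : Fin 3) : (psiB i).Mem (psi0 b ρ i) := by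
  fin_cases i
  · exact Bl.mem_one
  · obtain ⟨⟨b1, b2⟩, r1, r2⟩ := hb
    change ‖((b : ℂ) + ρ + I) - (⟨Int.ofNat (Nat.add b0 rho0), Int.ofNat SS⟩ : CI).toC / SS‖ ≤
      ((Nat.add db drho0 : ℕ) : ℝ) / SS
    have e : ((b : ℂ) + ρ + I) - (⟨Int.ofNat (Nat.add b0 rho0), Int.ofNat SS⟩ : CI).toC / SS =
        ((b + ρ - 3342346023649 / 1099511627776 : ℝ) : ℂ) := by
      simp only [CI.toC, Nat.add_eq, Int.ofNat_eq_natCast, b0, rho0, SS]
      push_cast
      ring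
    rw [e, Complex.norm_real, Real.norm_eq_abs, abs_le]
    simp only [Nat.add_eq, db, drho0, SS]
    constructor <;> norm_num at b1 b2 r1 r2 ⊢ <;> linarith
  · exact Bl.mem_one
theorem liN_eq (i : Fin 3) : (liN i : ℝ) = SS * li i := by
  fin_cases i <;> simp [liN, li, SS] <;> norm_num
theorem miN_eq (i : Fin 3) : (miN i : ℝ) = 2 * nu (mi i) := by
  simp only [miN, nu, Nat.add_eq]
  push_cast
  ring

/-- `pmOf_in` (three times), `runX_sound` twice ((kk _ 0 b).im = b ≠ 0), `stepJ_sound` at j = 0, `holds_false` for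
ζ (from the F run), `Dat2.level` at j = 0, `nuB_mem`, `xtest_sound` -/
theorem leafX_sound {i : Fin 3} {n m0 sa sb ta tb : ℕ}
    (h : leafX (miN i) (liN i) (psiB i) n m0 sa sb ta tb = true) : NearBox i sa sb ta tb := by
  intro σ τ b ρ t yF pF yG pG Φ Q wF wG hb h1 h2 h3 h4 hM dF dG hw ht hΦ
  have ha := (miN_eq i).le
  have ha' := (miN_eq i).ge
  obtain ⟨iF, iG⟩ := pmOf_in hb h1 h2 h3 h4 ha ha'
  have iS := (pmOf_in (τ := 0) (ta := 0) (tb := 0) hb (liN_eq i).le (liN_eq i).ge (by simp) (by simp) ha ha').1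
  have hks : (kk (li i) 0 b).im ≠ 0 := by
    have := hb.1.1
    rw [kk_im, sub_zero]
    exact ne_of_gt (lt_of_lt_of_le (by norm_num) this)
  simp only [leafX, frP_eq] at h
  obtain ⟨ct, rt, cs, rs, xF, h, sF1, sF2, χF, mF, eF⟩ := runX_sound iF iS hks dF h
  obtain ⟨_, _, _, _, xG, h, -, -, χG, mG, eG⟩ := runX_sound iG iS hks dG h
  obtain ⟨c, r, h, hH⟩ := stepJ_sound iF (dF.d1.lad1 0) (dF.d1.lad2 0) sF1 h
  obtain ⟨ζ, mζ, hζ⟩ := holds_false sF2
  have lF := dF.level 0 eF hζ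
  have lG := dG.level 0 eG hζ
  simp only [Nat.cast_zero, sub_zero, zero_add, hΦ] at lF lG
  exact xtest_sound (nuB_mem ha ha') (psiB_mem hb i) iF iG iS hH mζ mF mG lF lG hw ht hM.h1 hM.h2 h

theorem NearBox.sS {i : Fin 3} {sa x sb ta tb : ℕ} (l : NearBox i sa x ta tb) (r : NearBox i x sb ta tb) :
    NearBox i sa sb ta tb := by
  intro σ τ b ρ t yF pF yG pG Φ Q wF wG hb h1 h2
  rcases le_total (SS * σ) (x : ℝ) with h | h
  · exact l σ τ b ρ t yF pF yG pG Φ Q wF wG hb h1 h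
  · exact r σ τ b ρ t yF pF yG pG Φ Q wF wG hb h h2
theorem NearBox.sT {i : Fin 3} {sa sb ta x tb : ℕ} (l : NearBox i sa sb ta x) (r : NearBox i sa sb x tb) :
    NearBox i sa sb ta tb := by
  intro σ τ b ρ t yF pF yG pG Φ Q wF wG hb h1 h2 h3 h4
  rcases le_total (SS * τ) (x : ℝ) with h | h
  · exact l σ τ b ρ t yF pF yG pG Φ Q wF wG hb h1 h2 h3 h
  · exact r σ τ b ρ t yF pF yG pG Φ Q wF wG hb h1 h2 h h4

theorem chkNear_sound (i : Fin 3) (t : Tr) (sa sb ta tb : ℕ)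
    (h : chkNear (miN i) (liN i) (psiB i) t sa sb ta tb = true) : NearBox i sa sb ta tb := by
  induction t generalizing sa sb ta tb with
  | skip => exact absurd h Bool.false_ne_true
  | A => exact absurd h Bool.false_ne_true
  | D => exact absurd h Bool.false_ne_true
  | R => exact absurd h Bool.false_ne_true
  | X n m0 => exact leafX_sound h
  | sS l r ihl ihr =>
    have h' : (frN (Nat.div (Nat.add sa sb) 2) fun x => chkNear (miN i) (liN i) (psiB i) l sa x ta tb &&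
      chkNear (miN i) (liN i) (psiB i) r x sb ta tb) = true := h
    rw [frN_eq, Bool.and_eq_true] at h'
    exact (ihl _ _ _ _ h'.1).sS (ihr _ _ _ _ h'.2)
  | sT l r ihl ihr =>
    have h' : (frN (Nat.div (Nat.add ta tb) 2) fun x => chkNear (miN i) (liN i) (psiB i) l sa sb ta x &&
      chkNear (miN i) (liN i) (psiB i) r sa sb x tb) = true := h
    rw [frN_eq, Bool.and_eq_true] at h'
    exact (ihl _ _ _ _ h'.1).sT (ihr _ _ _ _ h'.2)
  | sM => exact absurd h Bool.false_ne_true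

/-- SS/16; 3SS/4, 5SS/4, SS/4; SS/4, 3SS/4, SS/4 -/
theorem near_of_box (h0 : NearBox 0 0 68719476736 0 68719476736)
    (h1 : NearBox 1 824633720832 1374389534720 0 274877906944)
    (h2 : NearBox 2 274877906944 824633720832 0 274877906944) : NearStmt true := by
  intro i σ τ b ρ t yF pF yG pG Φ Q wF wG hb hσ hZ hτ
  have hτ0 := hτ rfl
  obtain ⟨z1, z2⟩ := hZ
  rw [abs_le] at z1 z2
  obtain ⟨z1, z1'⟩ := z1
  obtain ⟨-, z2⟩ := z2
  fin_cases i
  · refine h0 σ τ b ρ t yF pF yG pG Φ Q wF wG hb ?_ ?_ ?_ ?_ <;>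
      simp only [li, ri, SS_val] at z1 z1' z2 ⊢ <;> norm_num at z1 z1' z2 ⊢ <;> linarith
  · refine h1 σ τ b ρ t yF pF yG pG Φ Q wF wG hb ?_ ?_ ?_ ?_ <;>
      simp only [li, ri, SS_val] at z1 z1' z2 ⊢ <;> norm_num at z1 z1' z2 ⊢ <;> linarith
  · refine h2 σ τ b ρ t yF pF yG pG Φ Q wF wG hb ?_ ?_ ?_ ?_ <;>
      simp only [li, ri, SS_val] at z1 z1' z2 ⊢ <;> norm_num at z1 z1' z2 ⊢ <;> linarith

end

end Crest.Agent.R086.N
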