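import Crest.Agent.R086.N.Defs

open MeasureTheory Set Filter Topology Complex
open scoped ContDiff ComplexConjugate

namespace Crest.Agent.R086.N

noncomputable section

/-! # The kernel engine (fixed point arithmetic at scale `SS = 2^40`, continuation style) -/

/-- the scale -/
def SS : ℕ := 1099511627776

/-- evaluate `x` before continuing -/
def frN {α : Type} (x : ℕ) (k : ℕ → α) : α := Nat.rec (k 0) (fun y _ => k (Nat.succ y)) x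
def frI {α : Type} (x : ℤ) (k : ℤ → α) : α :=
  Int.rec (fun n => frN n fun n' => k (Int.ofNat n')) (fun n => frN n fun n' => k (Int.negSucc n')) x

theorem frN_eq {α : Type} (x : ℕ) (k : ℕ → α) : frN x k = k x := by cases x <;> rfl
theorem frI_eq {α : Type} (x : ℤ) (k : ℤ → α) : frI x k = k x := by
  cases x <;> simp only [frI, frN_eq]

/-- Gaussian integers -/
structure CI where
  re : ℤ
  im : ℤ

def frC {α : Type} (z : CI) (k : CI → α) : α := frI z.re fun a => frI z.im fun b => k ⟨a, b⟩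
theorem frC_eq {α : Type} (z : CI) (k : CI → α) : frC z k = k z := by simp only [frC, frI_eq]

def CI.toC (z : CI) : ℂ := (z.re : ℂ) + (z.im : ℂ) * I
def CI.add (z w : CI) : CI := ⟨Int.add z.re w.re, Int.add z.im w.im⟩
def CI.sub (z w : CI) : CI := ⟨Int.sub z.re w.re, Int.sub z.im w.im⟩
def CI.mul (z w : CI) : CI :=
  ⟨Int.sub (Int.mul z.re w.re) (Int.mul z.im w.im), Int.add (Int.mul z.re w.im) (Int.mul z.im w.re)⟩
def CI.cj (z : CI) : CI := ⟨z.re, Int.neg z.im⟩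
def CI.sm (n : ℕ) (z : CI) : CI := ⟨Int.mul (Int.ofNat n) z.re, Int.mul (Int.ofNat n) z.im⟩
def CI.ofN (n : ℕ) : CI := ⟨Int.ofNat n, Int.ofNat 0⟩
def CI.iN (n : ℕ) : CI := ⟨Int.ofNat 0, Int.ofNat n⟩
def CI.dv (z : CI) (n : ℕ) : CI := ⟨Int.ediv z.re (Int.ofNat n), Int.ediv z.im (Int.ofNat n)⟩
def CI.nsq (z : CI) : ℕ := Nat.add (Nat.mul z.re.natAbs z.re.natAbs) (Nat.mul z.im.natAbs z.im.natAbs)

/-- upper bound for √(a²+b²): one Newton step from a positive guess -/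
def absN (a b : ℕ) : ℕ :=
  frN (Bool.rec (Nat.succ (Nat.add a (Nat.div (Nat.mul 3 b) 8))) (Nat.succ (Nat.add b (Nat.div (Nat.mul 3 a) 8)))
      (Nat.ble a b)) fun x =>
    Nat.succ (Nat.div (Nat.add x (Nat.div (Nat.add (Nat.mul a a) (Nat.mul b b)) x)) 2)
def absU (z : CI) : ℕ := frN z.re.natAbs fun a => frN z.im.natAbs fun b => absN a b
def absL (z : CI) : ℕ := Nat.div z.nsq (absU z)

/-- `den · p = num · y` with num, den bilinear in (d, e): a disc for p/y -/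
def quot (N0 N1 N2 N3 : CI) (eN : ℕ) (D0 D1 D2 D3 : CI) (eD dk r : ℕ) (K : CI → ℕ → Bool) : Bool :=
  frN (Nat.mul (Nat.mul SS SS) (absL D0)) fun pos =>
  frN (Nat.add (Nat.add (Nat.add (Nat.mul (Nat.mul SS dk) (absU D1)) (Nat.mul (Nat.mul SS r) (absU D2)))
    (Nat.mul (Nat.mul r dk) (absU D3))) (Nat.mul (Nat.mul SS SS) eD)) fun neg =>
  Bool.rec
    (frC (((N0.mul D0.cj).sm SS).dv D0.nsq) fun c =>
      frN (Nat.add (Nat.add (Nat.add (Nat.add (Nat.add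
        (Nat.mul (Nat.mul SS SS) (absU ((N0.sm SS).sub (c.mul D0))))
        (Nat.mul (Nat.mul SS dk) (absU ((N1.sm SS).sub (c.mul D1)))))
        (Nat.mul (Nat.mul SS r) (absU ((N2.sm SS).sub (c.mul D2)))))
        (Nat.mul (Nat.mul r dk) (absU ((N3.sm SS).sub (c.mul D3)))))
        (Nat.mul (Nat.mul SS (Nat.mul SS SS)) eN))
        (Nat.mul (Nat.mul (Nat.mul SS SS) (absU c)) eD)) fun num =>
      frN (Nat.succ (Nat.div num (Nat.sub pos neg))) fun r' => K c r')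
    false (Nat.ble pos neg)

/-- chart `false`: |p - c y| ≤ r|y|;  chart `true`: |y - c p| ≤ r|p| -/
def Holds (ch : Bool) (c : CI) (r : ℕ) (y p : ℂ) : Prop :=
  Bool.rec (‖p - c.toC / SS * y‖ ≤ (r : ℝ) / SS * ‖y‖) (‖y - c.toC / SS * p‖ ≤ (r : ℝ) / SS * ‖p‖) ch

def outq (out : Bool) (U0 U1 U2 U3 : CI) (eU : ℕ) (W0 W1 W2 W3 : CI) (eW dk r : ℕ) (K : CI → ℕ → Bool) : Bool :=
  Bool.rec (quot W0 W1 W2 W3 eW U0 U1 U2 U3 eU dk r K) (quot U0 U1 U2 U3 eU W0 W1 W2 W3 eW dk r K) out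

/-- one ladder step: u p = w y with u = k'a + b, w = W a + k'b, (a,b) = (1, c+e) or (c+e, 1) -/
def step (ch : Bool) (c : CI) (r : ℕ) (kq W : CI) (rho dk ek eW : ℕ) (out : Bool) (K : CI → ℕ → Bool) : Bool :=
  frN (Nat.add (absU c) r) fun B =>
  Bool.rec
    (frC ((kq.add c).sm SS) fun U0 => frC ((W.sm SS).add (kq.mul c)) fun W0 =>
      frC (((CI.iN rho).add c).sm SS) fun W1 => frC (kq.sm SS) fun W2 =>
      outq out U0 (CI.ofN (Nat.mul SS SS)) (CI.ofN (Nat.mul SS SS)) (CI.ofN 0) (Nat.mul ek SS)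
        W0 W1 W2 (CI.ofN (Nat.mul SS SS)) (Nat.add (Nat.mul eW SS) (Nat.mul ek B)) dk r K)
    (frC ((kq.mul c).add (CI.ofN (Nat.mul SS SS))) fun U0 => frC (c.sm SS) fun U1 => frC (kq.sm SS) fun U2 =>
      frC ((W.mul c).add U2) fun W0 => frC (((CI.iN rho).mul c).add (CI.ofN (Nat.mul SS SS))) fun W1 =>
      frC (W.sm SS) fun W2 =>
      outq out U0 U1 U2 (CI.ofN (Nat.mul SS SS)) (Nat.mul ek B)
        W0 W1 W2 (CI.iN (Nat.mul SS rho)) (Nat.add (Nat.mul eW B) (Nat.mul ek SS)) dk r K)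
    ch

/-- parameter box: k ∈ D(k0, dk), 2ν ∈ [a, b], ρ ∈ rho ± drho -/
structure Pm where
  k0 : CI
  dk : ℕ
  a : ℕ
  b : ℕ
  rho : ℕ
  drho : ℕ

structure Pm.In (P : Pm) (ν ρ : ℝ) (k : ℂ) : Prop where
  hk : ‖k - P.k0.toC / SS‖ ≤ (P.dk : ℝ) / SS
  ha : (P.a : ℝ) ≤ 2 * ν
  hb : 2 * ν ≤ (P.b : ℝ)
  hr : |ρ - (P.rho : ℝ) / SS| ≤ (P.drho : ℝ) / SS

/-- centre of k' at level 0 (rounded) -/
def Pm.kq (P : Pm) : CI := P.k0.add (CI.iN (Nat.div P.rho 2))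
def Pm.ek (P : Pm) : ℕ := Nat.add (Nat.div P.drho 2) 2
/-- centre of W_g at level 0 (rounded) -/
def Pm.W0 (P : Pm) : CI :=
  ((CI.ofN (Nat.mul (Nat.add (Nat.mul P.a P.a) (Nat.mul P.b P.b)) 137438953472)).sub
    (CI.ofN (Nat.div (Nat.mul P.rho P.rho) (Nat.mul 4 SS)))).add (((CI.iN P.rho).mul P.k0).dv SS)
def Pm.eW0 (P : Pm) : ℕ :=
  Nat.add (Nat.add (Nat.mul (Nat.sub (Nat.mul P.b P.b) (Nat.mul P.a P.a)) 137438953472)
    (Nat.div (Nat.mul P.drho (Nat.add (Nat.add (Nat.add P.rho P.drho) (absU P.k0)) P.dk)) SS)) 5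
/-- radius of the starting disc at level N (centre kq - N) -/
def Pm.r0 (P : Pm) (N : ℕ) : ℕ :=
  Nat.add (Nat.add (Nat.add
    (absU ((P.k0.add (CI.ofN (Nat.mul (Nat.add P.a P.b) 274877906944))).sub (CI.ofN (Nat.mul N SS))))
    (Nat.mul (Nat.sub P.b P.a) 274877906944)) (Nat.mul 2 P.dk)) P.ek

def bit (mask j : ℕ) : Bool := Nat.beq (Nat.land (Nat.shiftRight mask j) 1) 1

/-- the step from level j+1 to level j -/
def stepJ (kq W0 : CI) (rho drho dk ek eW0 j : ℕ) (ch : Bool) (c : CI) (r : ℕ) (out : Bool)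
    (K : CI → ℕ → Bool) : Bool :=
  frC (kq.sub (CI.ofN (Nat.mul j SS))) fun kj => frC (W0.sub (CI.iN (Nat.mul j rho))) fun Wj =>
  frN (Nat.add eW0 (Nat.mul j drho)) fun eW => step ch c r kj Wj rho dk ek eW out K

/-- from level n down to level 0 -/
def loop (kq W0 : CI) (rho drho dk ek eW0 mask : ℕ) (K : Bool → CI → ℕ → Bool) (n : ℕ) :
    Bool → CI → ℕ → Bool :=
  Nat.rec (motive := fun _ => Bool → CI → ℕ → Bool) K
    (fun j ih ch c r => frN j fun j' => Bool.rec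
      (stepJ kq W0 rho drho dk ek eW0 j' ch c r false (ih false))
      (stepJ kq W0 rho drho dk ek eW0 j' ch c r true (ih true)) (bit mask j')) n

def run (P : Pm) (N mask : ℕ) (K : Bool → CI → ℕ → Bool) : Bool :=
  Nat.ble 4 N && Nat.ble P.a P.b &&
  frC P.kq fun kq => frC P.W0 fun W0 => frN P.ek fun ek => frN P.eW0 fun eW0 =>
  frC (kq.sub (CI.ofN (Nat.mul N SS))) fun c => frN (P.r0 N) fun r =>
  loop kq W0 P.rho P.drho P.dk ek eW0 mask K N false c r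

/-! ## Balls -/

structure Bl where
  c : CI
  r : ℕ

def Bl.Mem (a : Bl) (z : ℂ) : Prop := ‖z - a.c.toC / SS‖ ≤ (a.r : ℝ) / SS
def frB {α : Type} (a : Bl) (k : Bl → α) : α := frC a.c fun c => frN a.r fun r => k ⟨c, r⟩
theorem frB_eq {α : Type} (a : Bl) (k : Bl → α) : frB a k = k a := by simp only [frB, frC_eq, frN_eq]
def Bl.one : Bl := ⟨CI.ofN SS, 0⟩
def Bl.add (a b : Bl) : Bl := ⟨a.c.add b.c, Nat.add a.r b.r⟩
def Bl.sub (a b : Bl) : Bl := ⟨a.c.sub b.c, Nat.add a.r b.r⟩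
def Bl.cj (a : Bl) : Bl := ⟨a.c.cj, a.r⟩
def Bl.mul (a b : Bl) : Bl :=
  ⟨(a.c.mul b.c).dv SS, Nat.add (Nat.div (Nat.add (Nat.add (Nat.mul (absU a.c) b.r) (Nat.mul (absU b.c) a.r))
    (Nat.mul a.r b.r)) SS) 3⟩
def Bl.ne0 (a : Bl) : Bool := Nat.blt a.r (absL a.c)
def Bl.div (n u : Bl) (K : Bl → Bool) : Bool :=
  frN (absL u.c) fun L => Bool.rec
    (frC (((n.c.mul u.c.cj).sm SS).dv u.c.nsq) fun c =>
      frN (Nat.succ (Nat.div (Nat.add (Nat.add (absU ((n.c.sm SS).sub (c.mul u.c))) (Nat.mul SS n.r))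
        (Nat.mul (absU c) u.r)) (Nat.sub L u.r))) fun r => K ⟨c, r⟩)
    false (Nat.ble L u.r)
/-- ν as a ball -/
def nuB (a b : ℕ) : Bl := ⟨CI.ofN (Nat.mul (Nat.add a b) 274877906944), Nat.mul (Nat.sub b a) 274877906944⟩
/-- a p = b y -/
def vecA (ch : Bool) (c : CI) (r : ℕ) : Bl := Bool.rec Bl.one ⟨c, r⟩ ch
def vecB (ch : Bool) (c : CI) (r : ℕ) : Bl := Bool.rec ⟨c, r⟩ Bl.one ch

/-- (b_F - ν a_F) ā_G + a_F conj(b_G - ν a_G) ≠ 0 -/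
def dtest (a b : ℕ) (chF : Bool) (cF : CI) (rF : ℕ) (chG : Bool) (cG : CI) (rG : ℕ) : Bool :=
  frB (nuB a b) fun nb => frB (vecA chF cF rF) fun aF => frB (vecA chG cG rG) fun aG =>
  frB ((vecB chF cF rF).sub (nb.mul aF)) fun x => frB ((vecB chG cG rG).sub (nb.mul aG)) fun z =>
  frB ((x.mul aG.cj).add (aF.mul z.cj)) fun d => d.ne0

/-- the box for (b, ρ) -/
def b0 : ℕ := 368090104701
def db : ℕ := 10995200
def rho0 : ℕ := 2974255918948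
def drho0 : ℕ := 109951300

def pmOf (sa sb ta tb a b : ℕ) (neg : Bool) : Pm :=
  ⟨⟨Int.sub (Int.ofNat 2748779069440) (Int.ofNat (Nat.div (Nat.add sa sb) 2)),
      Bool.rec (Int.sub (Int.ofNat b0) (Int.ofNat (Nat.div (Nat.add ta tb) 2)))
        (Int.add (Int.ofNat b0) (Int.ofNat (Nat.div (Nat.add ta tb) 2))) neg⟩,
    absN (Nat.succ (Nat.div (Nat.sub sb sa) 2)) (Nat.add (Nat.succ (Nat.div (Nat.sub tb ta) 2)) db),
    a, b, rho0, drho0⟩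
def frP {α : Type} (P : Pm) (k : Pm → α) : α :=
  frC P.k0 fun k0 => frN P.dk fun dk => frN P.a fun a => frN P.b fun b => k ⟨k0, dk, a, b, P.rho, P.drho⟩
theorem frP_eq {α : Type} (P : Pm) (k : Pm → α) : frP P k = k P := by simp only [frP, frC_eq, frN_eq]

inductive Tr : Type
  | skip : Tr
  | A : Tr
  | D (N mF mG : ℕ) : Tr
  | R (N mG : ℕ) : Tr
  | X (N m0 : ℕ) : Tr
  | sS (l r : Tr) : Tr
  | sT (l r : Tr) : Tr
  | sM (l r : Tr) : Tr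

def skipOK (sa sb ta tb ma mb : ℕ) : Bool :=
  Nat.blt (Nat.mul 33 SS) (Nat.mul 10 sa) || Nat.blt (Nat.mul 30 SS) ta ||
  (Nat.beq mb 0 && Nat.ble (Nat.mul 16 sb) SS && Nat.ble (Nat.mul 16 tb) SS) ||
  (Nat.beq mb 0 && Nat.ble (Nat.mul 3 SS) (Nat.mul 4 sa) && Nat.ble (Nat.mul 4 sb) (Nat.mul 5 SS) &&
    Nat.ble (Nat.mul 4 tb) SS) ||
  (Nat.beq ma 1 && Nat.beq mb 1 && Nat.ble SS (Nat.mul 4 sa) && Nat.ble (Nat.mul 4 sb) (Nat.mul 3 SS) &&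
    Nat.ble (Nat.mul 4 tb) SS)

/-- ν² ≥ 3.7 (τ + 0.335) + 62 -/
def leafA (tb ma : ℕ) : Bool :=
  Nat.ble (Nat.mul 4 (Nat.add (Nat.mul 37000 tb) (Nat.mul 632395 SS)))
    (Nat.mul (Nat.mul 10000 (Nat.mul (Nat.add 5 ma) (Nat.add 5 ma))) SS)

def leafD (N mF mG sa sb ta tb ma mb : ℕ) : Bool :=
  frP (pmOf sa sb ta tb (Nat.add 5 ma) (Nat.add 5 mb) false) fun PF =>
  frP (pmOf sa sb ta tb (Nat.add 5 ma) (Nat.add 5 mb) true) fun PG =>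
  run PF N mF fun chF cF rF => run PG N mG fun chG cG rG => dtest PF.a PF.b chF cF rF chG cG rG

/-- τ ≥ 0.335, ν² + 2.7 (τ - 0.335) ≥ 48, and Re ζ_G < 2ν -/
def leafR (N mG sa sb ta tb ma mb : ℕ) : Bool :=
  Nat.ble (Nat.mul 335 SS) (Nat.mul 1000 ta) &&
  Nat.ble (Nat.mul 1956180 SS) (Nat.add (Nat.mul (Nat.mul 10000 (Nat.mul (Nat.add 5 ma) (Nat.add 5 ma))) SS)
    (Nat.mul 108000 ta)) &&
  frP (pmOf sa sb ta tb (Nat.add 5 ma) (Nat.add 5 mb) true) fun PG =>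
  run PG N mG fun chG cG rG => !chG &&
    decide (Int.add cG.re (Int.ofNat rG) < Int.ofNat (Nat.mul (Nat.add 5 ma) SS))

def chkFar (t : Tr) : ℕ → ℕ → ℕ → ℕ → ℕ → ℕ → Bool :=
  Tr.rec (motive := fun _ => ℕ → ℕ → ℕ → ℕ → ℕ → ℕ → Bool)
    (fun sa sb ta tb ma mb => skipOK sa sb ta tb ma mb)
    (fun _ _ _ tb ma _ => leafA tb ma)
    (fun N mF mG sa sb ta tb ma mb => leafD N mF mG sa sb ta tb ma mb)
    (fun N mG sa sb ta tb ma mb => leafR N mG sa sb ta tb ma mb)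
    (fun _ _ _ _ _ _ _ _ => false)
    (fun _ _ l r sa sb ta tb ma mb => frN (Nat.div (Nat.add sa sb) 2) fun x =>
      l sa x ta tb ma mb && r x sb ta tb ma mb)
    (fun _ _ l r sa sb ta tb ma mb => frN (Nat.div (Nat.add ta tb) 2) fun x =>
      l sa sb ta x ma mb && r sa sb x tb ma mb)
    (fun _ _ l r sa sb ta tb ma mb => frN (Nat.div (Nat.add ma mb) 2) fun x =>
      l sa sb ta tb ma x && r sa sb ta tb (Nat.succ x) mb) t

/-! ## Near the eigenvalues -/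

/-- from level n+1 down to level 1; state: ζ̃ ∈ (ct,rt), ζ* ∈ (cs,rs), χ ∈ x -/
def loopX (P Ps : Pm) (kq W0 : CI) (ek eW0 : ℕ) (kqs W0s : CI) (eks eW0s : ℕ)
    (K : CI → ℕ → CI → ℕ → Bl → Bool) (n : ℕ) : CI → ℕ → CI → ℕ → Bl → Bool :=
  Nat.rec (motive := fun _ => CI → ℕ → CI → ℕ → Bl → Bool) K
    (fun i ih ct rt cs rs x => frN (Nat.succ i) fun j =>
      stepJ kq W0 P.rho P.drho P.dk ek eW0 j false ct rt false fun ct' rt' =>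
      stepJ kqs W0s Ps.rho Ps.drho Ps.dk eks eW0s j false cs rs false fun cs' rs' =>
      frB ((⟨ct', rt'⟩ : Bl).sub ⟨kq.sub (CI.ofN (Nat.mul j SS)), Nat.add P.dk ek⟩) fun u1 =>
      frB ((((⟨ct', rt'⟩ : Bl).sub ⟨CI.iN P.rho, P.drho⟩).sub ⟨cs, rs⟩).sub (x.mul u1)) fun nn =>
      frB ((⟨cs, rs⟩ : Bl).add ⟨kqs.sub (CI.ofN (Nat.mul j SS)), Nat.add Ps.dk eks⟩) fun uu =>
      Bl.div nn uu fun x' => ih ct' rt' cs' rs' x') n

/-- start at level n+1 ≥ 4 -/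
def runX (P Ps : Pm) (n : ℕ) (K : CI → ℕ → CI → ℕ → Bl → Bool) : Bool :=
  Nat.ble 3 n && Nat.ble P.a P.b && Nat.ble Ps.a Ps.b &&
  frC P.kq fun kq => frC P.W0 fun W0 => frN P.ek fun ek => frN P.eW0 fun eW0 =>
  frC Ps.kq fun kqs => frC Ps.W0 fun W0s => frN Ps.ek fun eks => frN Ps.eW0 fun eW0s =>
  frC (kq.sub (CI.ofN (Nat.mul (Nat.succ n) SS))) fun c => frN (P.r0 (Nat.succ n)) fun r =>
  frC (kqs.sub (CI.ofN (Nat.mul (Nat.succ n) SS))) fun cs => frN (Ps.r0 (Nat.succ n)) fun rs =>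
  frN (Nat.succ (Nat.div (Nat.add (Nat.add c.im.natAbs r) (Nat.add cs.im.natAbs rs)) (Nat.mul 2 (Nat.sub n 2))))
    fun rx => loopX P Ps kq W0 ek eW0 kqs W0s eks eW0s K n c r cs rs ⟨CI.ofN 0, rx⟩

def miN (i : Fin 3) : ℕ := Nat.add 5 (mi i)
/-- λ* at scale SS -/
def liN : Fin 3 → ℕ := ![0, 1099511627776, 549755813888]
def psiB : Fin 3 → Bl := ![Bl.one, ⟨⟨Int.ofNat (Nat.add b0 rho0), Int.ofNat SS⟩, Nat.add db drho0⟩, Bl.one]

def xtest (nb psi : Bl) (PF PG Ps : Pm) (ch : Bool) (c : CI) (r : ℕ) (zs xF xG : Bl) : Bool :=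
  frB ⟨Ps.k0, Ps.dk⟩ fun ks => frB ((nb.mul nb).sub (ks.mul ks)) fun As => frB (psi.mul As.cj) fun th =>
  frB (((xF.mul ⟨PF.kq, Nat.add PF.dk PF.ek⟩).sub ⟨CI.iN PF.rho, PF.drho⟩).sub zs) fun TF =>
  frB (((xG.mul ⟨PG.kq, Nat.add PG.dk PG.ek⟩).sub ⟨CI.iN PG.rho, PG.drho⟩).sub zs) fun TG =>
  frB (th.mul (Bl.one.sub xF)) fun u => frB (th.mul (Bl.one.sub xG)).cj fun v =>
  frB (u.add v) fun X => frB (((th.mul TF).sub (th.mul TG).cj).sub ((nb.add nb).mul v)) fun Y =>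
  frB ((X.mul (vecB ch c r)).add (Y.mul (vecA ch c r))) fun d => d.ne0

def leafX (a ls : ℕ) (psi : Bl) (n m0 sa sb ta tb : ℕ) : Bool :=
  frP (pmOf sa sb ta tb a a false) fun PF => frP (pmOf sa sb ta tb a a true) fun PG =>
  frP (pmOf ls ls 0 0 a a false) fun Ps =>
  runX PF Ps n fun ct rt cs rs xF => runX PG Ps n fun _ _ _ _ xG =>
  stepJ PF.kq PF.W0 PF.rho PF.drho PF.dk PF.ek PF.eW0 0 false ct rt (Nat.beq m0 1) fun c r =>
  xtest (nuB a a) psi PF PG Ps (Nat.beq m0 1) c r ⟨cs, rs⟩ xF xG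

def chkNear (a ls : ℕ) (psi : Bl) (t : Tr) : ℕ → ℕ → ℕ → ℕ → Bool :=
  Tr.rec (motive := fun _ => ℕ → ℕ → ℕ → ℕ → Bool)
    (fun _ _ _ _ => false) (fun _ _ _ _ => false) (fun _ _ _ _ _ _ _ => false) (fun _ _ _ _ _ _ => false)
    (fun n m0 sa sb ta tb => leafX a ls psi n m0 sa sb ta tb)
    (fun _ _ l r sa sb ta tb => frN (Nat.div (Nat.add sa sb) 2) fun x => l sa x ta tb && r x sb ta tb)
    (fun _ _ l r sa sb ta tb => frN (Nat.div (Nat.add ta tb) 2) fun x => l sa sb ta x && r sa sb x tb)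
    (fun _ _ _ _ _ _ _ _ => false) t

/-- the claim on a box (coordinates at scale SS) -/
def FarBox (sa sb ta tb ma mb : ℕ) : Prop :=
  ∀ (m : ℕ) (σ τ b ρ : ℝ) (yF pF yG pG : ℕ → ℂ), Box b ρ → 0 ≤ σ → σ ≤ 33 / 10 → 0 ≤ τ → τ ≤ 30 →
    (sa : ℝ) ≤ SS * σ → SS * σ ≤ (sb : ℝ) → (ta : ℝ) ≤ SS * τ → SS * τ ≤ (tb : ℝ) → ma ≤ m → m ≤ mb →
    (∀ i : Fin 3, mi i = m → ¬ Zone i σ τ) → Md (nu m) σ τ b ρ yF pF yG pG →
    yF 0 = 0 ∧ pF 0 = 0 ∧ pG 0 = 0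

def NearBox (i : Fin 3) (sa sb ta tb : ℕ) : Prop :=
  ∀ (σ τ b ρ t : ℝ) (yF pF yG pG Φ Q wF wG : ℕ → ℂ), Box b ρ →
    (sa : ℝ) ≤ SS * σ → SS * σ ≤ (sb : ℝ) → (ta : ℝ) ≤ SS * τ → SS * τ ≤ (tb : ℝ) →
    Md (nu (mi i)) σ τ b ρ yF pF yG pG →
    Dat2 (nu (mi i)) ρ (kk σ τ b) (kk (li i) 0 b) yF pF Φ Q wF →
    Dat2 (nu (mi i)) ρ (kk σ (-τ) b) (kk (li i) 0 b) yG pG Φ Q wG →
    wF 0 + conj (wG 0) = 0 → t ≠ 0 → Φ 1 = t * psi0 b ρ i →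
    yF 0 = 0 ∧ pF 0 = 0 ∧ pG 0 = 0

end

end Crest.Agent.R086.N
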