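import Crest.Agent.R086.N.Red2
import Crest.Agent.R086.N.EY
import Crest.Agent.R086.N.CertAll

namespace Crest.Agent.R086.N

/-- limit mode stability (backup route; S0114 uses `R086/NB`) -/
theorem limit : LimitStmt :=
  limit_of (far_of_num (farNum_of (farAll chkFar_sound)))
    (near_of_pos (near_of_box (nearAll0 chkNear_sound) (nearAll1 chkNear_sound) (nearAll2 chkNear_sound)))

end Crest.Agent.R086.N
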