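import Crest.Agent.R086.N.Defs

open MeasureTheory Set Filter Topology Complex
open scoped ContDiff ComplexConjugate

namespace Crest.Agent.R086.N

noncomputable section

/-! # ODE lemmas I: ladder, uniqueness, extension to the end point -/

variable {ν ρ₀ : ℝ} {k ks c : ℂ} {y p h Φ Q : ℝ → ℂ}

theorem lv_succ_snd (ν ρ : ℝ) (k : ℂ) (v : ℂ × ℂ) (j : ℕ) : (lv ν ρ k v (j + 1)).2 =
    ((ν : ℂ) ^ 2 - (k - j) ^ 2) * (lv ν ρ k v j).1 - kp (k - j) ρ * (lv ν ρ k v (j + 1)).1 := by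
  simp only [lv, Wg, kp]
  linear_combination (-(ρ : ℂ) ^ 2 / 4 * (lv ν ρ k v j).1) * I_sq

theorem flv_zero (ν ρ : ℝ) (k ks : ℂ) (v w : ℂ × ℂ) (j : ℕ) : flv ν ρ k ks 0 v w j = lv ν ρ k v j := by
  induction j with
  | zero => rfl
  | succ j ih => simp [flv, lv, ih]

/-- the levels of ỹ = μ y + c Φ, μ = ks - k -/
theorem lv_tilde (ν ρ : ℝ) (k ks c : ℂ) (v w : ℂ × ℂ) (j : ℕ) :
    lv ν ρ k ((ks - k) * v.1 + c * w.1, (ks - k) * v.2 + c * w.2) j =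
      ((ks - k) * (flv ν ρ k ks c v w j).1 + c * (lv ν ρ ks w j).1,
       (ks - k) * (flv ν ρ k ks c v w j).2 + c * (lv ν ρ ks w j).2) := by
  induction j with
  | zero => rfl
  | succ j ih =>
    simp only [flv, lv, ih, Wg, kp, Prod.mk.injEq]
    constructor <;> ring

theorem om_succ (ν ρ : ℝ) (k ks c : ℂ) (v w : ℂ × ℂ) (j : ℕ) :
    om ν ρ k ks c v w (j + 1) = -((ν : ℂ) ^ 2 - (ks - j) ^ 2) * om ν ρ k ks c v w j
      + ((lv ν ρ k ((ks - k) * v.1 + c * w.1, (ks - k) * v.2 + c * w.2) j).2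
          - I * ρ * (lv ν ρ k ((ks - k) * v.1 + c * w.1, (ks - k) * v.2 + c * w.2) j).1) * (lv ν ρ ks w (j + 1)).1
      - (lv ν ρ k ((ks - k) * v.1 + c * w.1, (ks - k) * v.2 + c * w.2) j).1 * (lv ν ρ ks w (j + 1)).2 := by
  rw [lv_tilde]
  simp only [om, flv, lv, Wg, kp]
  generalize flv ν ρ k ks c v w j = a
  generalize lv ν ρ ks w j = b
  have hI := I_sq
  grind

private theorem d_r (ρ : ℝ) : HasDerivAt (fun ρ : ℝ => (ρ : ℂ)) 1 ρ := ofRealCLM.hasDerivAt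

private theorem d_kp (k : ℂ) (ρ : ℝ) : HasDerivAt (kp k) (I / 2) ρ :=
  ((((d_r ρ).const_mul I).div_const 2).const_add k).congr_deriv (by ring)

private theorem d_Wg (ν : ℝ) (k : ℂ) (ρ : ℝ) : HasDerivAt (Wg ν k) (-(ρ : ℂ) / 2 + I * k) ρ :=
  (((((d_r ρ).fun_pow 2).div_const 4).const_sub ((ν : ℂ) ^ 2)).fun_add
    (((d_r ρ).const_mul I).mul_const k)).congr_deriv (by push_cast; ring)

private theorem c_kp (k : ℂ) : Continuous (kp k) := by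
  unfold kp
  fun_prop

private theorem c_Wg (ν : ℝ) (k : ℂ) : Continuous (Wg ν k) := by
  unfold Wg
  fun_prop

private theorem c_WW (ν : ℝ) (k : ℂ) : Continuous (WW ν k) := by
  unfold WW
  fun_prop

/-- one forced ladder step (product rule, `field_simp`, `ring`, I² = -1) -/
theorem NF.ladder (h0 : 0 < ρ₀) (h1 : NF ν k ρ₀ y p (fun ρ => -I * ρ * (c * Φ ρ))) (h2 : NF ν ks ρ₀ Φ Q 0) :
    NF ν (k - 1) ρ₀ (fun ρ => p ρ - kp k ρ * y ρ + c * Φ ρ)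
      (fun ρ => Wg ν k ρ * y ρ - kp k ρ * p ρ + c * (Q ρ - I * ρ * Φ ρ))
      (fun ρ => -I * ρ * (c * (Q ρ - kp ks ρ * Φ ρ))) := by
  refine ⟨⟨fun ρ hρ => ?_, fun ρ hρ => ?_⟩,
    (h1.cp.sub ((c_kp k).continuousOn.mul h1.cy)).add (continuousOn_const.mul h2.cy),
    (((c_Wg ν k).continuousOn.mul h1.cy).sub ((c_kp k).continuousOn.mul h1.cp)).add
      (continuousOn_const.mul (h2.cp.sub
        ((continuousOn_const.mul continuous_ofReal.continuousOn).mul h2.cy)))⟩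
  · have hρ' : (ρ : ℂ) ≠ 0 := ofReal_ne_zero.2 (h0.trans hρ).ne'
    refine (((h1.dp ρ hρ).fun_sub ((d_kp k ρ).fun_mul (h1.dy ρ hρ))).fun_add
      ((h2.dy ρ hρ).const_mul c)).congr_deriv ?_
    simp only [WW, Wg, kp]
    field_simp
    ring
  · have hρ' : (ρ : ℂ) ≠ 0 := ofReal_ne_zero.2 (h0.trans hρ).ne'
    refine ((((d_Wg ν k ρ).fun_mul (h1.dy ρ hρ)).fun_sub
      ((d_kp k ρ).fun_mul (h1.dp ρ hρ))).fun_add (((h2.dp ρ hρ).fun_sub
        (((d_r ρ).const_mul I).fun_mul (h2.dy ρ hρ))).const_mul c)).congr_deriv ?_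
    simp only [WW, Wg, kp, Pi.zero_apply]
    field_simp
    have hI := I_sq
    grind

theorem NF.level (h0 : 0 < ρ₀) (h1 : NF ν k ρ₀ y p 0) (j : ℕ) :
    NF ν (k - j) ρ₀ (fun ρ => (lv ν ρ k (y ρ, p ρ) j).1) (fun ρ => (lv ν ρ k (y ρ, p ρ) j).2) 0 := by
  induction j with
  | zero => simpa [lv] using h1
  | succ j ih =>
    have h := NF.ladder (c := 0) h0 (by convert ih; simp) ih
    rw [show k - ((j + 1 : ℕ) : ℂ) = k - j - 1 by push_cast; ring]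
    convert h using 1 <;> funext _ <;> simp [lv]

theorem NF.flevel (h0 : 0 < ρ₀) (h1 : NF ν k ρ₀ y p (fun ρ => -I * ρ * (c * Φ ρ))) (h2 : NF ν ks ρ₀ Φ Q 0)
    (j : ℕ) : NF ν (k - j) ρ₀ (fun ρ => (flv ν ρ k ks c (y ρ, p ρ) (Φ ρ, Q ρ) j).1)
      (fun ρ => (flv ν ρ k ks c (y ρ, p ρ) (Φ ρ, Q ρ) j).2)
      (fun ρ => -I * ρ * (c * (lv ν ρ ks (Φ ρ, Q ρ) j).1)) := by
  induction j with
  | zero => simpa [flv, lv] using h1
  | succ j ih =>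
    have h := NF.ladder h0 ih (h2.level h0 j)
    rw [show k - ((j + 1 : ℕ) : ℂ) = k - j - 1 by push_cast; ring]
    exact h

/-- ỹ solves the homogeneous equation -/
theorem NF.tilde (h0 : 0 < ρ₀) (h1 : NF ν k ρ₀ y p (fun ρ => -I * ρ * (c * Φ ρ))) (h2 : NF ν ks ρ₀ Φ Q 0) :
    NF ν k ρ₀ (fun ρ => (ks - k) * y ρ + c * Φ ρ) (fun ρ => (ks - k) * p ρ + c * Q ρ) 0 := by
  refine ⟨⟨fun ρ hρ => ?_, fun ρ hρ => ?_⟩,
    (continuousOn_const.mul h1.cy).add (continuousOn_const.mul h2.cy),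
    (continuousOn_const.mul h1.cp).add (continuousOn_const.mul h2.cp)⟩
  · exact (((h1.dy ρ hρ).const_mul _).fun_add ((h2.dy ρ hρ).const_mul c)).congr_deriv (by ring)
  · refine (((h1.dp ρ hρ).const_mul _).fun_add ((h2.dp ρ hρ).const_mul c)).congr_deriv ?_
    simp only [WW, Pi.zero_apply]
    ring

theorem NF.sub_smul (h1 : NF ν k ρ₀ y p 0) (h2 : NF ν k ρ₀ Φ Q 0) (d : ℂ) :
    NF ν k ρ₀ (fun ρ => y ρ - d * Φ ρ) (fun ρ => p ρ - d * Q ρ) 0 := by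
  refine ⟨⟨fun ρ hρ => ?_, fun ρ hρ => ?_⟩, h1.cy.sub (continuousOn_const.mul h2.cy),
    h1.cp.sub (continuousOn_const.mul h2.cp)⟩
  · exact ((h1.dy ρ hρ).fun_sub ((h2.dy ρ hρ).const_mul d)).congr_deriv (by ring)
  · refine ((h1.dp ρ hρ).fun_sub ((h2.dp ρ hρ).const_mul d)).congr_deriv ?_
    simp only [Pi.zero_apply]
    ring

theorem NF.mono (h1 : NF ν k ρ₀ y p h) {ρ₁ : ℝ} (hρ : ρ₀ ≤ ρ₁) : NF ν k ρ₁ y p h := by
  exact ⟨⟨fun ρ h => h1.dy ρ (hρ.trans_lt h), fun ρ h => h1.dp ρ (hρ.trans_lt h)⟩,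
    h1.cy.mono (Ici_subset_Ici.2 hρ), h1.cp.mono (Ici_subset_Ici.2 hρ)⟩

private theorem gron {u u' : ℝ → ℝ} {a b C : ℝ} (hab : a ≤ b) (hc : ContinuousOn u (Icc a b))
    (hd : ∀ x ∈ Ioo a b, HasDerivAt u (u' x) x) (hb : ∀ x ∈ Ioo a b, -(C * u x) ≤ u' x) :
    Real.exp (C * a) * u a ≤ Real.exp (C * b) * u b := by
  have h : ∀ x ∈ Ioo a b, HasDerivAt (fun x => Real.exp (C * x) * u x)
      (Real.exp (C * x) * (C * u x + u' x)) x := fun x hx =>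
    ((((hasDerivAt_id x).const_mul C).exp).fun_mul (hd x hx)).congr_deriv (by simp; ring)
  refine monotoneOn_of_deriv_nonneg (f := fun x => Real.exp (C * x) * u x) (convex_Icc a b)
    ((by fun_prop : Continuous fun x => Real.exp (C * x)).continuousOn.mul hc) ?_ ?_
    (left_mem_Icc.2 hab) (right_mem_Icc.2 hab) hab
  · rw [interior_Icc]
    exact fun x hx => (h x hx).differentiableAt.differentiableWithinAt
  · rw [interior_Icc]
    intro x hx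
    rw [(h x hx).deriv]
    exact mul_nonneg (Real.exp_pos _).le (by linarith [hb x hx])

private theorem two_sided (h0 : 0 < ρ₀) (h1 : NFo ν k ρ₀ y p h) {a b B H : ℝ} (ha : ρ₀ ≤ a)
    (hab : a ≤ b) (cy : ContinuousOn y (Icc a b)) (cp : ContinuousOn p (Icc a b))
    (hB : ∀ ρ ∈ Icc a b, ‖WW ν k ρ‖ ≤ B) (hH : ∀ ρ ∈ Icc a b, ‖h ρ‖ ≤ H) :
    Real.exp ((B + 2) / ρ₀ * a) * (‖y a‖ ^ 2 + ‖p a‖ ^ 2 + H ^ 2) ≤
      Real.exp ((B + 2) / ρ₀ * b) * (‖y b‖ ^ 2 + ‖p b‖ ^ 2 + H ^ 2) ∧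
    Real.exp (-((B + 2) / ρ₀) * b) * (‖y b‖ ^ 2 + ‖p b‖ ^ 2 + H ^ 2) ≤
      Real.exp (-((B + 2) / ρ₀) * a) * (‖y a‖ ^ 2 + ‖p a‖ ^ 2 + H ^ 2) := by
  have hc : ContinuousOn (fun x => ‖y x‖ ^ 2 + ‖p x‖ ^ 2 + H ^ 2) (Icc a b) :=
    ((cy.norm.pow 2).add (cp.norm.pow 2)).add continuousOn_const
  have hd : ∀ x ∈ Ioo a b, HasDerivAt (fun x => ‖y x‖ ^ 2 + ‖p x‖ ^ 2 + H ^ 2)
      (2 * inner ℝ (y x) (p x / x) + 2 * inner ℝ (p x) ((WW ν k x * y x + h x) / x)) x :=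
    fun x hx => ((h1.dy x (ha.trans_lt hx.1)).norm_sq.fun_add
      (h1.dp x (ha.trans_lt hx.1)).norm_sq).add_const _
  have hb : ∀ x ∈ Ioo a b,
      |2 * inner ℝ (y x) (p x / x) + 2 * inner ℝ (p x) ((WW ν k x * y x + h x) / x)| ≤
        (B + 2) / ρ₀ * (‖y x‖ ^ 2 + ‖p x‖ ^ 2 + H ^ 2) := fun x hx => by
    have hx0 : ρ₀ ≤ x := ha.trans hx.1.le
    have hx1 : 0 < x := h0.trans_le hx0
    have g1 := abs_real_inner_le_norm (y x) (p x / x)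
    have g2 := abs_real_inner_le_norm (p x) ((WW ν k x * y x + h x) / x)
    rw [norm_div, norm_real, Real.norm_of_nonneg hx1.le] at g1 g2
    have g3 := hB x (Ioo_subset_Icc_self hx)
    have g4 := hH x (Ioo_subset_Icc_self hx)
    have g5 : ‖WW ν k x * y x + h x‖ ≤ B * ‖y x‖ + H := (norm_add_le _ _).trans (by
      rw [norm_mul]
      exact add_le_add (mul_le_mul_of_nonneg_right g3 (norm_nonneg _)) g4)
    have hB0 : 0 ≤ B := (norm_nonneg _).trans g3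
    have hH0 : 0 ≤ H := (norm_nonneg _).trans g4
    have g6 : ‖y x‖ * (‖p x‖ / x) ≤ ‖y x‖ * (‖p x‖ / ρ₀) := by gcongr
    have g7 : ‖p x‖ * (‖WW ν k x * y x + h x‖ / x) ≤ ‖p x‖ * ((B * ‖y x‖ + H) / ρ₀) := by gcongr
    refine (abs_add_le _ _).trans ?_
    rw [abs_mul, abs_mul, abs_two]
    refine (add_le_add (mul_le_mul_of_nonneg_left (g1.trans g6) two_pos.le)
      (mul_le_mul_of_nonneg_left (g2.trans g7) two_pos.le)).trans ?_
    rw [div_mul_eq_mul_div, le_div_iff₀ h0]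
    have e : (2 * (‖y x‖ * (‖p x‖ / ρ₀)) + 2 * (‖p x‖ * ((B * ‖y x‖ + H) / ρ₀))) * ρ₀ =
        2 * (‖y x‖ * ‖p x‖) + 2 * (‖p x‖ * (B * ‖y x‖ + H)) := by
      field_simp
    rw [e]
    nlinarith [mul_nonneg hB0 (sq_nonneg (‖y x‖ - ‖p x‖)), sq_nonneg (‖y x‖ - ‖p x‖),
      sq_nonneg (‖p x‖ - H), mul_nonneg hB0 (sq_nonneg H), sq_nonneg ‖y x‖, sq_nonneg H]
  refine ⟨gron hab hc hd fun x hx => (abs_le.1 (hb x hx)).1, ?_⟩
  have h2 := gron (C := -((B + 2) / ρ₀)) hab hc.neg (fun x hx => (hd x hx).neg) fun x hx => by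
    have := (abs_le.1 (hb x hx)).2
    simp only [Pi.neg_apply]
    linarith
  simp only [Pi.neg_apply] at h2
  linarith

/-- u = |y|²+|p|² has |u'| ≤ C u on bounded intervals, so e^{-Cρ}u is antitone and e^{Cρ}u is monotone
(`antitoneOn_of_deriv_nonpos` needs continuity on the closed interval and derivatives inside only) -/
theorem NF.eq_zero (h0 : 0 < ρ₀) (h1 : NF ν k ρ₀ y p 0) {ρ₁ : ℝ} (hρ₁ : ρ₀ ≤ ρ₁) (hy : y ρ₁ = 0)
    (hp : p ρ₁ = 0) : ∀ ρ, ρ₀ ≤ ρ → y ρ = 0 ∧ p ρ = 0 := by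
  intro ρ hρ
  have key : ‖y ρ‖ ^ 2 + ‖p ρ‖ ^ 2 + 0 ^ 2 ≤ 0 := by
    rcases le_total ρ ρ₁ with h | h
    · obtain ⟨B, hB⟩ := isCompact_Icc.exists_bound_of_continuousOn
        ((c_WW ν k).continuousOn (s := Icc ρ ρ₁))
      have h2 := (two_sided (H := 0) h0 h1.toNFo hρ h (h1.cy.mono fun x hx => hρ.trans hx.1)
        (h1.cp.mono fun x hx => hρ.trans hx.1) hB fun _ _ => by simp).1
      rw [hy, hp] at h2
      exact nonpos_of_mul_nonpos_right (by simpa using h2) (Real.exp_pos ((B + 2) / ρ₀ * ρ))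
    · obtain ⟨B, hB⟩ := isCompact_Icc.exists_bound_of_continuousOn
        ((c_WW ν k).continuousOn (s := Icc ρ₁ ρ))
      have h2 := (two_sided (H := 0) h0 h1.toNFo hρ₁ h (h1.cy.mono fun x hx => hρ₁.trans hx.1)
        (h1.cp.mono fun x hx => hρ₁.trans hx.1) hB fun _ _ => by simp).2
      rw [hy, hp] at h2
      exact nonpos_of_mul_nonpos_right (by simpa using h2) (Real.exp_pos (-((B + 2) / ρ₀) * ρ))
  constructor <;> rw [← norm_eq_zero, ← sq_eq_zero_iff] <;>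
    nlinarith [sq_nonneg ‖y ρ‖, sq_nonneg ‖p ρ‖]

private theorem ext_pt {f f' : ℝ → ℂ} {a L : ℝ} (hd : ∀ x, a < x → HasDerivAt f (f' x) x)
    (hL : ∀ x ∈ Ioo a (a + 1), ‖f' x‖ ≤ L) :
    ∃ g : ℝ → ℂ, ContinuousOn g (Ici a) ∧ ∀ x, a < x → g x = f x ∧ HasDerivAt g (f' x) x := by
  have h1 : LipschitzOnWith L.toNNReal f (Ioo a (a + 1)) :=
    (convex_Ioo a (a + 1)).lipschitzOnWith_of_nnnorm_hasDerivWithin_le
      (fun x hx => (hd x hx.1).hasDerivWithinAt) fun x hx => by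
        rw [← NNReal.coe_le_coe]
        exact (hL x hx).trans (Real.le_coe_toNNReal L)
  obtain ⟨G, hG, hG'⟩ := h1.extend_finite_dimension
  have h2 : ∀ x, a < x → HasDerivAt (Function.update f a (G a)) (f' x) x := fun x hx =>
    (hd x hx).congr_of_eventuallyEq ((eventually_ne_nhds hx.ne').mono fun z hz =>
      Function.update_of_ne hz _ _)
  refine ⟨Function.update f a (G a), fun x hx => ?_,
    fun x hx => ⟨Function.update_of_ne hx.ne' _ _, h2 x hx⟩⟩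
  rcases (mem_Ici.1 hx).eq_or_lt with rfl | hx
  · rw [continuousWithinAt_update_same, Ici_sdiff_left]
    refine (hG.continuous.continuousAt.tendsto.mono_left nhdsWithin_le_nhds).congr' ?_
    filter_upwards [Ioo_mem_nhdsGT (lt_add_one a)] with z hz using (hG' hz).symm
  · exact (h2 x hx).continuousAt.continuousWithinAt

/-- u = |y|²+|p|²+1 has u' ≥ -C u on (ρ₀, ρ₀+1], so y, p are bounded there, hence Lipschitz, hence have
limits at ρ₀+ (Cauchy); redefine at ρ₀ (`Function.update` / `extendFrom`) -/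
theorem NFo.extend (h0 : 0 < ρ₀) (h1 : NFo ν k ρ₀ y p h) (hh : ContinuousOn h (Ici ρ₀)) :
    ∃ y' p' : ℝ → ℂ, NF ν k ρ₀ y' p' h ∧ ∀ ρ, ρ₀ < ρ → y' ρ = y ρ ∧ p' ρ = p ρ := by
  obtain ⟨B, hB⟩ := isCompact_Icc.exists_bound_of_continuousOn
    ((c_WW ν k).continuousOn (s := Icc ρ₀ (ρ₀ + 1)))
  obtain ⟨H, hH⟩ := isCompact_Icc.exists_bound_of_continuousOn
    (hh.mono (Icc_subset_Ici_self : Icc ρ₀ (ρ₀ + 1) ⊆ _))
  have hB0 : 0 ≤ B := (norm_nonneg _).trans (hB ρ₀ ⟨le_rfl, by linarith⟩)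
  obtain ⟨M, hM⟩ : ∃ M, M = Real.exp ((B + 2) / ρ₀ * (ρ₀ + 1)) *
      (‖y (ρ₀ + 1)‖ ^ 2 + ‖p (ρ₀ + 1)‖ ^ 2 + H ^ 2) := ⟨_, rfl⟩
  have hb : ∀ x ∈ Ioo ρ₀ (ρ₀ + 1), ‖y x‖ ≤ M + 1 ∧ ‖p x‖ ≤ M + 1 := fun x hx => by
    have h2 := (two_sided h0 h1 hx.1.le hx.2.le
      (fun z hz => (h1.dy z (hx.1.trans_le hz.1)).continuousAt.continuousWithinAt)
      (fun z hz => (h1.dp z (hx.1.trans_le hz.1)).continuousAt.continuousWithinAt)
      (fun z hz => hB z ⟨hx.1.le.trans hz.1, hz.2⟩) fun z hz => hH z ⟨hx.1.le.trans hz.1, hz.2⟩).1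
    have h3 : 0 < x := h0.trans hx.1
    have h4 := (le_mul_of_one_le_left (by positivity) (Real.one_le_exp (by positivity))).trans h2
    rw [← hM] at h4
    constructor <;> nlinarith [sq_nonneg (‖y x‖ - 1), sq_nonneg (‖p x‖ - 1), sq_nonneg H,
      sq_nonneg ‖y x‖, sq_nonneg ‖p x‖]
  obtain ⟨y', cy, hy⟩ := ext_pt (L := (M + 1) / ρ₀) h1.dy fun x hx => by
    rw [norm_div, norm_real, Real.norm_of_nonneg (h0.trans hx.1).le]
    exact div_le_div₀ ((norm_nonneg _).trans (hb x hx).2) (hb x hx).2 h0 hx.1.le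
  obtain ⟨p', cp, hp⟩ := ext_pt (L := (B * (M + 1) + H) / ρ₀) h1.dp fun x hx => by
    have h2 : ‖WW ν k x * y x + h x‖ ≤ B * (M + 1) + H := (norm_add_le _ _).trans (by
      rw [norm_mul]
      exact add_le_add (mul_le_mul (hB x (Ioo_subset_Icc_self hx)) (hb x hx).1 (norm_nonneg _) hB0)
        (hH x (Ioo_subset_Icc_self hx)))
    rw [norm_div, norm_real, Real.norm_of_nonneg (h0.trans hx.1).le]
    exact div_le_div₀ ((norm_nonneg _).trans h2) h2 h0 hx.1.le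
  refine ⟨y', p', ⟨⟨fun ρ hρ => ?_, fun ρ hρ => ?_⟩, cy, cp⟩,
    fun ρ hρ => ⟨(hy ρ hρ).1, (hp ρ hρ).1⟩⟩
  · rw [(hp ρ hρ).1]
    exact (hy ρ hρ).2
  · rw [(hy ρ hρ).1]
    exact (hp ρ hρ).2

end

end Crest.Agent.R086.N
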