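import Crest.Agent.R086.N.OdeA

open MeasureTheory Set Filter Topology Complex
open scoped ContDiff ComplexConjugate

namespace Crest.Agent.R086.N

noncomputable section

/-! # ODE lemmas II: square integrability -/

variable {ν ρ₀ : ℝ} {k : ℂ} {y p : ℝ → ℂ}

theorem L2.on {y : ℝ → ℂ} (h : L2 y) {ρ₀ : ℝ} (hc : ContinuousOn y (Ici ρ₀)) :
    IntegrableOn (fun ρ => ‖y ρ‖ ^ 2) (Ioi ρ₀) := by
  obtain ⟨ρ₁, h⟩ := h
  have h1 : IntegrableOn (fun ρ => ‖y ρ‖ ^ 2) (Icc ρ₀ ρ₁) :=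
    ((hc.mono Icc_subset_Ici_self).norm.pow 2).integrableOn_Icc
  refine (h1.union h).mono_set fun x hx => ?_
  rcases le_or_gt x ρ₁ with h2 | h2
  · exact Or.inl ⟨le_of_lt hx, h2⟩
  · exact Or.inr h2

theorem L2.congr {y z : ℝ → ℂ} (h : L2 y) {ρ₀ : ℝ} (hyz : ∀ ρ, ρ₀ < ρ → y ρ = z ρ) : L2 z := by
  obtain ⟨ρ₁, h⟩ := h
  refine ⟨max ρ₀ ρ₁, (h.mono_set (Ioi_subset_Ioi (le_max_right _ _))).congr_fun
    (fun x hx => ?_) measurableSet_Ioi⟩
  simp only [hyz x (lt_of_le_of_lt (le_max_left _ _) hx)]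

theorem L2.add {y z : ℝ → ℂ} (h : L2 y) (h' : L2 z) {ρ₀ : ℝ} (hy : ContinuousOn y (Ioi ρ₀))
    (hz : ContinuousOn z (Ioi ρ₀)) : L2 (fun ρ => y ρ + z ρ) := by
  obtain ⟨ρ₁, h⟩ := h
  obtain ⟨ρ₂, h'⟩ := h'
  have s0 : Ioi (max ρ₀ (max ρ₁ ρ₂)) ⊆ Ioi ρ₀ := Ioi_subset_Ioi (le_max_left _ _)
  have s1 : Ioi (max ρ₀ (max ρ₁ ρ₂)) ⊆ Ioi ρ₁ :=
    Ioi_subset_Ioi ((le_max_left _ _).trans (le_max_right _ _))
  have s2 : Ioi (max ρ₀ (max ρ₁ ρ₂)) ⊆ Ioi ρ₂ :=
    Ioi_subset_Ioi ((le_max_right _ _).trans (le_max_right _ _))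
  refine ⟨max ρ₀ (max ρ₁ ρ₂), Integrable.mono'
    (((h.mono_set s1).const_mul 2).add ((h'.mono_set s2).const_mul 2))
    (((((hy.mono s0).add (hz.mono s0)).norm.pow 2)).aestronglyMeasurable measurableSet_Ioi)
    (Eventually.of_forall fun x => ?_)⟩
  have h1 := norm_add_le (y x) (z x)
  have h2 := norm_nonneg (y x + z x)
  rw [Real.norm_of_nonneg (by positivity)]
  simp only [Pi.add_apply]
  nlinarith [sq_nonneg (‖y x‖ - ‖z x‖)]

/-- multiplication by a bounded continuous function -/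
theorem L2.mul {y a : ℝ → ℂ} (h : L2 y) {ρ₀ C : ℝ} (hy : ContinuousOn y (Ioi ρ₀))
    (ha : ContinuousOn a (Ioi ρ₀)) (hC : ∀ ρ, ρ₀ < ρ → ‖a ρ‖ ≤ C) : L2 (fun ρ => a ρ * y ρ) := by
  obtain ⟨ρ₁, h⟩ := h
  have s0 : Ioi (max ρ₀ ρ₁) ⊆ Ioi ρ₀ := Ioi_subset_Ioi (le_max_left _ _)
  have s1 : Ioi (max ρ₀ ρ₁) ⊆ Ioi ρ₁ := Ioi_subset_Ioi (le_max_right _ _)
  refine ⟨max ρ₀ ρ₁, Integrable.mono' ((h.mono_set s1).const_mul (C ^ 2))
    (((((ha.mono s0).mul (hy.mono s0)).norm.pow 2)).aestronglyMeasurable measurableSet_Ioi)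
    ((ae_restrict_iff' measurableSet_Ioi).2 (Eventually.of_forall fun x hx => ?_))⟩
  rw [Real.norm_of_nonneg (by positivity), norm_mul, mul_pow]
  exact mul_le_mul_of_nonneg_right (pow_le_pow_left₀ (norm_nonneg _) (hC x (s0 hx)) 2)
    (by positivity)

theorem L2.integrable_mul {y z : ℝ → ℂ} (h : L2 y) (h' : L2 z) {ρ₀ : ℝ} (hy : ContinuousOn y (Ici ρ₀))
    (hz : ContinuousOn z (Ici ρ₀)) : IntegrableOn (fun ρ => y ρ * z ρ) (Ioi ρ₀) := by
  refine Integrable.mono' ((h.on hy).add (h'.on hz))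
    (((hy.mul hz).mono Ioi_subset_Ici_self).aestronglyMeasurable measurableSet_Ioi)
    (Eventually.of_forall fun x => ?_)
  rw [norm_mul]
  simp only [Pi.add_apply]
  nlinarith [sq_nonneg (‖y x‖ - ‖z x‖), mul_nonneg (norm_nonneg (y x)) (norm_nonneg (z x))]

/-- an integrable function on (a,∞) is < ε at arbitrarily large points -/
theorem exists_lt_of_integrableOn {f : ℝ → ℝ} {a : ℝ} (hf : IntegrableOn f (Ioi a)) {ε : ℝ} (hε : 0 < ε)
    (X : ℝ) : ∃ ρ, X ≤ ρ ∧ f ρ < ε := by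
  by_contra hcon
  push Not at hcon
  have h1 : IntegrableOn (fun _ : ℝ => ε) (Ioi (max a X)) := by
    refine Integrable.mono' (hf.mono_set (Ioi_subset_Ioi (le_max_left a X))) aestronglyMeasurable_const
      ((ae_restrict_iff' measurableSet_Ioi).2 (Eventually.of_forall fun x hx => ?_))
    rw [Real.norm_of_nonneg hε.le]
    exact hcon x ((le_max_right a X).trans (le_of_lt hx))
  rw [integrableOn_const_iff] at h1
  rcases h1 with h1 | h1
  · simp [hε.ne'] at h1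
  · simp at h1

/-- a monotone integrable function is ≤ 0 -/
theorem nonpos_of_monotoneOn {f : ℝ → ℝ} {a : ℝ} (hm : MonotoneOn f (Ici a)) (hf : IntegrableOn f (Ioi a)) :
    ∀ ρ, a ≤ ρ → f ρ ≤ 0 := by
  intro ρ hρ
  by_contra hcon
  obtain ⟨x, hx, hlt⟩ := exists_lt_of_integrableOn hf (not_le.1 hcon) ρ
  exact absurd (hm hρ (hρ.trans hx) hx) (not_le.2 hlt)

/-- if X → L and X/ρ is integrable at ∞ then L = 0 -/
theorem lim_zero_of_div {X : ℝ → ℂ} {L : ℂ} {a : ℝ} (ha : 0 < a) (hL : Tendsto X atTop (𝓝 L))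
    (hi : IntegrableOn (fun ρ => X ρ / ρ) (Ioi a)) : L = 0 := by
  by_contra hne
  have hpos : 0 < ‖L‖ := norm_pos_iff.2 hne
  obtain ⟨b, hb⟩ := eventually_atTop.1 (hL.norm.eventually (lt_mem_nhds (half_lt_self hpos)))
  refine not_integrableOn_Ioi_inv (a := max a b) (Integrable.mono'
    ((hi.mono_set (Ioi_subset_Ioi (le_max_left a b))).norm.const_mul (2 / ‖L‖))
    measurable_inv.aestronglyMeasurable
    ((ae_restrict_iff' measurableSet_Ioi).2 (Eventually.of_forall fun x hx => ?_)))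
  have hx0 : 0 < x := ha.trans (lt_of_le_of_lt (le_max_left a b) hx)
  have h1 := hb x ((le_max_right a b).trans (le_of_lt hx))
  rw [norm_div, Complex.norm_real, Real.norm_of_nonneg hx0.le, Real.norm_of_nonneg (by positivity),
    ← mul_div_assoc, inv_eq_one_div]
  refine div_le_div_of_nonneg_right ?_ hx0.le
  rw [div_mul_eq_mul_div, le_div_iff₀ hpos]
  linarith

theorem odeB_mono {f f' : ℝ → ℝ} {a : ℝ} (hd : ∀ x, a < x → HasDerivAt f (f' x) x)
    (h : ∀ x, a < x → 0 ≤ f' x) : MonotoneOn f (Ioi a) :=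
  monotoneOn_of_deriv_nonneg (convex_Ioi a)
    (fun x hx => (hd x hx).continuousAt.continuousWithinAt)
    (fun x hx => (hd x (interior_subset hx)).differentiableAt.differentiableWithinAt)
    (fun x hx => by rw [(hd x (interior_subset hx)).deriv]; exact h x (interior_subset hx))

theorem odeB_prim {g : ℝ → ℝ} {a : ℝ} (hc : ContinuousOn g (Ioi a)) (hi : IntegrableOn g (Ioi a))
    (h0 : ∀ x, 0 ≤ g x) : ∃ (V : ℝ → ℝ) (M : ℝ), (∀ x, a < x → HasDerivAt V (g x) x) ∧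
      ∀ x, a < x → 0 ≤ V x ∧ V x ≤ M := by
  refine ⟨fun x => ∫ s in a..x, g s, ∫ s in Ioi a, g s, fun x hx => ?_, fun x hx => ⟨?_, ?_⟩⟩
  · exact intervalIntegral.integral_hasDerivAt_right
      ((intervalIntegrable_iff_integrableOn_Ioc_of_le hx.le).2 (hi.mono_set Ioc_subset_Ioi_self))
      (hc.stronglyMeasurableAtFilter isOpen_Ioi x hx) (hc.continuousAt (Ioi_mem_nhds hx))
  · exact intervalIntegral.integral_nonneg hx.le fun s _ => h0 s
  · simp only []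
    rw [intervalIntegral.integral_of_le hx.le]
    exact setIntegral_mono_set hi (Eventually.of_forall h0) Ioc_subset_Ioi_self.eventuallyLE

theorem odeB_re {u : ℝ → ℂ} {u' : ℂ} {x : ℝ} (h : HasDerivAt u u' x) :
    HasDerivAt (fun s => (u s).re) u'.re x :=
  Complex.reCLM.hasFDerivAt.comp_hasDerivAt x h

theorem odeB_ofReal (r : ℝ) : HasDerivAt (fun x : ℝ => (x : ℂ)) 1 r :=
  Complex.ofRealCLM.hasDerivAt

theorem odeB_nsq {u : ℝ → ℂ} {u' : ℂ} {x : ℝ} (h : HasDerivAt u u' x) :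
    HasDerivAt (fun s => ‖u s‖ ^ 2) (2 * (conj (u x) * u').re) x := by
  refine h.norm_sq.congr_deriv ?_
  rw [Complex.inner, mul_comm u']

/-- a differential inequality that gives integrability -/
theorem odeB_int {f g F F' : ℝ → ℝ} {a J : ℝ} (hf : ContinuousOn f (Ioi a)) (hf0 : ∀ x, 0 ≤ f x)
    (hg : ContinuousOn g (Ioi a)) (hgi : IntegrableOn g (Ioi a)) (hg0 : ∀ x, 0 ≤ g x)
    (hd : ∀ x, a < x → HasDerivAt F (F' x) x) (hle : ∀ x, a < x → f x ≤ F' x + g x)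
    (hJ : ∀ X, ∃ x, X ≤ x ∧ F x ≤ J) : IntegrableOn f (Ioi (a + 1)) := by
  obtain ⟨V, M, hV, hM⟩ := odeB_prim hg hgi hg0
  have ha1 : a < a + 1 := lt_add_one a
  have hii : ∀ x, a < x → IntervalIntegrable f volume (a + 1) x := fun x hx =>
    (hf.mono (Set.ordConnected_Ioi.uIcc_subset ha1 hx)).intervalIntegrable
  have hP : ∀ x, a < x → HasDerivAt (fun x => ∫ s in (a + 1)..x, f s) (f x) x := fun x hx =>
    intervalIntegral.integral_hasDerivAt_right (hii x hx)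
      (hf.stronglyMeasurableAtFilter isOpen_Ioi x hx) (hf.continuousAt (Ioi_mem_nhds hx))
  have hm := odeB_mono (fun x hx => ((hd x hx).add (hV x hx)).sub (hP x hx))
    (fun x hx => sub_nonneg.2 (hle x hx))
  choose b hb hbJ using hJ
  have hb1 : ∀ X, a + 1 ≤ b (max X (a + 1)) := fun X => (le_max_right _ _).trans (hb _)
  refine integrableOn_Ioi_of_intervalIntegral_norm_bounded (l := atTop)
    (b := fun X => b (max X (a + 1))) (J + M - F (a + 1)) (a + 1)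
    (fun X => (intervalIntegrable_iff_integrableOn_Ioc_of_le (hb1 X)).1
      (hii _ (ha1.trans_le (hb1 X))))
    (tendsto_atTop_mono (fun X => (le_max_left _ _).trans (hb _)) tendsto_id)
    (Eventually.of_forall fun X => ?_)
  have h1 := hm ha1 (ha1.trans_le (hb1 X)) (hb1 X)
  simp only [Pi.sub_apply, Pi.add_apply, intervalIntegral.integral_same] at h1
  simp only [fun x => Real.norm_of_nonneg (hf0 x)]
  linarith [hbJ (max X (a + 1)), (hM _ ha1).1, (hM _ (ha1.trans_le (hb1 X))).2]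

/-- if X → L, u' = X/ρ + v with u, v integrable, then L = 0.  (w = Re(L̄ u) has w' ≥ |L|²/(2ρ) - |L||v| for
large ρ, so w → +∞ if L ≠ 0, contradicting `exists_lt_of_integrableOn`.) -/
theorem lim_zero_of_deriv {X u v : ℝ → ℂ} {L : ℂ} {a : ℝ} (ha : 0 < a) (hL : Tendsto X atTop (𝓝 L))
    (hX : ContinuousOn X (Ioi a)) (hv : ContinuousOn v (Ioi a))
    (hd : ∀ ρ, a < ρ → HasDerivAt u (X ρ / ρ + v ρ) ρ) (hu : IntegrableOn u (Ioi a))
    (hvi : IntegrableOn v (Ioi a)) : L = 0 := by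
  by_contra hne
  have hpos : 0 < ‖L‖ ^ 2 := by positivity
  have hlim : Tendsto (fun ρ => (conj L * X ρ).re) atTop (𝓝 (‖L‖ ^ 2)) := by
    have := (Complex.continuous_re.tendsto _).comp (hL.const_mul (conj L))
    rwa [Complex.conj_mul', ← Complex.ofReal_pow, Complex.ofReal_re] at this
  obtain ⟨b, hb⟩ := eventually_atTop.1 (hlim.eventually (lt_mem_nhds (half_lt_self hpos)))
  obtain ⟨V, M, hV, hM⟩ := odeB_prim hv.norm hvi.norm fun x => norm_nonneg _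
  have hca : ∀ x, max a b < x → a < x := fun x hx => lt_of_le_of_lt (le_max_left a b) hx
  have hm := odeB_mono (a := max a b) (fun x hx => ((odeB_re ((hd x (hca x hx)).const_mul (conj L))).sub
    ((Real.hasDerivAt_log (ha.trans (hca x hx)).ne').const_mul (‖L‖ ^ 2 / 2))).add
    ((hV x (hca x hx)).const_mul ‖L‖)) (fun x hx => by
      have hx0 : 0 < x := ha.trans (hca x hx)
      have h1 := hb x ((le_max_right a b).trans hx.le)
      have h2 : -(‖L‖ * ‖v x‖) ≤ (conj L * v x).re := by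
        have := Complex.abs_re_le_norm (conj L * v x)
        rw [norm_mul, Complex.norm_conj] at this
        exact (abs_le.1 this).1
      rw [mul_add, Complex.add_re, ← mul_div_assoc, Complex.div_ofReal_re, div_eq_mul_inv]
      have h3 := mul_le_mul_of_nonneg_right h1.le (inv_pos.2 hx0).le
      linarith)
  have hc1 : max a b < max a b + 1 := lt_add_one _
  obtain ⟨K, hK⟩ : ∃ K : ℝ, ∀ x, max a b + 1 ≤ x →
      K + ‖L‖ ^ 2 / 2 * Real.log x ≤ (conj L * u x).re := by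
    refine ⟨(conj L * u (max a b + 1)).re - ‖L‖ ^ 2 / 2 * Real.log (max a b + 1) - ‖L‖ * M,
      fun x hx => ?_⟩
    have h1 := hm hc1 (hc1.trans_le hx) hx
    simp only [Pi.sub_apply, Pi.add_apply] at h1
    have h2 := mul_le_mul_of_nonneg_left (hM x (hca x (hc1.trans_le hx))).2 (norm_nonneg L)
    have h3 := mul_nonneg (norm_nonneg L) (hM _ (hca _ hc1)).1
    linarith
  have ht : Tendsto (fun x => K + ‖L‖ ^ 2 / 2 * Real.log x) atTop atTop :=
    tendsto_atTop_add_const_left _ _ (Real.tendsto_log_atTop.const_mul_atTop (half_pos hpos))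
  obtain ⟨d, hd'⟩ := eventually_atTop.1 (ht.eventually_ge_atTop 1)
  have hw : IntegrableOn (fun x => (conj L * u x).re) (Ioi a) := (hu.const_mul (conj L)).re
  obtain ⟨x, hx, hlt⟩ := exists_lt_of_integrableOn hw one_pos (max d (max a b + 1))
  linarith [hd' x ((le_max_left _ _).trans hx), hK x ((le_max_right _ _).trans hx)]

/-- **O1.** B = Re(ȳp)/ρ = (|y|²)'/2 has B' = |p/ρ|² + (Re W/ρ²)|y|² - Re(ȳp)/ρ² ≥ |p/ρ|²/2 - C|y|² on (ρ₀,∞);
there are arbitrarily large X with B(X) ≤ 1 (otherwise |y|² → ∞); so ∫^X |p/ρ|² is bounded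
(`integrableOn_Ioi_of_intervalIntegral_norm_bounded`) -/
theorem NF.l2_p (h0 : 0 < ρ₀) (h1 : NF ν k ρ₀ y p 0) (hy : L2 y) : L2 (fun ρ => p ρ / ρ) := by
  have hyi := hy.on h1.cy
  have hne : ∀ x, ρ₀ < x → (x : ℂ) ≠ 0 := fun x hx => by exact_mod_cast (h0.trans hx).ne'
  have hcy : ContinuousOn y (Ioi ρ₀) := h1.cy.mono Ioi_subset_Ici_self
  have hcq : ContinuousOn (fun ρ : ℝ => p ρ / ρ) (Ioi ρ₀) :=
    (h1.cp.mono Ioi_subset_Ici_self).div Complex.continuous_ofReal.continuousOn hne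
  have hN := fun x hx => odeB_nsq (h1.dy x hx)
  obtain ⟨C, hC⟩ : ∃ C : ℝ, C = 1 / 2 + 2 * (|k.im| * ρ₀⁻¹) + ρ₀⁻¹ ^ 2 := ⟨_, rfl⟩
  have hC0 : 0 ≤ C := by rw [hC]; positivity
  refine ⟨ρ₀ + 1, odeB_int (J := 1) (g := fun x => C * ‖y x‖ ^ 2) (hcq.norm.pow 2)
    (fun x => by positivity) ((hcy.norm.pow 2).const_mul C) (hyi.const_mul C)
    (fun x => by positivity)
    (fun x hx => (odeB_re ((h1.dy x hx).star.mul
      ((h1.dp x hx).fun_div (odeB_ofReal x) (hne x hx)))).const_mul 2) (fun x hx => ?_)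
    (fun X => ?_)⟩
  · have hx0 : 0 < x := h0.trans hx
    have hx1 := hne x hx
    obtain ⟨q, hq⟩ : ∃ q, q = p x / x := ⟨_, rfl⟩
    have hp : p x = q * x := by rw [hq, div_mul_cancel₀ _ hx1]
    have e : star (y x) * (((WW ν k x * y x + (0 : ℝ → ℂ) x) / x * x - p x * 1) / (x : ℂ) ^ 2)
        = ((‖y x‖ ^ 2 : ℝ) : ℂ) * ((((ν * x⁻¹) ^ 2 - 1 / 4 : ℝ) : ℂ) + ((x⁻¹ : ℝ) : ℂ) * (I * (k + 1 / 2)))
          - ((x⁻¹ : ℝ) : ℂ) * (conj (y x) * q) := by
      rw [hp, Complex.ofReal_pow ‖y x‖, ← Complex.conj_mul', WW]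
      simp only [Pi.zero_apply, Complex.star_def]
      push_cast
      field_simp
      ring
    beta_reduce
    rw [← hq, e, Complex.star_def, Complex.conj_mul', ← Complex.ofReal_pow]
    simp only [Complex.add_re, Complex.sub_re, Complex.re_ofReal_mul, Complex.ofReal_re,
      Complex.I_mul_re]
    have him : (k + 1 / 2).im = k.im := by simp
    rw [him]
    have h2 : (conj (y x) * q).re ≤ ‖y x‖ * ‖q‖ := by
      have := Complex.re_le_norm (conj (y x) * q)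
      rwa [norm_mul, Complex.norm_conj] at this
    have hi0 : 0 < x⁻¹ := inv_pos.2 hx0
    have hi1 : x⁻¹ ≤ ρ₀⁻¹ := inv_anti₀ h0 hx.le
    have h3 : x⁻¹ * k.im ≤ |k.im| * ρ₀⁻¹ := by
      rw [mul_comm]
      exact (mul_le_mul_of_nonneg_right (le_abs_self _) hi0.le).trans
        (mul_le_mul_of_nonneg_left hi1 (abs_nonneg _))
    have h4 : x⁻¹ * (conj (y x) * q).re ≤ ρ₀⁻¹ * (‖y x‖ * ‖q‖) :=
      (mul_le_mul_of_nonneg_left h2 hi0.le).trans
        (mul_le_mul_of_nonneg_right hi1 (by positivity))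
    have h5 := mul_le_mul_of_nonneg_left h3 (sq_nonneg ‖y x‖)
    have h6 := mul_nonneg (sq_nonneg ‖y x‖) (sq_nonneg (ν * x⁻¹))
    rw [hC]
    nlinarith [sq_nonneg (ρ₀⁻¹ * ‖y x‖ - ‖q‖)]
  · by_contra hcon
    push Not at hcon
    have hc1 : ∀ x, max X ρ₀ < x → ρ₀ < x := fun x hx => lt_of_le_of_lt (le_max_right _ _) hx
    have hm := odeB_mono (a := max X ρ₀) (fun x hx => (hN x (hc1 x hx)).sub (hasDerivAt_id' x))
      (fun x hx => by
        have := hcon x ((le_max_left _ _).trans hx.le)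
        simp only [Pi.mul_apply, Complex.star_def] at this
        linarith)
    obtain ⟨x, hx, hlt⟩ := exists_lt_of_integrableOn hyi one_pos (max X ρ₀ + 2)
    have h2 := hm (show max X ρ₀ < max X ρ₀ + 1 from lt_add_one _)
      (show max X ρ₀ < x by linarith) (by linarith)
    simp only [Pi.sub_apply] at h2
    linarith [sq_nonneg ‖y (max X ρ₀ + 1)‖]

/-- **O2.** Y = p - k'y, u = |Y|²; by `NF.level` (j = 1) and `lv_succ_snd` ρu' = 2Re(A Ȳ y) - 2 Re k · u ≥ 2u - 2|A|²|y|²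
(as -2 Re k ≥ 5/2).  u/ρ² is integrable (O1).  The function
ρ ↦ u/ρ² - 2|A|² ∫_ρ^∞ |y|²/s³ is monotone and has liminf ≤ 0, so u ≤ 2|A|²M/ρ (M = ∫|y|²); then (ρu)' ≥ 3u - 2|A|²|y|² gives
3∫^X u ≤ X u(X) + C ≤ C'. -/
theorem NF.l2_next (h0 : 0 < ρ₀) (h1 : NF ν k ρ₀ y p 0) (hk : k.re ≤ -5 / 4) (hy : L2 y) :
    L2 (fun ρ => p ρ - kp k ρ * y ρ) := by
  have hyi := hy.on h1.cy
  have hne : ∀ x, ρ₀ < x → (x : ℂ) ≠ 0 := fun x hx => by exact_mod_cast (h0.trans hx).ne'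
  have hcy : ContinuousOn y (Ioi ρ₀) := h1.cy.mono Ioi_subset_Ici_self
  have hcq : ContinuousOn (fun ρ : ℝ => p ρ / ρ) (Ioi ρ₀) :=
    (h1.cp.mono Ioi_subset_Ici_self).div Complex.continuous_ofReal.continuousOn hne
  obtain ⟨A, hA⟩ : ∃ A : ℂ, A = (ν : ℂ) ^ 2 - k ^ 2 := ⟨_, rfl⟩
  obtain ⟨Y, hY⟩ : ∃ Y : ℝ → ℂ, Y = fun ρ => p ρ - kp k ρ * y ρ := ⟨_, rfl⟩
  rw [← hY]
  have hdY : ∀ x, ρ₀ < x → HasDerivAt Y ((A * y x - kp k x * Y x) / x) x := by
    intro x hx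
    have hx1 := hne x hx
    have hk' : HasDerivAt (kp k) (I * 1 / 2) x :=
      (((odeB_ofReal x).const_mul I).div_const 2).const_add k
    rw [hY]
    refine ((h1.dp x hx).sub (hk'.mul (h1.dy x hx))).congr_deriv ?_
    simp only [hA, WW, kp, Pi.zero_apply]
    field_simp
    linear_combination (-4 * (x : ℂ) ^ 2 * y x) * Complex.I_mul_I
  have hcY : ContinuousOn Y (Ioi ρ₀) := fun x hx => (hdY x hx).continuousAt.continuousWithinAt
  obtain ⟨u', hu', hin⟩ : ∃ u' : ℝ → ℝ,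
      (∀ x, ρ₀ < x → HasDerivAt (fun s => ‖Y s‖ ^ 2) (u' x) x) ∧
      ∀ x, ρ₀ < x → 2 * ‖Y x‖ ^ 2 - 2 * ‖A‖ ^ 2 * ‖y x‖ ^ 2 ≤ x * u' x := by
    refine ⟨_, fun x hx => odeB_nsq (hdY x hx), fun x hx => ?_⟩
    have hx0 : 0 < x := h0.trans hx
    have e : conj (Y x) * (A * y x - kp k x * Y x)
        = conj (Y x) * (A * y x) - ((‖Y x‖ ^ 2 : ℝ) : ℂ) * kp k x := by
      rw [Complex.ofReal_pow, ← Complex.conj_mul']
      ring
    have e2 : (kp k x).re = k.re := by simp [kp]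
    rw [← mul_div_assoc, Complex.div_ofReal_re, e, Complex.sub_re, Complex.re_ofReal_mul, e2,
      mul_left_comm, mul_div_cancel₀ _ hx0.ne']
    have h2 : -(‖Y x‖ * (‖A‖ * ‖y x‖)) ≤ (conj (Y x) * (A * y x)).re := by
      have := Complex.abs_re_le_norm (conj (Y x) * (A * y x))
      rw [norm_mul, Complex.norm_conj, norm_mul] at this
      exact (abs_le.1 this).1
    have h3 := mul_le_mul_of_nonneg_left hk (sq_nonneg ‖Y x‖)
    nlinarith [sq_nonneg (‖Y x‖ - 2 * (‖A‖ * ‖y x‖))]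
  have hdiv : L2 (fun ρ => Y ρ / ρ) := by
    have hca : ContinuousOn (fun ρ : ℝ => -(kp k ρ / ρ)) (Ioi ρ₀) := by
      refine (ContinuousOn.div ?_ Complex.continuous_ofReal.continuousOn hne).neg
      unfold kp
      fun_prop
    have hb : ∀ ρ, ρ₀ < ρ → ‖-(kp k ρ / ρ)‖ ≤ ‖k‖ / ρ₀ + 1 / 2 := by
      intro ρ hρ
      have hρ0 : 0 < ρ := h0.trans hρ
      have hρ1 := hne ρ hρ
      have e : kp k ρ / ρ = k / ρ + I / 2 := by
        rw [kp]
        field_simp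
      rw [norm_neg, e]
      refine (norm_add_le _ _).trans (add_le_add ?_ (by simp))
      rw [norm_div, Complex.norm_real, Real.norm_of_nonneg hρ0.le]
      exact div_le_div_of_nonneg_left (norm_nonneg _) h0 hρ.le
    refine ((h1.l2_p h0 hy).add (hy.mul hcy hca hb) hcq (hca.mul hcy)).congr (ρ₀ := ρ₀)
      fun ρ _ => ?_
    rw [hY]
    ring
  obtain ⟨ρ₁, hdi⟩ := hdiv
  obtain ⟨V, M, hV, hM⟩ := odeB_prim (hcy.norm.pow 2) hyi fun x => sq_nonneg _
  have hm := odeB_mono (a := ρ₀)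
    (f := fun x => ‖Y x‖ ^ 2 / x ^ 2 - 2 * ‖A‖ ^ 2 * ((M - V x) / x ^ 3))
    (fun x hx => ((hu' x hx).fun_div (hasDerivAt_pow 2 x) (pow_pos (h0.trans hx) 2).ne').fun_sub
      ((((hV x hx).const_sub M).fun_div (hasDerivAt_pow 3 x)
        (pow_pos (h0.trans hx) 3).ne').const_mul (2 * ‖A‖ ^ 2))) (fun x hx => by
      have hx0 : 0 < x := h0.trans hx
      have h2 := hin x hx
      have h3 := sub_nonneg.2 (hM x hx).2
      have h4 : 0 ≤ (x * u' x - (2 * ‖Y x‖ ^ 2 - 2 * ‖A‖ ^ 2 * ‖y x‖ ^ 2)) / x ^ 3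
          + 6 * ‖A‖ ^ 2 * (M - V x) / x ^ 4 :=
        add_nonneg (div_nonneg (sub_nonneg.2 h2) (by positivity)) (by positivity)
      refine h4.trans_eq ?_
      simp only [Pi.pow_apply]
      push_cast
      field_simp
      ring)
  have hbd : ∀ x, ρ₀ < x → x * ‖Y x‖ ^ 2 ≤ 2 * ‖A‖ ^ 2 * M := by
    intro x hx
    have hx0 : 0 < x := h0.trans hx
    have h2 : ‖Y x‖ ^ 2 / x ^ 2 - 2 * ‖A‖ ^ 2 * ((M - V x) / x ^ 3) ≤ 0 := by
      by_contra hcon
      obtain ⟨z, hz, hlt⟩ := exists_lt_of_integrableOn hdi (not_le.1 hcon) x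
      have hz1 : ρ₀ < z := hx.trans_le hz
      have hz0 : 0 < z := h0.trans hz1
      have h3 := hm hx hz1 hz
      have h4 := sub_nonneg.2 (hM z hz1).2
      have h5 : 0 ≤ 2 * ‖A‖ ^ 2 * ((M - V z) / z ^ 3) := by positivity
      rw [norm_div, Complex.norm_real, Real.norm_of_nonneg hz0.le, div_pow] at hlt
      simp only [] at h3
      linarith
    have h3 := mul_nonpos_of_nonneg_of_nonpos (pow_pos hx0 3).le h2
    have e : x ^ 3 * (‖Y x‖ ^ 2 / x ^ 2 - 2 * ‖A‖ ^ 2 * ((M - V x) / x ^ 3))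
        = x * ‖Y x‖ ^ 2 - 2 * ‖A‖ ^ 2 * (M - V x) := by
      field_simp
    rw [e] at h3
    have h4 := mul_nonneg (sq_nonneg ‖A‖) (hM x hx).1
    linarith
  refine ⟨ρ₀ + 1, odeB_int (J := 2 * ‖A‖ ^ 2 * M) (g := fun x => 2 * ‖A‖ ^ 2 * ‖y x‖ ^ 2)
    (F := fun x => x * ‖Y x‖ ^ 2) (hcY.norm.pow 2)
    (fun x => by positivity) ((hcy.norm.pow 2).const_mul _) (hyi.const_mul _)
    (fun x => by positivity) (fun x hx => (hasDerivAt_id' x).fun_mul (hu' x hx)) (fun x hx => ?_)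
    (fun X => ⟨max X (ρ₀ + 1), le_max_left _ _,
      hbd _ ((lt_add_one ρ₀).trans_le (le_max_right _ _))⟩)⟩
  linarith [hin x hx, sq_nonneg ‖Y x‖]

theorem AdmH.l2_level (h0 : 0 < ρ₀) (h1 : AdmH ν k ρ₀ y p) (hk : k.re ≤ 5 / 2) {j : ℕ} (hj : 4 ≤ j) :
    L2 (fun ρ => (lv ν ρ k (y ρ, p ρ) j).1) := by
  induction j, hj using Nat.le_induction with
  | base => exact h1.l2
  | succ j hj ih =>
    refine (h1.nf.level h0 j).l2_next h0 ?_ ih
    have : (4 : ℝ) ≤ j := by exact_mod_cast hj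
    simp only [Complex.sub_re, Complex.natCast_re]
    linarith

end

end Crest.Agent.R086.N
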