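import Crest.Agent.R086.N.ConvB

open MeasureTheory Set Filter Topology Complex
open scoped ContDiff ComplexConjugate

namespace Crest.Agent.R086.N

noncomputable section

/-! # The three symmetry modes of the limit profile -/

/-- φ₀, φ₁, φ₂ -/
def phi (b : ℝ) (Φ : ℝ → ℂ) : Fin 3 → ℝ → ℂ := ![ph0 Φ, ph1 0 b Φ, ph2 Φ]
/-- φ_i(R+) -/
def phv (b : ℝ) : Fin 3 → ℂ := ![I, I * b, 0]
/-- φ_i'(R+) -/
def phd (b R : ℝ) : Fin 3 → ℂ := ![0, (b : ℂ) * R / 2, -(b : ℂ)]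

variable {b R : ℝ} {Φ : ℝ → ℂ}

theorem R_pos (h : LimProf b R Φ) : 0 < R := by
  have := h.box.2.1
  linarith

theorem box_of (h : LimProf b R Φ) : Box b (R ^ 2 / 4) := by
  have h1 := h.box.2.1
  have h2 := h.box.2.2
  refine ⟨h.box.1, ?_, ?_⟩
  · nlinarith
  · nlinarith

/-- Φ'' = -11Φ'/r - i(-ibΦ + (r/2)Φ') → -b -/
theorem tendsto_dd (h : LimProf b R Φ) : Tendsto (deriv (deriv Φ)) (𝓝[>] R) (𝓝 (-(b : ℂ))) := by
  have hR := R_pos h
  have hc : Tendsto (fun r : ℝ => (r : ℂ)) (𝓝[>] R) (𝓝 (R : ℂ)) :=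
    (Complex.continuous_ofReal.tendsto R).mono_left nhdsWithin_le_nhds
  have hR' : (R : ℂ) ≠ 0 := by exact_mod_cast hR.ne'
  have h1 : Tendsto (fun r : ℝ => -(b : ℂ) * Φ r - I * ((r : ℂ) / 2) * deriv Φ r - 11 / (r : ℂ) * deriv Φ r)
      (𝓝[>] R) (𝓝 (-(b : ℂ) * 1 - I * ((R : ℂ) / 2) * 0 - 11 / (R : ℂ) * 0)) :=
    ((h.val.const_mul _).sub (((hc.div_const 2).const_mul I).mul h.der)).sub
      ((tendsto_const_nhds.div hc hR').mul h.der)
  simp only [mul_one, mul_zero, sub_zero] at h1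
  refine h1.congr' ?_
  filter_upwards [self_mem_nhdsWithin] with r hr
  have := h.free.ode r hr
  simp only [DD, Nat.cast_zero, zero_mul, zero_div, sub_zero, Pi.zero_apply, add_zero] at this
  linear_combination (I : ℂ) * this - (deriv (deriv Φ) r + 11 / (r : ℂ) * deriv Φ r + b * Φ r) * I_mul_I

theorem fr_phi0 (h : LimProf b R Φ) : Fr R 0 (0 - I * b) (ph0 Φ) 0 := by
  have := Fr.smul (R_pos h) (Fr.of_free h.free) I
  rw [show (0 : ℂ) - I * b = -I * b by ring]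
  exact this

theorem phi_diffAt {G : ℝ → ℂ} {n : ℕ} (hs : ContDiffOn ℝ (n + 1 : ℕ) G (Ioi R)) {r : ℝ} (hr : R < r) :
    DifferentiableAt ℝ G r :=
  (hs.contDiffAt (Ioi_mem_nhds hr)).differentiableAt (by simp)

theorem phi_cd_deriv {G : ℝ → ℂ} {n : ℕ} (hs : ContDiffOn ℝ (n + 1 : ℕ) G (Ioi R)) :
    ContDiffOn ℝ n (deriv G) (Ioi R) :=
  hs.deriv_of_isOpen isOpen_Ioi (by norm_cast)

theorem phi_deriv_congr {F G : ℝ → ℂ} (hFG : EqOn F G (Ioi R)) : EqOn (deriv F) (deriv G) (Ioi R) := by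
  intro r hr
  refine Filter.EventuallyEq.deriv_eq ?_
  filter_upwards [Ioi_mem_nhds hr] with s hs using hFG hs

theorem Fr.congr_fun {m : ℕ} {α : ℂ} {F G : ℝ → ℂ} (hR : 0 < R) (h : Fr R m α F 0) (hFG : EqOn F G (Ioi R)) :
    Fr R m α G 0 := by
  refine ⟨h.smooth.congr (fun r hr => (hFG hr).symm), fun r hr => ?_, ?_⟩
  · have h1 : D1 m F r = D1 m G r := D1_congr (m := m) hFG 1 hr
    have h2 := phi_deriv_congr hFG hr
    have h3 := hFG hr
    have h4 := h.ode r hr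
    unfold D1 at h1
    rw [← h1, ← h2, ← h3]
    exact h4
  · refine h.adm.congr (ρ₀ := R ^ 2 / 4) fun ρ hρ => ?_
    unfold yOf
    rw [D1_congr hFG 4 (lt_two_sqrt hR hρ)]

theorem ode_four (h : LimProf b R Φ) : ∀ r : ℝ, R < r → I * DD 0 ((D1 0)^[4] Φ) r =
    (-I * b + 4) * (D1 0)^[4] Φ r + (r : ℂ) / 2 * deriv ((D1 0)^[4] Φ) r + (0 : ℝ → ℂ) r := by
  intro r hr
  have hF := Fr.of_free h.free
  have := ode_iter (m := 0) (α := -I * b) (c := 0) (φ := Φ) (R_pos h) hF.smooth hF.smooth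
    (fun r hr => by simpa using hF.ode r hr) (j := 4) le_rfl r hr
  simpa using this

theorem l2_five (h : LimProf b R Φ) : L2 (yOf (R ^ 2 / 4) (D1 0 ((D1 0)^[4] Φ))) := by
  have hR := R_pos h
  have hF := Fr.of_free h.free
  obtain ⟨y, p, hA, hyp⟩ := Fr.admH hR hF
  have h5 := hA.l2_level (by positivity) (by simp) (j := 5) (by norm_num)
  refine h5.congr (ρ₀ := R ^ 2 / 4) fun ρ hρ => ?_
  have e1 := levels_eq_hom (m := 0) (αs := -I * b) hR (R ^ 2 / 4) hF.smooth (fun r hr => by simpa using hF.ode r hr)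
    (j := 4) le_rfl hρ
  rw [yOf_D1 hR (R ^ 2 / 4) (ode_four h) hρ, (hyp ρ hρ).1, (hyp ρ hρ).2]
  show (lv (nu 0) ρ (5 / 2 - -I * b) (yOf (R ^ 2 / 4) Φ ρ, pOf (R ^ 2 / 4) Φ ρ) (4 + 1)).1 = _
  rw [lv, ← e1]
  simp only [yOf, Pi.zero_apply, mul_zero, add_zero]
  congr 3
  push_cast
  ring

theorem fr_D1 (h : LimProf b R Φ) : Fr R 0 (1 - I * b) (D1 0 Φ) 0 := by
  have hR := R_pos h
  refine ⟨contDiffOn_D1 (n := 10) hR h.free.smooth, fun r hr => ?_, ?_⟩
  · have := ode_D1 (e := 0) hR (h.free.smooth.of_le (by norm_cast)) contDiffOn_const h.free.ode r hr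
    rw [this]
    have h0 : D1 0 (0 : ℝ → ℂ) r = 0 := by simp [D1, DD]
    rw [h0]
    simp only [Pi.zero_apply]
    ring
  · have := l2_five h
    rw [← Function.iterate_succ_apply' (D1 0) 4 Φ] at this
    exact this

/-- φ₁ = -D1 Φ on (R,∞); the equation is `ode_D1`; D1⁴φ₁ = -D1⁵Φ and yOf (D1 (D1⁴Φ)) is level 5 of Φ
(`yOf_D1` with `ode_iter` j = 4, `levels_eq_hom`, `Fr.admH`, `AdmH.l2_level`) -/
theorem fr_phi1 (h : LimProf b R Φ) : Fr R 0 (1 - I * b) (ph1 0 b Φ) 0 := by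
  have hR := R_pos h
  refine Fr.congr_fun hR (Fr.smul hR (fr_D1 h) (-1)) fun r hr => ?_
  have := h.free.ode r hr
  simp only [D1, ph1, this, Pi.zero_apply]
  push_cast
  ring

theorem D1_deriv {G : ℝ → ℂ} (hR : 0 < R) (hs : ContDiffOn ℝ (3 : ℕ) G (Ioi R)) :
    EqOn (D1 1 (deriv G)) (deriv (D1 0 G)) (Ioi R) := by
  intro r hr
  have hr0 : (0 : ℝ) < r := hR.trans hr
  have hr' : (r : ℂ) ≠ 0 := by exact_mod_cast hr0.ne'
  have h1 : ContDiffOn ℝ (2 : ℕ) (deriv G) (Ioi R) := phi_cd_deriv (n := 2) hs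
  have h2 : ContDiffOn ℝ (1 : ℕ) (deriv (deriv G)) (Ioi R) := phi_cd_deriv (n := 1) h1
  have d1 := (phi_diffAt (n := 1) h1 hr).hasDerivAt
  have d2 := (phi_diffAt (n := 0) h2 hr).hasDerivAt
  have dr : HasDerivAt (fun s : ℝ => (s : ℂ)) 1 r := Complex.ofRealCLM.hasDerivAt
  have dq : HasDerivAt (fun s : ℝ => 11 / (s : ℂ)) ((0 * (r : ℂ) - 11 * 1) / (r : ℂ) ^ 2) r :=
    (hasDerivAt_const r (11 : ℂ)).div dr hr'
  have d3 := (d2.add (dq.mul d1)).const_mul I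
  have e : D1 0 G = fun s : ℝ => I * (deriv (deriv G) s + 11 / (s : ℂ) * deriv G s) := by
    funext s
    simp [D1, DD]
  rw [e]
  refine Eq.trans ?_ d3.deriv.symm
  simp only [D1, DD]
  push_cast
  field_simp
  ring

theorem D1_iter_deriv (h : LimProf b R Φ) {j : ℕ} (hj : j ≤ 4) :
    EqOn ((D1 1)^[j] (deriv Φ)) (deriv ((D1 0)^[j] Φ)) (Ioi R) := by
  have hR := R_pos h
  induction j with
  | zero => intro r _; rfl
  | succ j ih =>
    rw [Function.iterate_succ_apply', Function.iterate_succ_apply']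
    have h1 : EqOn (D1 1 ((D1 1)^[j] (deriv Φ))) (D1 1 (deriv ((D1 0)^[j] Φ))) (Ioi R) :=
      D1_congr (m := 1) (ih (by omega)) 1
    refine h1.trans (D1_deriv hR (contDiffOn_D1_iter (n := 3) hR (h.free.smooth.of_le ?_)))
    have : 3 + 2 * j ≤ 12 := by omega
    exact_mod_cast this

theorem yOf_contOn {G : ℝ → ℂ} (hR : 0 < R) (hs : ContDiffOn ℝ (1 : ℕ) G (Ioi R)) :
    ContinuousOn (yOf (R ^ 2 / 4) G) (Ioi (R ^ 2 / 4)) := by
  intro ρ hρ
  have hρ0 : 0 < ρ := lt_trans (by positivity) hρ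
  exact (hasDerivAt_yOf _ hρ0 (phi_diffAt (n := 0) hs (lt_two_sqrt hR hρ))).continuousAt.continuousWithinAt

/-- 𝒟₁(G') = (𝒟₀G)' for G ∈ C³, so (D1 1)^j Φ' = ((D1 0)^j Φ)' on (R,∞) (j ≤ 4, Φ ∈ C¹²);
yOf (G') = (pOf G - β yOf G)/√ρ = (Y₅ - (α+4) y₄)/√ρ for G = D1⁴Φ -/
theorem fr_phi2 (h : LimProf b R Φ) : Fr R 1 (1 / 2 - I * b) (ph2 Φ) 0 := by
  have hR := R_pos h
  have hs := h.free.smooth
  have h11 : ContDiffOn ℝ (11 : ℕ) (deriv Φ) (Ioi R) := phi_cd_deriv (n := 11) hs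
  refine ⟨h11.of_le (by norm_cast), fun r hr => ?_, ?_⟩
  · have e1 : D1 1 (deriv Φ) r = deriv (D1 0 Φ) r := D1_deriv hR (hs.of_le (by norm_cast)) hr
    have e2 : EqOn (D1 0 Φ) (fun s : ℝ => -I * b * Φ s + (s : ℂ) / 2 * deriv Φ s) (Ioi R) := by
      intro s hs'
      simpa [D1] using h.free.ode s hs'
    have d0 := (phi_diffAt (n := 11) hs hr).hasDerivAt
    have d1 := (phi_diffAt (n := 10) h11 hr).hasDerivAt
    have dr : HasDerivAt (fun s : ℝ => (s : ℂ)) 1 r := Complex.ofRealCLM.hasDerivAt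
    have d3 := (d0.const_mul (-I * b)).add ((dr.div_const 2).mul d1)
    have e3 := (phi_deriv_congr e2 hr).trans d3.deriv
    show D1 1 (deriv Φ) r = (1 / 2 - I * b) * deriv Φ r + (r : ℂ) / 2 * deriv (deriv Φ) r + 0
    rw [e1, e3]
    ring
  · have c4 : ContinuousOn (yOf (R ^ 2 / 4) ((D1 0)^[4] Φ)) (Ioi (R ^ 2 / 4)) :=
      yOf_contOn hR (contDiffOn_D1_iter (n := 1) hR (hs.of_le (by norm_cast)))
    have c5 : ContinuousOn (yOf (R ^ 2 / 4) (D1 0 ((D1 0)^[4] Φ))) (Ioi (R ^ 2 / 4)) :=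
      yOf_contOn hR (contDiffOn_D1 (n := 1) hR (contDiffOn_D1_iter (n := 3) hR (hs.of_le (by norm_cast))))
    have l4 := (Fr.of_free h.free).adm
    have l5 := l2_five h
    have m4 : L2 (fun ρ => (-(-I * b + 4)) * yOf (R ^ 2 / 4) ((D1 0)^[4] Φ) ρ) :=
      L2.mul (a := fun _ => -(-I * b + 4)) l4 c4 continuousOn_const (C := ‖-(-I * (b : ℂ) + 4)‖)
        (fun _ _ => le_rfl)
    have s45 := L2.add l5 m4 c5 (continuousOn_const.mul c4)
    have hsq : ∀ ρ : ℝ, R ^ 2 / 4 < ρ → R / 2 < Real.sqrt ρ := fun ρ hρ => by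
      have := lt_two_sqrt hR hρ
      linarith
    have ca : ContinuousOn (fun ρ : ℝ => ((Real.sqrt ρ : ℝ) : ℂ)⁻¹) (Ioi (R ^ 2 / 4)) := by
      refine ContinuousOn.inv₀ (Complex.continuous_ofReal.comp Real.continuous_sqrt).continuousOn
        fun ρ hρ => ?_
      have := hsq ρ hρ
      have : 0 < Real.sqrt ρ := by linarith
      exact_mod_cast this.ne'
    have fin := L2.mul s45 (c5.add (continuousOn_const.mul c4)) ca (C := (R / 2)⁻¹) (fun ρ hρ => by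
      have h1 := hsq ρ hρ
      rw [norm_inv, Complex.norm_real, Real.norm_eq_abs, abs_of_nonneg (Real.sqrt_nonneg ρ)]
      exact inv_anti₀ (by linarith) h1.le)
    refine fin.congr (ρ₀ := R ^ 2 / 4) fun ρ hρ => ?_
    have h1 := hsq ρ hρ
    have h2 : 0 < Real.sqrt ρ := by linarith
    have h3 : ((Real.sqrt ρ : ℝ) : ℂ) ≠ 0 := by exact_mod_cast h2.ne'
    have e1 := D1_iter_deriv h (j := 4) le_rfl (lt_two_sqrt hR hρ)
    have e2 := ode_four h _ (lt_two_sqrt hR hρ)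
    show _ = EE (R ^ 2 / 4) ρ * (D1 1)^[4] (deriv Φ) (2 * Real.sqrt ρ)
    rw [e1]
    simp only [yOf]
    rw [D1, e2]
    simp only [Pi.zero_apply]
    push_cast
    field_simp
    ring

theorem fr_phi (h : LimProf b R Φ) (i : Fin 3) : Fr R (mi i) ((li i : ℂ) - I * b) (phi b Φ i) 0 := by
  fin_cases i
  · simpa [mi, li, phi] using fr_phi0 h
  · simpa [mi, li, phi] using fr_phi1 h
  · simpa [mi, li, phi] using fr_phi2 h

theorem tendsto_phi (h : LimProf b R Φ) (i : Fin 3) :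
    Tendsto (phi b Φ i) (𝓝[>] R) (𝓝 (phv b i)) ∧ Tendsto (deriv (phi b Φ i)) (𝓝[>] R) (𝓝 (phd b R i)) := by
  have hR := R_pos h
  have hc : Tendsto (fun r : ℝ => (r : ℂ)) (𝓝[>] R) (𝓝 (R : ℂ)) :=
    (Complex.continuous_ofReal.tendsto R).mono_left nhdsWithin_le_nhds
  fin_cases i
  · refine ⟨?_, ?_⟩
    · have := h.val.const_mul I
      rw [mul_one] at this
      exact this
    · have := h.der.const_mul I
      rw [mul_zero] at this
      refine this.congr fun r => ?_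
      exact (deriv_const_mul_field I).symm
  · refine ⟨?_, ?_⟩
    · have := (h.val.const_mul (-((0 : ℝ) : ℂ) + I * b)).sub ((hc.div_const 2).mul h.der)
      have e : (-((0 : ℝ) : ℂ) + I * b) * 1 - (R : ℂ) / 2 * 0 = I * b := by simp
      rw [e] at this
      exact this
    · have := (h.der.const_mul (-((0 : ℝ) : ℂ) + I * b)).sub
        ((h.der.const_mul (1 / 2)).add ((hc.div_const 2).mul (tendsto_dd h)))
      have e : (-((0 : ℝ) : ℂ) + I * b) * 0 - (1 / 2 * 0 + (R : ℂ) / 2 * -(b : ℂ)) = (b : ℂ) * R / 2 := by ring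
      rw [e] at this
      refine this.congr' ?_
      filter_upwards [self_mem_nhdsWithin] with r hr
      have hs := h.free.smooth
      have h11 : ContDiffOn ℝ (11 : ℕ) (deriv Φ) (Ioi R) := phi_cd_deriv (n := 11) hs
      have d0 := (phi_diffAt (n := 11) hs hr).hasDerivAt
      have d1 := (phi_diffAt (n := 10) h11 hr).hasDerivAt
      have dr : HasDerivAt (fun s : ℝ => (s : ℂ)) 1 r := Complex.ofRealCLM.hasDerivAt
      have d3 := (d0.const_mul (-((0 : ℝ) : ℂ) + I * b)).sub ((dr.div_const 2).mul d1)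
      exact d3.deriv.symm
  · exact ⟨h.der, tendsto_dd h⟩

theorem bc_phi (h : LimProf b R Φ) (i : Fin 3) : BC R (mi i) (phi b Φ i) (phi b Φ i) := by
  have hR := R_pos h
  have hc : Tendsto (fun r : ℝ => (r : ℂ)) (𝓝[>] R) (𝓝 (R : ℂ)) :=
    (Complex.continuous_ofReal.tendsto R).mono_left nhdsWithin_le_nhds
  have hR' : (R : ℂ) ≠ 0 := by exact_mod_cast hR.ne'
  obtain ⟨h0, h1⟩ := tendsto_phi h i
  have c0 := (Complex.continuous_conj.tendsto _).comp h0
  have c1 := (Complex.continuous_conj.tendsto _).comp h1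
  refine ⟨?_, ?_⟩
  · have := h0.add c0
    have e : phv b i + conj (phv b i) = 0 := by
      fin_cases i <;> simp [phv]
    rw [e] at this
    exact this
  · have := (h1.sub c1).sub (((tendsto_const_nhds (x := ((mi i : ℕ) : ℂ))).div hc hR').mul (h0.sub c0))
    have e : phd b R i - conj (phd b R i) - ((mi i : ℕ) : ℂ) / R * (phv b i - conj (phv b i)) = 0 := by
      fin_cases i <;> simp [phv, phd, mi, map_ofNat]
    rw [e] at this
    exact this

/-- i𝒟φ(R) = α*φ(R) + (R/2)φ'(R) is a nonzero real multiple of `psi0` (b, b, -bR/2) -/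
theorem psi_val (h : LimProf b R Φ) (i : Fin 3) : ∃ t : ℝ, t ≠ 0 ∧
    ((li i : ℂ) - I * b) * phv b i + (R : ℂ) / 2 * phd b R i = t * psi0 b (R ^ 2 / 4) i := by
  have hR := R_pos h
  have hb : 0 < b := by
    have := h.box.1.1
    linarith
  fin_cases i
  · refine ⟨b, hb.ne', ?_⟩
    simp only [li, phv, phd, psi0]
    simp
    linear_combination (-(b : ℂ)) * I_mul_I
  · refine ⟨b, hb.ne', ?_⟩
    simp only [li, phv, phd, psi0]
    simp
    linear_combination (-(b : ℂ) ^ 2) * I_mul_I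
  · refine ⟨-(b * R / 2), (neg_neg_of_pos (by positivity)).ne, ?_⟩
    simp only [li, phv, phd, psi0]
    simp
    ring

end

end Crest.Agent.R086.N
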