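import Crest.Agent.R086.N.Phi
import Crest.Agent.R086.N.Dat

open MeasureTheory Set Filter Topology Complex
open scoped ContDiff ComplexConjugate

namespace Crest.Agent.R086.N

noncomputable section

/-! # Reduction of `LimitStmt` to the algebraic statements -/

variable {b R : ℝ} {Φ : ℝ → ℂ}

theorem kk_F (lam : ℂ) (b : ℝ) : 5 / 2 - (lam - I * b) = kk lam.re lam.im b := by
  unfold kk
  linear_combination (re_add_im lam)

theorem kk_G (lam : ℂ) (b : ℝ) : 5 / 2 - (conj lam - I * b) = kk lam.re (-lam.im) b := by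
  unfold kk
  have e : conj lam = (lam.re : ℂ) - lam.im * I := by
    apply Complex.ext <;> simp
  rw [e]
  push_cast
  ring

private theorem red_nu_pos (m : ℕ) : 0 < nu m := by
  unfold nu
  positivity

private theorem red_box {b ρ : ℝ} (h : Box b ρ) : ρ ∈ Icc (2.7 : ℝ) 2.71 :=
  ⟨le_trans (by norm_num) h.2.1, le_trans h.2.2 (by norm_num)⟩

private theorem red_mult {R : ℝ} (hR : 0 < R) {f φ y Φ : ℝ → ℂ} {d : ℂ}
    (e1 : ∀ ρ, R ^ 2 / 4 < ρ → y ρ = yOf (R ^ 2 / 4) f ρ)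
    (e2 : ∀ ρ, R ^ 2 / 4 < ρ → Φ ρ = yOf (R ^ 2 / 4) φ ρ)
    (h : ∀ ρ, R ^ 2 / 4 < ρ → y ρ - d * Φ ρ = 0) : ∀ r, R < r → f r = d * φ r := by
  intro r hr
  refine sub_eq_zero.1 (eq_zero_of_yOf (F := fun r => f r - d * φ r) hR (R ^ 2 / 4) (fun ρ hρ => ?_) r hr)
  have := h ρ hρ
  rw [e1 ρ hρ, e2 ρ hρ] at this
  unfold yOf at this ⊢
  linear_combination this

/-- `Fr.admH`, `AdmH.dat` at ρ = R²/4, `bc_val`, `FarStmt`, `NF.eq_zero`, `eq_zero_of_yOf` -/
theorem far_zero (hfar : FarStmt) (h : LimProf b R Φ) {m : ℕ} {lam : ℂ} {f G : ℝ → ℂ} (h0 : 0 ≤ lam.re)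
    (h1 : lam.re ≤ 33 / 10) (hz : ∀ i : Fin 3, mi i = m → ¬ Zone i lam.re lam.im)
    (hf : Fr R m (lam - I * b) f 0) (hG : Fr R m (conj lam - I * b) G 0) (hb : BC R m f G) :
    ∀ r, R < r → f r = 0 ∧ G r = 0 := by
  have hR := R_pos h
  have hbox := box_of h
  have hρ : 0 < R ^ 2 / 4 := by positivity
  obtain ⟨yF, pF, aF, eF⟩ := hf.admH hR
  obtain ⟨yG, pG, aG, eG⟩ := hG.admH hR
  obtain ⟨b1, b2⟩ := bc_val hR hb aF.nf.cy aF.nf.cp aG.nf.cy aG.nf.cp eF eG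
  rw [kk_F] at aF
  rw [kk_G] at aG
  have dF := aF.dat hρ (red_nu_pos m) (by rw [kk_re]; linarith) le_rfl (red_box hbox)
  have dG := aG.dat hρ (red_nu_pos m) (by rw [kk_re]; linarith) le_rfl (red_box hbox)
  obtain ⟨z1, z2, z3⟩ := hfar m lam.re lam.im b _ _ _ _ _ hbox h0 h1 hz ⟨dF, dG, b1, b2⟩
  change yF _ = 0 at z1
  change pF _ = 0 at z2
  change pG _ = 0 at z3
  have z4 : yG (R ^ 2 / 4) = 0 := by rw [b1, z1, map_zero, neg_zero]
  intro r hr
  exact ⟨eq_zero_of_yOf hR _ (fun ρ h' => (eF ρ h').1 ▸ (aF.nf.eq_zero hρ le_rfl z1 z2 ρ h'.le).1) r hr,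
    eq_zero_of_yOf hR _ (fun ρ h' => (eG ρ h').1 ▸ (aG.nf.eq_zero hρ le_rfl z4 z3 ρ h'.le).1) r hr⟩

/-- with ỹ = 0 the Wronskian vanishes at level 4 (`bnd`) and, as ν² ≠ (ks-j)² (Im ks = b ≠ 0), at all lower levels -/
theorem Dat2.om_zero {ν ρ : ℝ} {k ks : ℂ} {y p Φ Q w : ℕ → ℂ} (h : Dat2 ν ρ k ks y p Φ Q w) (hks : ks.im ≠ 0)
    (hy : y 0 = 0) (hp : p 0 = 0) : w 0 = 0 := by
  have z : ∀ j, y j = 0 ∧ p j = 0 := by
    intro j
    induction j with
    | zero => exact ⟨hy, hp⟩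
    | succ j ih => rw [h.d1.lad1, h.d1.lad2, ih.1, ih.2]; simp
  have h4 : w 4 = 0 := by
    have := h.bnd 4 le_rfl
    rw [(z 4).1] at this
    norm_num at this
    exact this
  have step : ∀ j, w (j + 1) = 0 → w j = 0 := by
    intro j hj
    have e := h.rc j
    rw [hj, (z j).1, (z j).2] at e
    have e' : ((ν : ℂ) - (ks - j)) * (((ν : ℂ) + (ks - j)) * w j) = 0 := by linear_combination e
    rcases mul_eq_zero.1 e' with h1 | h1
    · exact absurd (by simpa using congrArg Complex.im h1) hks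
    rcases mul_eq_zero.1 h1 with h2 | h2
    · exact absurd (by simpa using congrArg Complex.im h2) hks
    · exact h2
  exact step 0 (step 1 (step 2 (step 3 h4)))

/-- the last algebraic step at λ = λ*: both sides are multiples of (Φ,Q) ≠ 0 with conjugate coefficients -/
theorem coeff_conj {ν : ℝ} {yF pF yG pG Φ Q : ℂ} (hne : Φ ≠ 0 ∨ Q ≠ 0) (wF : pF * Φ - yF * Q = 0)
    (wG : pG * Φ - yG * Q = 0) (h1 : yG = -conj yF) (h2 : pF - conj pG = 2 * ν * yF)
    (h3 : Φ = -conj Φ) (h4 : Q - conj Q = 2 * ν * Φ) :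
    ∃ d : ℂ, yF = d * Φ ∧ pF = d * Q ∧ yG = conj d * Φ ∧ pG = conj d * Q := by
  by_cases h0 : Φ = 0
  · have hQ : Q ≠ 0 := hne.resolve_left (not_not.2 h0)
    subst h0
    have y0 : yF = 0 := by
      have : yF * Q = 0 := by linear_combination -wF
      exact (mul_eq_zero.1 this).resolve_right hQ
    subst y0
    have hq : conj Q = Q := by linear_combination -h4
    have hp : conj pG = pF := by linear_combination -h2
    refine ⟨pF / Q, by simp, by field_simp, by simp [h1], ?_⟩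
    rw [map_div₀, hq, ← hp, conj_conj]
    field_simp
  · have hc : conj Φ = -Φ := by linear_combination h3
    have e1 : yF = yF / Φ * Φ := by field_simp
    have e3 : yG = conj (yF / Φ) * Φ := by
      rw [map_div₀, hc, h1]
      field_simp
    refine ⟨yF / Φ, e1, mul_right_cancel₀ h0 ?_, e3, mul_right_cancel₀ h0 ?_⟩
    · linear_combination wF + Q * e1
    · linear_combination wG + Q * e3

/-- φ = phi i, (Φ,Q) from `Fr.admH`, (y,p) from `Fr.admF` on both sides, μ = λ - λ*.  `AdmF.dat2` at ρ₀; the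
tilde data satisfy `Md` (from `bc_val` for (f,G) and (φ,φ)); w_F + conj w_G = 0 by the same relations;
Φ₁ = Q - k'Φ = (R/2)⁵ (α*φ(R) + (R/2)φ'(R)) (`val_of_tendsto`, `psi_val`).  `NearStmt false` gives zero tilde data,
so μ y + cΦ ≡ 0 (`AdmF.tilde`, `NF.eq_zero`).  μ ≠ 0: d = -c/μ.  μ = 0: c = 0 because (Φ,Q)(ρ₀) ≠ 0 (Φ₁ ≠ 0);
`Dat2.om_zero`, `coeff_conj`, `NF.sub_smul`, `NF.eq_zero`. -/
theorem near_mult (hnear : NearStmt false) (h : LimProf b R Φ) (i : Fin 3) {lam c : ℂ} {f G : ℝ → ℂ}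
    (h0 : 0 ≤ lam.re) (hz : Zone i lam.re lam.im)
    (hf : Fr R (mi i) (lam - I * b) f (fun r => c * phi b Φ i r))
    (hG : Fr R (mi i) (conj lam - I * b) G (fun r => conj c * phi b Φ i r)) (hb : BC R (mi i) f G) :
    ∃ d : ℂ, ∀ r, R < r → f r = d * phi b Φ i r ∧ G r = conj d * phi b Φ i r := by
  have hR := R_pos h
  have hbox := box_of h
  have hρ : 0 < R ^ 2 / 4 := by positivity
  have hν := red_nu_pos (mi i)
  have hφ := fr_phi h i
  obtain ⟨U, Q, aφ, eφ⟩ := hφ.admH hR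
  obtain ⟨yF, pF, aF, eF⟩ := hf.admF hR hφ aφ eφ
  obtain ⟨yG, pG, aG, eG⟩ := hG.admF hR hφ aφ eφ
  obtain ⟨b1, b2⟩ := bc_val hR hb aF.nf.cy aF.nf.cp aG.nf.cy aG.nf.cp eF eG
  obtain ⟨b3, b4⟩ := bc_val hR (bc_phi h i) aφ.nf.cy aφ.nf.cp aφ.nf.cy aφ.nf.cp eφ eφ
  obtain ⟨v1, v2⟩ := val_of_tendsto hR aφ.nf.cy aφ.nf.cp eφ (tendsto_phi h i).1 (tendsto_phi h i).2
  obtain ⟨t, ht, hpsi⟩ := psi_val h i
  have hli : 0 ≤ li i := by
    fin_cases i <;> simp [li]
  have hks : 5 / 2 - ((li i : ℂ) - I * b) = kk (li i) 0 b := by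
    unfold kk
    push_cast
    ring
  have hμF : kk (li i) 0 b - kk lam.re lam.im b = lam - li i := by
    rw [← hks, ← kk_F]
    ring
  have hμG : kk (li i) 0 b - kk lam.re (-lam.im) b = conj (lam - li i) := by
    rw [← hks, ← kk_G, map_sub, conj_ofReal]
    ring
  have hU1 : Q (R ^ 2 / 4) - kp (kk (li i) 0 b - (0 : ℕ)) (R ^ 2 / 4) * U (R ^ 2 / 4) =
      (((R / 2) ^ 5 * t : ℝ) : ℂ) * psi0 b (R ^ 2 / 4) i := by
    rw [v1, v2, ← hks, ofReal_mul, mul_assoc, ← hpsi]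
    unfold kp
    push_cast
    ring
  have ht' : (R / 2) ^ 5 * t ≠ 0 := mul_ne_zero (by positivity) ht
  rw [kk_F, hks] at aF
  rw [kk_G, hks] at aG
  rw [hks] at aφ
  have dF := aF.dat2 hρ hν (by rw [kk_re]; linarith) (by rw [kk_re]; linarith) le_rfl (red_box hbox)
  have dG := aG.dat2 hρ hν (by rw [kk_re]; linarith) (by rw [kk_re]; linarith) le_rfl (red_box hbox)
  have tF := (aF.tilde hρ).nf
  have tG := (aG.tilde hρ).nf
  have nF := aF.nf
  have nG := aG.nf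
  rw [hμF] at dF tF
  rw [hμG] at dG tG
  have cU : conj (U (R ^ 2 / 4)) = -U (R ^ 2 / 4) := by linear_combination b3
  have cy : conj (yG (R ^ 2 / 4)) = -yF (R ^ 2 / 4) := by rw [b1, map_neg, conj_conj]
  have m1 : conj (lam - li i) * yG (R ^ 2 / 4) + conj c * U (R ^ 2 / 4) =
      -conj ((lam - li i) * yF (R ^ 2 / 4) + c * U (R ^ 2 / 4)) := by
    rw [map_add, map_mul, map_mul, cU, b1]
    ring
  have m2 : (lam - li i) * pF (R ^ 2 / 4) + c * Q (R ^ 2 / 4) -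
      conj (conj (lam - li i) * pG (R ^ 2 / 4) + conj c * Q (R ^ 2 / 4)) =
      2 * (nu (mi i) : ℂ) * ((lam - li i) * yF (R ^ 2 / 4) + c * U (R ^ 2 / 4)) := by
    rw [map_add, map_mul, map_mul, conj_conj, conj_conj]
    linear_combination (lam - li i) * b2 + c * b4
  have m3 : (pF (R ^ 2 / 4) * U (R ^ 2 / 4) - yF (R ^ 2 / 4) * Q (R ^ 2 / 4)) +
      conj (pG (R ^ 2 / 4) * U (R ^ 2 / 4) - yG (R ^ 2 / 4) * Q (R ^ 2 / 4)) = 0 := by
    rw [map_sub, map_mul, map_mul, cU, cy]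
    linear_combination U (R ^ 2 / 4) * b2 - yF (R ^ 2 / 4) * b4
  obtain ⟨z1, z2, z3⟩ := hnear i lam.re lam.im b _ _ _ _ _ _ _ _ _ _ hbox h0 hz
    (fun h' => absurd h' Bool.false_ne_true) ⟨dF.d1, dG.d1, m1, m2⟩ dF dG m3 ht' hU1
  change (lam - li i) * yF _ + c * U _ = 0 at z1
  change (lam - li i) * pF _ + c * Q _ = 0 at z2
  change conj (lam - li i) * pG _ + conj c * Q _ = 0 at z3
  have z4 : conj (lam - li i) * yG (R ^ 2 / 4) + conj c * U (R ^ 2 / 4) = 0 := by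
    rw [m1, z1, map_zero, neg_zero]
  suffices H : ∃ d : ℂ, ∀ ρ, R ^ 2 / 4 < ρ → yF ρ - d * U ρ = 0 ∧ yG ρ - conj d * U ρ = 0 by
    obtain ⟨d, hd⟩ := H
    exact ⟨d, fun r hr =>
      ⟨red_mult hR (fun ρ h' => (eF ρ h').1) (fun ρ h' => (eφ ρ h').1) (fun ρ h' => (hd ρ h').1) r hr,
        red_mult hR (fun ρ h' => (eG ρ h').1) (fun ρ h' => (eφ ρ h').1) (fun ρ h' => (hd ρ h').2) r hr⟩⟩
  by_cases hμ : lam - li i = 0
  · have hne : U (R ^ 2 / 4) ≠ 0 ∨ Q (R ^ 2 / 4) ≠ 0 := by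
      by_contra hc
      push Not at hc
      rw [hc.1, hc.2, mul_zero, sub_zero] at hU1
      rcases mul_eq_zero.1 hU1.symm with h' | h'
      · exact ht' (ofReal_eq_zero.1 h')
      · fin_cases i
        · simp [psi0] at h'
        · have := congrArg Complex.im h'
          simp [psi0, -ofReal_div, -ofReal_pow] at this
        · simp [psi0] at h'
    have hc : c = 0 := by
      rw [hμ, zero_mul, zero_add] at z1 z2
      rcases hne with h' | h'
      · exact (mul_eq_zero.1 z1).resolve_right h'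
      · exact (mul_eq_zero.1 z2).resolve_right h'
    have him : (kk (li i) 0 b).im ≠ 0 := by
      rw [kk_im, sub_zero]
      exact ne_of_gt (lt_of_lt_of_le (by norm_num) hbox.1.1)
    have wF := dF.om_zero him z1 z2
    have wG := dG.om_zero him z4 z3
    obtain ⟨d, d1, d2, d3, d4⟩ := coeff_conj hne wF wG b1 b2 b3 b4
    have kF : kk lam.re lam.im b = kk (li i) 0 b := by linear_combination -hμ - hμF
    have kG : kk lam.re (-lam.im) b = kk (li i) 0 b := by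
      rw [hμ, map_zero] at hμG
      linear_combination -hμG
    have e0 : ∀ c' : ℂ, c' = 0 → (fun ρ : ℝ => -I * ρ * (c' * U ρ)) = 0 := by
      intro c' h'
      funext ρ
      simp [h']
    rw [kF, e0 c hc] at nF
    rw [kG, e0 (conj c) (by rw [hc, map_zero])] at nG
    exact ⟨d, fun ρ h' =>
      ⟨((nF.sub_smul aφ.nf d).eq_zero hρ le_rfl (sub_eq_zero.2 d1) (sub_eq_zero.2 d2) ρ h'.le).1,
        ((nG.sub_smul aφ.nf (conj d)).eq_zero hρ le_rfl (sub_eq_zero.2 d3) (sub_eq_zero.2 d4) ρ h'.le).1⟩⟩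
  · have hμ' : conj (lam - li i) ≠ 0 := by rwa [map_ne_zero]
    refine ⟨-c / (lam - li i), fun ρ h' => ⟨?_, ?_⟩⟩
    · have := (tF.eq_zero hρ le_rfl z1 z2 ρ h'.le).1
      field_simp
      linear_combination this
    · have := (tG.eq_zero hρ le_rfl z4 z3 ρ h'.le).1
      rw [map_div₀, map_neg]
      field_simp
      linear_combination this

end

end Crest.Agent.R086.N
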