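import Crest.Agent.R086.N.Red

open MeasureTheory Set Filter Topology Complex
open scoped ContDiff ComplexConjugate

namespace Crest.Agent.R086.N

noncomputable section

/-! # `LimitStmt` from the algebraic statements -/

/-- remove the forcing c φ_i when λ ≠ λ*_i (`Fr.add_smul` with a = c/(λ-λ*), and conj a on the G side) -/
theorem remove {b R : ℝ} {Φ : ℝ → ℂ} (h : LimProf b R Φ) (i : Fin 3) {lam c : ℂ} {f G e e' : ℝ → ℂ}
    (hne : lam ≠ li i) (hf : Fr R (mi i) (lam - I * b) f (fun r => e r + c * phi b Φ i r))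
    (hG : Fr R (mi i) (conj lam - I * b) G (fun r => e' r + conj c * phi b Φ i r)) (hb : BC R (mi i) f G) :
    Fr R (mi i) (lam - I * b) (fun r => f r + c / (lam - li i) * phi b Φ i r) e ∧
    Fr R (mi i) (conj lam - I * b) (fun r => G r + conj (c / (lam - li i)) * phi b Φ i r) e' ∧
    BC R (mi i) (fun r => f r + c / (lam - li i) * phi b Φ i r)
      (fun r => G r + conj (c / (lam - li i)) * phi b Φ i r) := by
  have hR := R_pos h
  have hφ := fr_phi h i
  have h1 : lam - li i ≠ 0 := sub_ne_zero.2 hne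
  have h2 : c / (lam - li i) * (lam - I * b - (li i - I * b)) = c := by
    rw [sub_sub_sub_cancel_right, div_mul_cancel₀ _ h1]
  have h3 : conj (c / (lam - li i)) * (conj lam - I * b - (li i - I * b)) = conj c := by
    rw [sub_sub_sub_cancel_right, ← Complex.conj_ofReal (li i), ← map_sub, ← map_mul,
      Complex.conj_ofReal, div_mul_cancel₀ _ h1]
  refine ⟨(hf.add_smul hR hφ _).congr_forcing fun r _ => ?_,
    (hG.add_smul hR hφ _).congr_forcing fun r _ => ?_,
    hb.add_smul hR (bc_phi h i) (hf.smooth.of_le (by norm_num)) (hG.smooth.of_le (by norm_num))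
      (hφ.smooth.of_le (by norm_num)) _⟩
  · rw [h2, add_sub_cancel_right]
  · rw [h3, add_sub_cancel_right]

private theorem ne_of_not_zone {i : Fin 3} {lam : ℂ} (h : ¬ Zone i lam.re lam.im) : lam ≠ li i := by
  rintro rfl
  have : 0 ≤ ri i := by fin_cases i <;> simp [ri]
  exact h ⟨by simpa using this, by simpa using this⟩

private theorem one_mode (hfar : FarStmt) (hnear : NearStmt false) {b R : ℝ} {Φ : ℝ → ℂ}
    (h : LimProf b R Φ) (i : Fin 3) {lam c : ℂ} {f G : ℝ → ℂ} (h0 : 0 ≤ lam.re)
    (h1 : lam.re ≤ 33 / 10) (hz : ∀ i' : Fin 3, mi i' = mi i → i' ≠ i → ¬ Zone i' lam.re lam.im)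
    (hf : Fr R (mi i) (lam - I * b) f (fun r => c * phi b Φ i r))
    (hG : Fr R (mi i) (conj lam - I * b) G (fun r => conj c * phi b Φ i r)) (hb : BC R (mi i) f G) :
    ∃ d : ℂ, ∀ r, R < r → f r = d * phi b Φ i r ∧ G r = conj d * phi b Φ i r := by
  by_cases hi : Zone i lam.re lam.im
  · exact near_mult hnear h i h0 hi hf hG hb
  · obtain ⟨a1, a2, a3⟩ := remove h i (c := c) (e := 0) (e' := 0) (ne_of_not_zone hi)
      (hf.congr_forcing fun r _ => by simp) (hG.congr_forcing fun r _ => by simp) hb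
    have a4 := far_zero hfar h h0 h1
      (fun i' hi' => if e : i' = i then e ▸ hi else hz i' hi' e) a1 a2 a3
    refine ⟨-(c / (lam - li i)), fun r hr => ⟨?_, ?_⟩⟩
    · linear_combination (a4 r hr).1
    · rw [map_neg]
      linear_combination (a4 r hr).2

/-- phc 0 b Φ c₀ c₁ c₂ = c₀ φ₀ + c₁ φ₁ + c₂ φ₂.  m ≥ 2: no forcing, `far_zero`.  m = 1: Zone 2 → `near_mult`, else
`remove` and `far_zero`.  m = 0: Zone 0 → remove φ₁, `near_mult 0`; Zone 1 → remove φ₀, `near_mult 1`; else remove both.
(λ*_i itself lies in Zone i, and Zone 0, Zone 1 do not contain the other eigenvalue.) -/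
theorem limit_of (hfar : FarStmt) (hnear : NearStmt false) : LimitStmt := by
  intro b R Φ h m lam c₀ c₁ c₂ f G h0 h1 hA hf hG hb0 hb1
  have hf' := Fr.of_free hf
  have hG' := Fr.of_free hG
  have hb : BC R m f G := ⟨hb0, hb1⟩
  have hp : ∀ (x y z : ℂ) (r : ℝ),
      phc 0 b Φ x y z r = x * phi b Φ 0 r + y * phi b Φ 1 r + z * phi b Φ 2 r := fun _ _ _ _ => rfl
  rcases m with _ | _ | m
  · have hc : c₂ = 0 := hA.2 (by norm_num)
    subst hc
    by_cases hz : Zone 1 lam.re lam.im
    · have hz0 : ¬ Zone 0 lam.re lam.im := fun hz0 => by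
        have a := abs_le.1 hz.1
        have a' := abs_le.1 hz0.1
        simp only [li, ri, Matrix.cons_val_zero, Matrix.cons_val_one] at a a'
        linarith [a.1, a'.2]
      obtain ⟨a1, a2, a3⟩ := remove h 0 (c := c₀) (e := fun r => c₁ * phi b Φ 1 r)
        (e' := fun r => conj c₁ * phi b Φ 1 r) (ne_of_not_zone hz0)
        (hf'.congr_forcing fun r _ => by rw [hp]; ring)
        (hG'.congr_forcing fun r _ => by rw [hp, map_zero]; ring) hb
      obtain ⟨d, hd⟩ := one_mode hfar hnear h 1 h0 h1 (fun i hi hne => by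
        fin_cases i
        · exact hz0
        · exact absurd rfl hne
        · exact absurd hi (by decide)) a1 a2 a3
      refine ⟨-(c₀ / (lam - li 0)), d, 0, ⟨fun e => absurd rfl e, fun _ => rfl⟩,
        fun r hr => ⟨?_, congrArg _ ?_⟩⟩
      · rw [hp]
        linear_combination (hd r hr).1
      · rw [hp, map_neg, map_zero]
        linear_combination (hd r hr).2
    · obtain ⟨a1, a2, a3⟩ := remove h 1 (c := c₁) (e := fun r => c₀ * phi b Φ 0 r)
        (e' := fun r => conj c₀ * phi b Φ 0 r) (ne_of_not_zone hz)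
        (hf'.congr_forcing fun r _ => by rw [hp]; ring)
        (hG'.congr_forcing fun r _ => by rw [hp, map_zero]; ring) hb
      obtain ⟨d, hd⟩ := one_mode hfar hnear h 0 h0 h1 (fun i hi hne => by
        fin_cases i
        · exact absurd rfl hne
        · exact hz
        · exact absurd hi (by decide)) a1 a2 a3
      refine ⟨d, -(c₁ / (lam - li 1)), 0, ⟨fun e => absurd rfl e, fun _ => rfl⟩,
        fun r hr => ⟨?_, congrArg _ ?_⟩⟩
      · rw [hp]
        linear_combination (hd r hr).1
      · rw [hp, map_neg, map_zero]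
        linear_combination (hd r hr).2
  · obtain ⟨rfl, rfl⟩ := hA.1 (by norm_num)
    obtain ⟨d, hd⟩ := one_mode hfar hnear h 2 (c := c₂) h0 h1 (fun i hi hne => by
        fin_cases i
        · exact absurd hi (by decide)
        · exact absurd hi (by decide)
        · exact absurd rfl hne)
      (hf'.congr_forcing fun r _ => by rw [hp]; ring)
      (hG'.congr_forcing fun r _ => by rw [hp, map_zero]; ring) hb
    refine ⟨0, 0, d, ⟨fun _ => ⟨rfl, rfl⟩, fun e => absurd rfl e⟩, fun r hr => ⟨?_, congrArg _ ?_⟩⟩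
    · rw [hp]
      linear_combination (hd r hr).1
    · rw [hp, map_zero]
      linear_combination (hd r hr).2
  · obtain ⟨rfl, rfl⟩ := hA.1 (by omega)
    obtain rfl := hA.2 (by omega)
    have a := far_zero hfar h h0 h1 (fun i hi => by fin_cases i <;> simp [mi] at hi)
      (hf'.congr_forcing (e' := 0) fun r _ => by rw [hp]; simp)
      (hG'.congr_forcing (e' := 0) fun r _ => by rw [hp]; simp) hb
    refine ⟨0, 0, 0, ⟨fun _ => ⟨rfl, rfl⟩, fun _ => rfl⟩, fun r hr => ⟨?_, congrArg _ ?_⟩⟩
    · rw [hp, (a r hr).1]; simp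
    · rw [hp, (a r hr).2]; simp

end

end Crest.Agent.R086.N
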