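import Crest.Agent.R086.N.Eng

open MeasureTheory Set Filter Topology Complex
open scoped ContDiff ComplexConjugate

namespace Crest.Agent.R086.N

noncomputable section

/-! # Gluing boxes -/

def FarH : Prop := ∀ (t : Tr) (sa sb ta tb ma mb : ℕ), chkFar t sa sb ta tb ma mb = true → FarBox sa sb ta tb ma mb
def NearH : Prop := ∀ (i : Fin 3) (t : Tr) (sa sb ta tb : ℕ),
  chkNear (miN i) (liN i) (psiB i) t sa sb ta tb = true → NearBox i sa sb ta tb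

theorem fS {sa x sb ta tb ma mb : ℕ} (l : FarBox sa x ta tb ma mb) (r : FarBox x sb ta tb ma mb) :
    FarBox sa sb ta tb ma mb := by
  intro m σ τ b ρ yF pF yG pG hb h0 h1 h2 h3 a1 a2 a3 a4 a5 a6 hz hM
  rcases le_total (SS * σ) (x : ℝ) with h | h
  · exact l m σ τ b ρ yF pF yG pG hb h0 h1 h2 h3 a1 h a3 a4 a5 a6 hz hM
  · exact r m σ τ b ρ yF pF yG pG hb h0 h1 h2 h3 h a2 a3 a4 a5 a6 hz hM

theorem fT {sa sb ta x tb ma mb : ℕ} (l : FarBox sa sb ta x ma mb) (r : FarBox sa sb x tb ma mb) :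
    FarBox sa sb ta tb ma mb := by
  intro m σ τ b ρ yF pF yG pG hb h0 h1 h2 h3 a1 a2 a3 a4 a5 a6 hz hM
  rcases le_total (SS * τ) (x : ℝ) with h | h
  · exact l m σ τ b ρ yF pF yG pG hb h0 h1 h2 h3 a1 a2 a3 h a5 a6 hz hM
  · exact r m σ τ b ρ yF pF yG pG hb h0 h1 h2 h3 a1 a2 h a4 a5 a6 hz hM

theorem fM {sa sb ta tb ma x x' mb : ℕ} (hx : x' = x + 1) (l : FarBox sa sb ta tb ma x)
    (r : FarBox sa sb ta tb x' mb) : FarBox sa sb ta tb ma mb := by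
  intro m σ τ b ρ yF pF yG pG hb h0 h1 h2 h3 a1 a2 a3 a4 a5 a6 hz hM
  rcases le_or_gt m x with h | h
  · exact l m σ τ b ρ yF pF yG pG hb h0 h1 h2 h3 a1 a2 a3 a4 a5 h hz hM
  · exact r m σ τ b ρ yF pF yG pG hb h0 h1 h2 h3 a1 a2 a3 a4 (by omega) a6 hz hM

theorem nS {i : Fin 3} {sa x sb ta tb : ℕ} (l : NearBox i sa x ta tb) (r : NearBox i x sb ta tb) :
    NearBox i sa sb ta tb := by
  intro σ τ b ρ t yF pF yG pG Φ Q wF wG hb a1 a2 a3 a4
  rcases le_total (SS * σ) (x : ℝ) with h | h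
  · exact l σ τ b ρ t yF pF yG pG Φ Q wF wG hb a1 h a3 a4
  · exact r σ τ b ρ t yF pF yG pG Φ Q wF wG hb h a2 a3 a4

theorem nT {i : Fin 3} {sa sb ta x tb : ℕ} (l : NearBox i sa sb ta x) (r : NearBox i sa sb x tb) :
    NearBox i sa sb ta tb := by
  intro σ τ b ρ t yF pF yG pG Φ Q wF wG hb a1 a2 a3 a4
  rcases le_total (SS * τ) (x : ℝ) with h | h
  · exact l σ τ b ρ t yF pF yG pG Φ Q wF wG hb a1 a2 a3 h
  · exact r σ τ b ρ t yF pF yG pG Φ Q wF wG hb a1 a2 h a4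

end

end Crest.Agent.R086.N
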